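import Vale.Agent.P352.H496.Net

set_option linter.all false

noncomputable section

open MeasureTheory SchwartzMap Complex Filter Topology
open scoped SchwartzMap ComplexConjugate ENNReal LineDeriv

namespace Vale.Agent.P352.H496

open GF (Ix V Fn Sch ev pd bar sim bas o)
open H246
open UniformSpace (Completion)

/-! ### Geometry of null vectors -/

lemma gm (x y : V) : GF.mdot x y = x 0 * y 0 - x 1 * y 1 - x 2 * y 2 - x 3 * y 3 := gf_mdot x y

lemma gm_comm (x y : V) : GF.mdot x y = GF.mdot y x := by rw [gm, gm]; ring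

lemma gm_sub (x y z : V) : GF.mdot x (y - z) = GF.mdot x y - GF.mdot x z := by
  simp only [gm, Pi.sub_apply]; ring

lemma gm_add (x y z : V) : GF.mdot x (y + z) = GF.mdot x y + GF.mdot x z := by
  simp only [gm, Pi.add_apply]; ring

lemma gm_smul (x y : V) (c : ℝ) : GF.mdot x (c • y) = c * GF.mdot x y := by
  simp only [gm, Pi.smul_apply, smul_eq_mul]; ring

lemma gm_zero (x : V) : GF.mdot x 0 = 0 := by simp [gm]

/-- vectors orthogonal to a null vector are not timelike -/
lemma orth_nonpos {a x : V} (ha : IsNull a) (h : GF.mdot a x = 0) : GF.mdot x x ≤ 0 := by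
  obtain ⟨h1, h2⟩ := ha
  rw [gm] at h1 h ⊢
  change 0 < a 0 at h2
  have h3 : a 0 ^ 2 = a 1 ^ 2 + a 2 ^ 2 + a 3 ^ 2 := by linarith
  have h4 : a 0 * x 0 = a 1 * x 1 + a 2 * x 2 + a 3 * x 3 := by linarith
  have h5 : (a 0 * x 0) ^ 2 ≤ a 0 ^ 2 * (x 1 ^ 2 + x 2 ^ 2 + x 3 ^ 2) := by
    rw [h4, h3]
    nlinarith [sq_nonneg (a 1 * x 2 - a 2 * x 1), sq_nonneg (a 1 * x 3 - a 3 * x 1),
      sq_nonneg (a 2 * x 3 - a 3 * x 2)]
  have h6 : a 0 ^ 2 * (x 0 ^ 2 - (x 1 ^ 2 + x 2 ^ 2 + x 3 ^ 2)) ≤ 0 := by nlinarith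
  have h7 : 0 < a 0 ^ 2 := by positivity
  have h8 : x 0 ^ 2 - (x 1 ^ 2 + x 2 ^ 2 + x 3 ^ 2) ≤ 0 := by
    by_contra hc
    push Not at hc
    have := mul_pos h7 hc
    linarith
  nlinarith

/-- Cauchy-Schwarz inequality in the orthogonal complement of a null vector -/
lemma orth_cs {a x y : V} (ha : IsNull a) (hx : GF.mdot a x = 0) (hy : GF.mdot a y = 0) :
    GF.mdot x y ^ 2 ≤ GF.mdot x x * GF.mdot y y := by
  have h : ∀ t : ℝ, 0 ≤ (-GF.mdot y y) * (t * t) + (-2 * GF.mdot x y) * t + (-GF.mdot x x) := by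
    intro t
    have h1 : GF.mdot a (x + t • y) = 0 := by rw [gm_add, gm_smul, hx, hy]; ring
    have h2 := orth_nonpos ha h1
    have h3 : GF.mdot (x + t • y) (x + t • y) =
        GF.mdot x x + 2 * t * GF.mdot x y + t * t * GF.mdot y y := by
      simp only [gm, Pi.add_apply, Pi.smul_apply, smul_eq_mul]; ring
    rw [h3] at h2
    linarith
  have := discrim_le_zero h
  unfold discrim at this
  nlinarith

/-- comparison of horizons -/
lemma horizon {a b c z : V} (ha : IsNull a) (hb : IsNull b) (hc : IsNull c)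
    (hab : 0 < GF.mdot a b) (hac : 0 < GF.mdot a c) (hz : GF.mdot a z = 0) :
    ∃ x, x = GF.mdot b z / GF.mdot a b - GF.mdot c z / GF.mdot a c ∧
      x ^ 2 ≤ (2 * GF.mdot b c / (GF.mdot a b * GF.mdot a c)) * (-GF.mdot z z) := by
  refine ⟨_, rfl, ?_⟩
  set w : V := (GF.mdot a b)⁻¹ • b - (GF.mdot a c)⁻¹ • c with hw
  have h1 : GF.mdot a w = 0 := by
    rw [hw, gm_sub, gm_smul, gm_smul]
    field_simp
    ring
  have h2 := orth_cs ha h1 hz
  have h3 : GF.mdot w z = GF.mdot b z / GF.mdot a b - GF.mdot c z / GF.mdot a c := by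
    rw [gm_comm, hw, gm_sub, gm_smul, gm_smul, gm_comm z b, gm_comm z c]
    field_simp
  have h4 : GF.mdot w w = -(2 * GF.mdot b c / (GF.mdot a b * GF.mdot a c)) := by
    have e1 : GF.mdot w b = -(GF.mdot b c / GF.mdot a c) := by
      rw [gm_comm, hw, gm_sub, gm_smul, gm_smul, hb.1]
      field_simp
      ring
    have e2 : GF.mdot w c = GF.mdot b c / GF.mdot a b := by
      rw [gm_comm, hw, gm_sub, gm_smul, gm_smul, hc.1, gm_comm c b]
      field_simp
      ring
    have e3 : GF.mdot w w = (GF.mdot a b)⁻¹ * GF.mdot w b - (GF.mdot a c)⁻¹ * GF.mdot w c := by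
      conv_lhs => rw [hw]
      rw [gm_comm, ← hw, hw, gm_sub, gm_smul, gm_smul, ← hw]
    rw [e3, e1, e2]
    field_simp
    ring
  rw [h3, h4] at h2
  linarith

/-- the two null vectors used to connect wedges -/
lemma exists_null {a a' : V} (ha : IsNull a) (ha' : IsNull a') :
    ∃ c, IsNull c ∧ 0 < GF.mdot a c ∧ 0 < GF.mdot a' c := by
  set c1 : V := ![1, 1, 0, 0] with hc1
  set c2 : V := ![1, -1, 0, 0] with hc2
  set c3 : V := ![1, 0, 1, 0] with hc3
  have n1 : IsNull c1 := ⟨by simp [gm, hc1], by simp [hc1, o]⟩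
  have n2 : IsNull c2 := ⟨by simp [gm, hc2], by simp [hc2, o]⟩
  have n3 : IsNull c3 := ⟨by simp [gm, hc3], by simp [hc3, o]⟩
  have key : ∀ a : V, IsNull a → (0 < GF.mdot a c1 ∧ 0 < GF.mdot a c2) ∨
      (0 < GF.mdot a c1 ∧ 0 < GF.mdot a c3) ∨ (0 < GF.mdot a c2 ∧ 0 < GF.mdot a c3) := by
    intro a ha
    obtain ⟨h1, h2⟩ := ha
    rw [gm] at h1
    change 0 < a 0 at h2
    have e1 : GF.mdot a c1 = a 0 - a 1 := by simp [gm, hc1]
    have e2 : GF.mdot a c2 = a 0 + a 1 := by simp [gm, hc2]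
    have e3 : GF.mdot a c3 = a 0 - a 2 := by simp [gm, hc3]
    rw [e1, e2, e3]
    have b1 : |a 1| ≤ a 0 := abs_le_of_sq_le_sq (by nlinarith [sq_nonneg (a 2), sq_nonneg (a 3)]) h2.le
    have b2 : |a 2| ≤ a 0 := abs_le_of_sq_le_sq (by nlinarith [sq_nonneg (a 1), sq_nonneg (a 3)]) h2.le
    rw [abs_le] at b1 b2
    rcases lt_or_eq_of_le b1.2 with h | h
    · rcases lt_or_eq_of_le b1.1 with h' | h'
      · left; constructor <;> linarith
      · right; left
        refine ⟨by linarith, ?_⟩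
        have : a 2 = 0 := by
          have : a 2 ^ 2 = 0 := by nlinarith [sq_nonneg (a 2), sq_nonneg (a 3)]
          exact pow_eq_zero_iff two_ne_zero |>.1 this
        linarith
    · right; right
      refine ⟨by linarith, ?_⟩
      have : a 2 = 0 := by
        have : a 2 ^ 2 = 0 := by nlinarith [sq_nonneg (a 2), sq_nonneg (a 3)]
        exact pow_eq_zero_iff two_ne_zero |>.1 this
      linarith
  rcases key a ha with h | h | h <;> rcases key a' ha' with h' | h' | h'
  · exact ⟨c1, n1, h.1, h'.1⟩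
  · exact ⟨c1, n1, h.1, h'.1⟩
  · exact ⟨c2, n2, h.2, h'.1⟩
  · exact ⟨c1, n1, h.1, h'.1⟩
  · exact ⟨c1, n1, h.1, h'.1⟩
  · exact ⟨c3, n3, h.2, h'.2⟩
  · exact ⟨c2, n2, h.1, h'.2⟩
  · exact ⟨c3, n3, h.2, h'.2⟩
  · exact ⟨c2, n2, h.1, h'.1⟩

/-- all pairs of null vectors are connected -/
lemma connect {P : V → V → Prop}
    (hr : ∀ a b c, IsNull a → IsNull b → IsNull c → 0 < GF.mdot a b → 0 < GF.mdot a c →
      P a b → P a c)
    (hl : ∀ a b c, IsNull a → IsNull b → IsNull c → 0 < GF.mdot a b → 0 < GF.mdot c b →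
      P a b → P c b)
    {a b a' b' : V} (ha : IsNull a) (hb : IsNull b) (ha' : IsNull a') (hb' : IsNull b')
    (hab : 0 < GF.mdot a b) (hab' : 0 < GF.mdot a' b') (h : P a b) : P a' b' := by
  obtain ⟨c, hc, h1, h2⟩ := exists_null ha ha'
  exact hr a' c b' ha' hc hb' h2 hab' (hl a c a' ha hc ha' h1 h2 (hr a b c ha hb hc hab h1 h))

lemma wdg_shift (a b v x : V) : (fun y => y + x) '' Wdg a b v = Wdg a b (v + x) := by
  ext y
  constructor
  · rintro ⟨z, hz, rfl⟩
    have : z + x - (v + x) = z - v := by abel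
    exact ⟨by rw [this]; exact hz.1, by rw [this]; exact hz.2⟩
  · intro hy
    refine ⟨y - x, ?_, by simp⟩
    have : y - x - v = y - (v + x) := by abel
    exact ⟨by rw [this]; exact hy.1, by rw [this]; exact hy.2⟩

variable {D : Type*} [NormedAddCommGroup D] [InnerProductSpace ℂ D]
variable {Q : GF.Theory D}
variable {H : D → D} {alg : Set V → Set (D → D)} {S : V → ℝ → D → D}

/-- a point like functional -/
def pt (φ : Completion D) (B : D → D) (v : D) : ℂ := inner ℂ φ ((B v : D) : Completion D)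

/-- the reflected relation for `Y`, on one wedge -/
def Rel (Q : GF.Theory D) (alg : Set V → Set (D → D)) (φ : Completion D) (B Y Y' : D → D)
    (a b : V) : Prop :=
  ∀ X ∈ alg (Wdg a b 0), ∀ X', Adj X X' → pt φ B (Y (X Q.vac)) = conj (pt φ B (X' (Y' Q.vac)))

section

variable (N : Net Q H alg S) {φ : Completion D} {B : D → D} (hB : B ∈ alg Set.univ)
include N hB

lemma adj_mem {O : Set V} {X X' : D → D} (hX : X ∈ alg O) (h : Adj X X') : X' ∈ alg O := by
  obtain ⟨Z, hZ, hadj⟩ := N.adj O X hX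
  have : X' = Z := Adj.unique h hadj
  rwa [this]

lemma mem_univ {O : Set V} {X : D → D} (hX : X ∈ alg O) : X ∈ alg Set.univ :=
  N.mono O Set.univ (Set.subset_univ _) hX

/-- norm continuity of operators on translates -/
lemma cont_norm {X : D → D} (hX : X ∈ alg Set.univ) (v : D) :
    Tendsto (fun x : V => X (Q.U 1 GF.one x v)) (𝓝 0) (𝓝 (X v)) := by
  obtain ⟨Y, hY, hadj⟩ := N.adj _ X hX
  obtain ⟨C, m, hC⟩ := N.transl_bdd _ (N.mul _ Y hY X hX) v
  have hC0 : 0 ≤ C := by
    have := (norm_nonneg _).trans (hC 0)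
    simpa using this
  have hU0 : Q.U 1 GF.one (0 : V) v = v := U1_zero_all (Q := Q) v
  have hU : Tendsto (fun x : V => Q.U 1 GF.one x v) (𝓝 0) (𝓝 v) := by
    have h1 := continuous_U1a (Q := Q) v
    have h2 := (h1.comp (by fun_prop : Continuous fun x : V => (WithLp.toLp 2 x : Mink))).tendsto 0
    have h3 : U1 Q (WithLp.toLp 2 (0 : V)) v = v := U1_zero_all (Q := Q) v
    simp only [Function.comp_apply, h3] at h2
    exact h2
  have hYX : ∀ v w, Y (X (v - w)) = Y (X v) - Y (X w) := by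
    intro v w
    have hXa : Adj X Y := hadj
    have e1 : v - w = v + (-1 : ℂ) • w := by rw [neg_one_smul, sub_eq_add_neg]
    rw [e1, hXa.add, hXa.smul, hXa.symm.add, hXa.symm.smul, neg_one_smul, ← sub_eq_add_neg]
  have hXs : ∀ v w, X (v - w) = X v - X w := by
    intro v w
    have hXa : Adj X Y := hadj
    have e1 : v - w = v + (-1 : ℂ) • w := by rw [neg_one_smul, sub_eq_add_neg]
    rw [e1, hXa.add, hXa.smul, neg_one_smul, ← sub_eq_add_neg]
  rw [tendsto_iff_norm_sub_tendsto_zero]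
  have hsq : ∀ x : V, ‖X (Q.U 1 GF.one x v) - X v‖ ^ 2 ≤
      (C * (1 + ‖x‖) ^ m + C) * ‖Q.U 1 GF.one x v - v‖ := by
    intro x
    rw [← hXs]
    set u := Q.U 1 GF.one x v - v with hu
    have h1 : ((‖X u‖ ^ 2 : ℝ) : ℂ) = inner ℂ u (Y (X u)) := by
      rw [← hadj, inner_self_eq_norm_sq_to_K]
      push_cast; rfl
    have h2 : ‖X u‖ ^ 2 ≤ ‖u‖ * ‖Y (X u)‖ := by
      have h3 : ‖((‖X u‖ ^ 2 : ℝ) : ℂ)‖ ≤ ‖u‖ * ‖Y (X u)‖ := by
        rw [h1]; exact norm_inner_le_norm _ _
      rwa [norm_real, Real.norm_of_nonneg (by positivity)] at h3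
    refine h2.trans ?_
    rw [mul_comm]
    apply mul_le_mul_of_nonneg_right _ (norm_nonneg _)
    rw [hu, hYX]
    refine (norm_sub_le _ _).trans (add_le_add (hC x) ?_)
    have := hC 0
    rw [hU0, norm_zero, add_zero, one_pow, mul_one] at this
    exact this
  have hlim : Tendsto (fun x : V => (C * (1 + ‖x‖) ^ m + C) * ‖Q.U 1 GF.one x v - v‖) (𝓝 0)
      (𝓝 0) := by
    have h1 : Tendsto (fun x : V => C * (1 + ‖x‖) ^ m + C) (𝓝 0)
        (𝓝 (C * (1 + ‖(0 : V)‖) ^ m + C)) := by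
      have : Continuous fun x : V => C * (1 + ‖x‖) ^ m + C := by fun_prop
      exact this.tendsto 0
    have h2 := (tendsto_iff_norm_sub_tendsto_zero.1 hU)
    simpa using h1.mul h2
  have h9 : Tendsto (fun x : V => ‖X (Q.U 1 GF.one x v) - X v‖ ^ 2) (𝓝 0) (𝓝 0) :=
    squeeze_zero (fun x => by positivity) hsq hlim
  have h8 := (Real.continuous_sqrt.tendsto 0).comp h9
  rw [Real.sqrt_zero] at h8
  refine h8.congr fun a => ?_
  simp [Real.sqrt_sq (norm_nonneg _)]

variable (hBU : ∀ (x : V) v, B (Q.U 1 GF.one x v) = Q.U 1 GF.one x (B v))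
include hBU

/-- removing the translation -/
lemma rel_lim {Y Y' X X' : D → D} (hY : Y ∈ alg Set.univ) (hY' : Y' ∈ alg Set.univ)
    (hX : X ∈ alg Set.univ) (hX' : X' ∈ alg Set.univ) (x : V)
    (h : ∀ ε : ℝ, 0 < ε → pt φ B (Y (Q.U 1 GF.one (ε • x) (X Q.vac))) =
      conj (pt φ B (Q.U 1 GF.one (ε • x) (X' (Q.U 1 GF.one (-(ε • x)) (Y' Q.vac)))))) :
    pt φ B (Y (X Q.vac)) = conj (pt φ B (X' (Y' Q.vac))) := by
  set e : ℕ → ℝ := fun j => 1 / ((j : ℝ) + 1) with he
  have he0 : ∀ j, 0 < e j := fun j => by simp only [he]; positivity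
  have het : Tendsto (fun j => e j • x) atTop (𝓝 0) := by
    have := (tendsto_one_div_add_atTop_nhds_zero_nat (𝕜 := ℝ)).smul_const x
    rwa [zero_smul] at this
  have h1 : Tendsto (fun j => pt φ B (Y (Q.U 1 GF.one (e j • x) (X Q.vac)))) atTop
      (𝓝 (pt φ B (Y (X Q.vac)))) := by
    have h2 := (cont_norm N hB (N.mul _ B hB Y hY) (X Q.vac)).comp het
    unfold pt
    exact ((continuous_const.inner (Completion.continuous_coe D) :
      Continuous fun v : D => inner ℂ φ (v : Completion D)).tendsto _).comp h2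
  have h3 : Tendsto (fun j => pt φ B (Q.U 1 GF.one (e j • x)
      (X' (Q.U 1 GF.one (-(e j • x)) (Y' Q.vac))))) atTop (𝓝 (pt φ B (X' (Y' Q.vac)))) := by
    have het' : Tendsto (fun j => -(e j • x)) atTop (𝓝 0) := by simpa using het.neg
    have h2 := (cont_norm N hB (N.mul _ B hB X' hX') (Y' Q.vac)).comp het'
    have h4 : Tendsto (fun j => Q.U 1 GF.one (e j • x)
        (B (X' (Q.U 1 GF.one (-(e j • x)) (Y' Q.vac))))) atTop (𝓝 (B (X' (Y' Q.vac)))) := by
      rw [tendsto_iff_norm_sub_tendsto_zero] at h2 ⊢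
      have h5 : Tendsto (fun j => ‖Q.U 1 GF.one (e j • x) (B (X' (Y' Q.vac))) -
          B (X' (Y' Q.vac))‖) atTop (𝓝 0) := by
        have h6 := (cont_norm N hB (N.one Set.univ) (B (X' (Y' Q.vac)))).comp het
        exact tendsto_iff_norm_sub_tendsto_zero.1 h6
      refine squeeze_zero (fun j => norm_nonneg _) (fun j => ?_) (by simpa using h2.add h5)
      set p := B (X' (Q.U 1 GF.one (-(e j • x)) (Y' Q.vac))) with hp
      set q := B (X' (Y' Q.vac)) with hq
      have e1 : Q.U 1 GF.one (e j • x) p - q = (Q.U 1 GF.one (e j • x) p -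
          Q.U 1 GF.one (e j • x) q) + (Q.U 1 GF.one (e j • x) q - q) := by abel
      rw [e1]
      refine (norm_add_le _ _).trans ?_
      apply add_le_add_left
      have e2 : Q.U 1 GF.one (e j • x) p - Q.U 1 GF.one (e j • x) q =
          U1 Q (WithLp.toLp 2 (e j • x)) (p - q) := (U1_sub _ _ _).symm
      rw [e2, U1_norm]
    unfold pt
    have h7 := ((continuous_const.inner (Completion.continuous_coe D) :
      Continuous fun v : D => inner ℂ φ (v : Completion D)).tendsto _).comp h4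
    refine h7.congr fun j => ?_
    simp only [Function.comp_apply]
    rw [hBU]
  have h5 := (Complex.continuous_conj.tendsto _).comp h3
  refine tendsto_nhds_unique h1 (h5.congr fun j => ?_)
  exact (h (e j) (he0 j)).symm

variable (inv : ∀ a, IsNull a → ∀ s v, pt φ B (S a s v) = pt φ B v)
include inv

/-- the common analytic continuation argument -/
lemma rel_ana {a : V} (ha : IsNull a) {Y Y' X X' : D → D} (hY : Y ∈ alg Set.univ)
    (hX' : X' ∈ alg Set.univ) {s0 : ℝ}
    (h : (∀ s, s0 ≤ s → pt φ B (Y (S a s (X Q.vac))) =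
        conj (pt φ B (S a s (X' (S a (-s) (Y' Q.vac)))))) ∨
      ∀ s, s ≤ s0 → pt φ B (Y (S a s (X Q.vac))) =
        conj (pt φ B (S a s (X' (S a (-s) (Y' Q.vac)))))) :
    pt φ B (Y (X Q.vac)) = conj (pt φ B (X' (Y' Q.vac))) := by
  obtain ⟨k, hk⟩ := up_op N ha φ (N.mul _ B hB Y hY) (X Q.vac)
  obtain ⟨l, hl⟩ := up_op N ha φ (N.mul _ B hB X' hX') (Y' Q.vac)
  have hu := (hk.mono (le_max_left k l)).sub (hl.conj_neg.mono (le_max_right k l))
  have e : ∀ s, pt φ B (Y (S a s (X Q.vac))) =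
      conj (pt φ B (S a s (X' (S a (-s) (Y' Q.vac))))) →
      inner ℂ φ ((B (Y (S a s (X Q.vac))) : D) : Completion D) -
        conj (inner ℂ φ ((B (X' (S a (-s) (Y' Q.vac))) : D) : Completion D)) = 0 := by
    intro s hs
    rw [inv a ha] at hs
    exact sub_eq_zero.2 hs
  have h0 : inner ℂ φ ((B (Y (S a 0 (X Q.vac))) : D) : Completion D) -
        conj (inner ℂ φ ((B (X' (S a (-0) (Y' Q.vac))) : D) : Completion D)) = 0 := by
    rcases h with h | h
    · exact hu.zero_right (fun s hs => e s (h s hs)) 0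
    · exact hu.zero_left (fun s hs => e s (h s hs)) 0
  rw [neg_zero, S_zero N ha, S_zero N ha] at h0
  exact sub_eq_zero.1 h0

/-- changing the second null vector -/
theorem rel_right {Y Y' : D → D} (hY : Y ∈ alg Set.univ) (hY' : Y' ∈ alg Set.univ) {a b c : V}
    (ha : IsNull a) (hb : IsNull b) (hc : IsNull c) (hab : 0 < GF.mdot a b)
    (hac : 0 < GF.mdot a c) (h : Rel Q alg φ B Y Y' a b) : Rel Q alg φ B Y Y' a c := by
  intro X hX X' hXX'
  have hX' := adj_mem N hB hX hXX'
  refine rel_lim N hB hBU hY hY' (mem_univ N hB hX) (mem_univ N hB hX') a fun ε hε => ?_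
  set Z : D → D := fun v => Q.U 1 GF.one (ε • a) (X (Q.U 1 GF.one (-(ε • a)) v)) with hZ
  set Z' : D → D := fun v => Q.U 1 GF.one (ε • a) (X' (Q.U 1 GF.one (-(ε • a)) v)) with hZ'
  have mZ : Z ∈ alg (Wdg a c (0 + ε • a)) := by
    rw [← wdg_shift]; exact N.transl _ _ X hX
  have mZ' : Z' ∈ alg (Wdg a c (0 + ε • a)) := by
    rw [← wdg_shift]; exact N.transl _ _ X' hX'
  have hadj : Adj Z Z' := by
    intro v w
    have e1 := U1_move (Q := Q) (WithLp.toLp 2 (ε • a))
    have e2 := U1_move (Q := Q) (WithLp.toLp 2 (-(ε • a)))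
    have e3 : inner ℂ (Z v) w = inner ℂ (X (Q.U 1 GF.one (-(ε • a)) v))
        (Q.U 1 GF.one (-(ε • a)) w) := by
      have := e2 (X (Q.U 1 GF.one (-(ε • a)) v)) w
      rw [hZ]
      refine Eq.trans ?_ this.symm
      have hn : -(WithLp.toLp 2 (-(ε • a)) : Mink) = WithLp.toLp 2 (ε • a) := by
        ext i; simp
      rw [hn]
    have e4 : inner ℂ v (Z' w) = inner ℂ (Q.U 1 GF.one (-(ε • a)) v)
        (X' (Q.U 1 GF.one (-(ε • a)) w)) := by
      have := e1 v (X' (Q.U 1 GF.one (-(ε • a)) w))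
      rw [hZ']
      refine Eq.trans this ?_
      have hn : -(WithLp.toLp 2 (ε • a) : Mink) = WithLp.toLp 2 (-(ε • a)) := by
        ext i; simp
      rw [hn]
    rw [e3, e4, hXX']
  have hUv : ∀ x, Q.U 1 GF.one x Q.vac = Q.vac := fun x => Q.U_vac _ _ _ one_pos isLor_one
  have hZv : Z Q.vac = Q.U 1 GF.one (ε • a) (X Q.vac) := by
    simp only [hZ, hUv]
  rw [← hZv]
  change pt φ B (Y (Z Q.vac)) = conj (pt φ B (Z' (Y' Q.vac)))
  set κ := 2 * GF.mdot b c / (GF.mdot a b * GF.mdot a c) with hκ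
  refine rel_ana N hB hBU inv ha hY (mem_univ N hB mZ') (s0 := κ / (4 * ε)) (Or.inl fun s hs => ?_)
  have hav : GF.mdot a (0 + ε • a) = 0 := by rw [gm_add, gm_smul, gm_zero, ha.1]; ring
  have hgeo := N.S_right a c b (0 + ε • a) 0 s ha hc hb hac hab hav (gm_zero a)
    (fun z hz hcz => by
      obtain ⟨x, hx, hx2⟩ := horizon ha hb hc hab hac hz
      rw [← hκ] at hx2
      have hR : 0 ≤ -GF.mdot z z := by have := orth_nonpos ha hz; linarith
      have hcz' : ε < GF.mdot c z / GF.mdot a c := by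
        rw [gm_sub, gm_add, gm_zero, gm_smul, zero_add, gm_comm c a] at hcz
        rw [lt_div_iff₀ hac]; linarith
      have h1 : GF.mdot b (shf a s z - 0) = GF.mdot a b * (GF.mdot b z / GF.mdot a b +
          s * (-GF.mdot z z)) := by
        unfold shf
        rw [sub_zero, gm_sub, gm_smul, gm_comm b a]
        field_simp
        ring
      rw [h1]
      apply mul_pos hab
      have h2 : x ^ 2 / (4 * ε) ≤ s * (-GF.mdot z z) := by
        calc x ^ 2 / (4 * ε) ≤ κ * (-GF.mdot z z) / (4 * ε) := by gcongr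
          _ = (κ / (4 * ε)) * (-GF.mdot z z) := by ring
          _ ≤ _ := by gcongr
      have h3 : 0 ≤ ε + x + x ^ 2 / (4 * ε) := by
        have : ε + x + x ^ 2 / (4 * ε) = (x + 2 * ε) ^ 2 / (4 * ε) := by
          field_simp
          ring
        rw [this]; positivity
      linarith)
  have hX1 := hgeo Z mZ
  have hS : Adj (fun u => S a s (Z (S a (-s) u))) (fun u => S a s (Z' (S a (-s) u))) := by
    intro v w
    rw [S_move N ha, hadj]
    have := S_move N ha (-s) v (Z' (S a (-s) w))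
    rw [neg_neg] at this
    exact this
  have := h _ hX1 _ hS
  simp only [N.S_vac a (-s) ha] at this
  exact this

/-- changing the first null vector -/
theorem rel_left {Y Y' : D → D} (hY : Y ∈ alg Set.univ) (hY' : Y' ∈ alg Set.univ) {a b c : V}
    (ha : IsNull a) (hb : IsNull b) (hc : IsNull c) (hab : 0 < GF.mdot a b)
    (hac : 0 < GF.mdot a c) (h : Rel Q alg φ B Y Y' b a) : Rel Q alg φ B Y Y' c a := by
  intro X hX X' hXX'
  have hX' := adj_mem N hB hX hXX'
  refine rel_lim N hB hBU hY hY' (mem_univ N hB hX) (mem_univ N hB hX') (-a) fun ε hε => ?_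
  set Z : D → D := fun v => Q.U 1 GF.one (ε • -a) (X (Q.U 1 GF.one (-(ε • -a)) v)) with hZ
  set Z' : D → D := fun v => Q.U 1 GF.one (ε • -a) (X' (Q.U 1 GF.one (-(ε • -a)) v)) with hZ'
  have mZ : Z ∈ alg (Wdg c a (0 + ε • -a)) := by
    rw [← wdg_shift]; exact N.transl _ _ X hX
  have mZ' : Z' ∈ alg (Wdg c a (0 + ε • -a)) := by
    rw [← wdg_shift]; exact N.transl _ _ X' hX'
  have hadj : Adj Z Z' := by
    intro v w
    have e1 := U1_move (Q := Q) (WithLp.toLp 2 (ε • -a))
    have e2 := U1_move (Q := Q) (WithLp.toLp 2 (-(ε • -a)))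
    have e3 : inner ℂ (Z v) w = inner ℂ (X (Q.U 1 GF.one (-(ε • -a)) v))
        (Q.U 1 GF.one (-(ε • -a)) w) := by
      have := e2 (X (Q.U 1 GF.one (-(ε • -a)) v)) w
      rw [hZ]
      refine Eq.trans ?_ this.symm
      have hn : -(WithLp.toLp 2 (-(ε • -a)) : Mink) = WithLp.toLp 2 (ε • -a) := by
        ext i; simp
      rw [hn]
    have e4 : inner ℂ v (Z' w) = inner ℂ (Q.U 1 GF.one (-(ε • -a)) v)
        (X' (Q.U 1 GF.one (-(ε • -a)) w)) := by
      have := e1 v (X' (Q.U 1 GF.one (-(ε • -a)) w))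
      rw [hZ']
      refine Eq.trans this ?_
      have hn : -(WithLp.toLp 2 (ε • -a) : Mink) = WithLp.toLp 2 (-(ε • -a)) := by
        ext i; simp
      rw [hn]
    rw [e3, e4, hXX']
  have hUv : ∀ x, Q.U 1 GF.one x Q.vac = Q.vac := fun x => Q.U_vac _ _ _ one_pos isLor_one
  have hZv : Z Q.vac = Q.U 1 GF.one (ε • -a) (X Q.vac) := by
    simp only [hZ, hUv]
  rw [← hZv]
  change pt φ B (Y (Z Q.vac)) = conj (pt φ B (Z' (Y' Q.vac)))
  set κ := 2 * GF.mdot b c / (GF.mdot a b * GF.mdot a c) with hκ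
  refine rel_ana N hB hBU inv ha hY (mem_univ N hB mZ') (s0 := -(κ / (4 * ε)))
    (Or.inr fun s hs => ?_)
  have hav : GF.mdot a (0 + ε • -a) = 0 := by
    rw [gm_add, gm_smul, gm_zero]
    have : GF.mdot a (-a) = 0 := by
      have := gm_smul a a (-1)
      rw [ha.1, neg_one_smul] at this
      rw [this]; ring
    rw [this]; ring
  have hgeo := N.S_left a c b (0 + ε • -a) 0 s ha hc hb hac hab hav (gm_zero a)
    (fun z hz hcz => by
      obtain ⟨x, hx, hx2⟩ := horizon ha hb hc hab hac hz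
      rw [← hκ] at hx2
      have hR : 0 ≤ -GF.mdot z z := by have := orth_nonpos ha hz; linarith
      have hcz' : GF.mdot c z / GF.mdot a c < -ε := by
        have hna : GF.mdot c (-a) = -GF.mdot a c := by
          have := gm_smul c a (-1)
          rw [neg_one_smul, gm_comm c a] at this
          rw [this]; ring
        rw [gm_sub, gm_add, gm_zero, gm_smul, zero_add, hna] at hcz
        rw [div_lt_iff₀ hac]; linarith
      have h1 : GF.mdot b (shf a s z - 0) = GF.mdot a b * (GF.mdot b z / GF.mdot a b +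
          s * (-GF.mdot z z)) := by
        unfold shf
        rw [sub_zero, gm_sub, gm_smul, gm_comm b a]
        field_simp
        ring
      rw [h1]
      apply mul_neg_of_pos_of_neg hab
      have h2 : x ^ 2 / (4 * ε) ≤ -s * (-GF.mdot z z) := by
        calc x ^ 2 / (4 * ε) ≤ κ * (-GF.mdot z z) / (4 * ε) := by gcongr
          _ = (κ / (4 * ε)) * (-GF.mdot z z) := by ring
          _ ≤ _ := by
            apply mul_le_mul_of_nonneg_right _ hR
            linarith
      have h3 : 0 ≤ ε - x + x ^ 2 / (4 * ε) := by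
        have : ε - x + x ^ 2 / (4 * ε) = (x - 2 * ε) ^ 2 / (4 * ε) := by
          field_simp
          ring
        rw [this]; positivity
      linarith)
  have hX1 := hgeo Z mZ
  have hS : Adj (fun u => S a s (Z (S a (-s) u))) (fun u => S a s (Z' (S a (-s) u))) := by
    intro v w
    rw [S_move N ha, hadj]
    have := S_move N ha (-s) v (Z' (S a (-s) w))
    rw [neg_neg] at this
    exact this
  have := h _ hX1 _ hS
  simp only [N.S_vac a (-s) ha] at this
  exact this

/-- the relation on one wedge implies the relation on all wedges with edge through the origin -/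
theorem rel_all {Y Y' : D → D} (hY : Y ∈ alg Set.univ) (hY' : Y' ∈ alg Set.univ) {a b a' b' : V}
    (ha : IsNull a) (hb : IsNull b) (ha' : IsNull a') (hb' : IsNull b') (hab : 0 < GF.mdot a b)
    (hab' : 0 < GF.mdot a' b') (h : Rel Q alg φ B Y Y' a b) : Rel Q alg φ B Y Y' a' b' :=
  connect (P := fun a b => Rel Q alg φ B Y Y' a b)
    (fun a b c ha hb hc hab hac h => rel_right N hB hBU inv hY hY' ha hb hc hab hac h)
    (fun a b c ha hb hc hab hcb h => rel_left N hB hBU inv hY hY' hb ha hc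
      (by rwa [gm_comm]) (by rwa [gm_comm]) h) ha hb ha' hb' hab hab' h

end

end Vale.Agent.P352.H496

end
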