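import Vale.Agent.P352.H496.Net
import Vale.Agent.P352.H246.Main
import Mathlib.MeasureTheory.Function.ConvergenceInMeasure

set_option linter.all false

noncomputable section

open MeasureTheory SchwartzMap Complex Filter Topology
open scoped SchwartzMap ComplexConjugate ENNReal LineDeriv

namespace Vale.Agent.P352.H496

open GF (Ix V Fn Sch ev pd bar sim bas o)
open H246
open UniformSpace (Completion)

variable {D : Type*} [NormedAddCommGroup D] [InnerProductSpace ℂ D]
variable {Q : GF.Theory D}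
variable {H : D → D} {alg : Set V → Set (D → D)} {S : V → ℝ → D → D}

/-! ### Powers of `1 + H` -/

/-- powers of `1 + H` -/
def pw1 (H : D → D) : ℕ → D → D
  | 0, v => v
  | n + 1, v => pw1 H n (v + H v)

section

variable (N : Net Q H alg S)
include N

lemma pw1_mem (n : ℕ) : pw1 H n ∈ alg Set.univ := by
  induction n with
  | zero => exact N.one _
  | succ n ih =>
    have h1 := N.add _ _ (N.one Set.univ) _ N.energy_mem
    have h2 := N.mul _ _ ih _ h1
    exact h2

lemma hasDeriv_H (v : D) : HasDerivAt (fun t : ℝ => U1 Q (t • eb 0) v) (I • H v) 0 := by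
  have h := N.energy v
  have e : (fun t : ℝ => Q.U 1 GF.one (bas o t) v) = fun t : ℝ => U1 Q (t • eb 0) v := by
    funext t
    rw [bas_eq]
    rfl
  rwa [e] at h

lemma H_comm (x : Mink) (v : D) : H (U1 Q x v) = U1 Q x (H v) := by
  have h1 := hasDeriv_H N (U1 Q x v)
  have h2 := hasDerivAt_U1 (Q := Q) x (hasDeriv_H N v)
  have e : (fun t : ℝ => U1 Q (t • eb 0) (U1 Q x v)) = fun t : ℝ => U1 Q x (U1 Q (t • eb 0) v) := by
    funext t
    rw [U1_U1_all, U1_U1_all, add_comm]
  rw [e] at h1
  have h3 := h1.unique h2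
  rw [U1_smul] at h3
  have h4 := congrArg (fun w => (-I) • w) h3
  simpa [smul_smul] using h4

lemma pw1_comm (n : ℕ) (x : Mink) (v : D) : pw1 H n (U1 Q x v) = U1 Q x (pw1 H n v) := by
  induction n generalizing v with
  | zero => rfl
  | succ n ih =>
    show pw1 H n (U1 Q x v + H (U1 Q x v)) = U1 Q x (pw1 H n (v + H v))
    rw [H_comm N, ← U1_add, ih]

end

/-! ### The adjoint of the map from momentum space functions to vectors -/

section

variable {μ : Measure Mink} {T : Ix → Ix → GF.Fld D} {A : GF.Fld D}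
variable (Sy : SymMeasure μ 4) (hA : PField Q T A 4) (two : Two Q A μ)

/-- the component of a vector along the field -/
def jd (v : D) : Lp ℂ 2 μ := ContinuousLinearMap.adjoint (J Sy hA) (v : Completion D)

lemma inner_jd (u : Lp ℂ 2 μ) (v : D) :
    inner ℂ (J Sy hA u) (v : Completion D) = inner ℂ u (jd Sy hA v) :=
  (ContinuousLinearMap.adjoint_inner_right _ _ _).symm

lemma jd_add (v w : D) : jd Sy hA (v + w) = jd Sy hA v + jd Sy hA w := by
  unfold jd
  rw [Completion.coe_add, map_add]

lemma jd_smul (c : ℂ) (v : D) : jd Sy hA (c • v) = c • jd Sy hA v := by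
  unfold jd
  rw [Completion.coe_smul, map_smul]

include two in
lemma key_U1 (a : Mink) (v : D) (ψ : Lp ℂ 2 μ) :
    inner ℂ ((U1 Q a v : D) : Completion D) (J Sy hA ψ) =
      inner ℂ (v : Completion D) (J Sy hA (KL Sy 1 one_pos isLor_one a.ofLp ψ)) := by
  refine (denseRange_toL Sy.good).induction_on (p := fun ψ =>
    inner ℂ ((U1 Q a v : D) : Completion D) (J Sy hA ψ) =
      inner ℂ (v : Completion D) (J Sy hA (KL Sy 1 one_pos isLor_one a.ofLp ψ))) ψ ?_ ?_
  · have := continuous_KL Sy 1 one_pos isLor_one a.ofLp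
    apply isClosed_eq <;> fun_prop
  · intro g
    rw [KL_toL, J_toL Sy hA two, J_toL Sy hA two, hA.kap_apply, hA.kap_apply,
      Completion.inner_coe, Completion.inner_coe, hA.cov_vac 1 one_pos isLor_one a.ofLp g]
    simp only [sub_self, Real.rpow_zero, ofReal_one, one_smul]
    exact Q.U_inner _ _ _ _ _ one_pos isLor_one

lemma lam_one (p : Mink) : lam GF.one p = p := by
  ext n
  rw [lam_apply]
  simp [GF.one, bas]

lemma KL_one (a : Mink) (ψ : Lp ℂ 2 μ) :
    KL Sy 1 one_pos isLor_one a.ofLp ψ =ᵐ[μ] fun p => conj (chr a p) * ψ p := by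
  filter_upwards [coeFn_KL Sy 1 one_pos isLor_one a.ofLp ψ] with p hp
  rw [hp]
  have : chr (-WithLp.toLp 2 a.ofLp) p = conj (chr a p) := chr_neg a p
  simp only [Kf, inv_one, one_smul, one_pow, ofReal_one, one_mul, lam_one, this]

include two in
lemma jd_U1 (a : Mink) (v : D) :
    jd Sy hA (U1 Q a v) =ᵐ[μ] fun p => chr a p * jd Sy hA v p := by
  have hm := memLp_chr_mul (Lp.memLp (jd Sy hA v)) a
  have h : jd Sy hA (U1 Q a v) = hm.toLp _ := by
    refine ext_inner_right ℂ fun ψ => ?_
    have h1 : inner ℂ (jd Sy hA (U1 Q a v)) ψ =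
        inner ℂ ((U1 Q a v : D) : Completion D) (J Sy hA ψ) := by
      rw [← inner_conj_symm, ← inner_jd, inner_conj_symm]
    have h2 : inner ℂ (v : Completion D) (J Sy hA (KL Sy 1 one_pos isLor_one a.ofLp ψ)) =
        inner ℂ (jd Sy hA v) (KL Sy 1 one_pos isLor_one a.ofLp ψ) := by
      rw [← inner_conj_symm, inner_jd, inner_conj_symm]
    rw [h1, key_U1 Sy hA two, h2, L2.inner_def, L2.inner_def]
    apply integral_congr_ae
    filter_upwards [KL_one Sy a ψ, hm.coeFn_toLp] with p hp1 hp2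
    rw [hp1, hp2]
    simp only [RCLike.inner_apply, map_mul]
    ring
  rw [h]
  exact hm.coeFn_toLp

lemma mdot_eb0 (p : Mink) (t : ℝ) : mdot p (t • eb 0) = t * p 0 := by
  rw [mdot_smul_right, mdot_eb, eta_0, one_mul]

include two in
lemma jd_H (N : Net Q H alg S) (v : D) :
    jd Sy hA (H v) =ᵐ[μ] fun p => (p 0 : ℂ) * jd Sy hA v p := by
  set t : ℕ → ℝ := fun n => 1 / ((n : ℝ) + 1) with ht
  have ht0 : ∀ n, 0 < t n := fun n => by simp only [ht]; positivity
  have htt : Tendsto t atTop (𝓝 0) := tendsto_one_div_add_atTop_nhds_zero_nat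
  have htn : Tendsto t atTop (𝓝[≠] 0) := tendsto_nhdsWithin_iff.2
    ⟨htt, Eventually.of_forall fun n => (ht0 n).ne'⟩
  have h1 := (hasDerivAt_iff_tendsto_slope.1 (hasDeriv_H N v)).comp htn
  have h2 : Tendsto (fun n => jd Sy hA (slope (fun t : ℝ => U1 Q (t • eb 0) v) 0 (t n))) atTop
      (𝓝 (jd Sy hA (I • H v))) := by
    have hc : Continuous fun w : D => jd Sy hA w :=
      (ContinuousLinearMap.adjoint (J Sy hA)).continuous.comp (Completion.continuous_coe D)
    exact (hc.tendsto _).comp h1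
  have hsl : ∀ n, jd Sy hA (slope (fun t : ℝ => U1 Q (t • eb 0) v) 0 (t n)) =
      ((t n : ℂ))⁻¹ • (jd Sy hA (U1 Q (t n • eb 0) v) - jd Sy hA v) := by
    intro n
    have e1 : slope (fun t : ℝ => U1 Q (t • eb 0) v) 0 (t n) =
        ((t n : ℂ))⁻¹ • (U1 Q (t n • eb 0) v + (-1 : ℂ) • v) := by
      rw [slope_def_module, sub_zero, zero_smul, U1_zero_all, neg_one_smul, ← sub_eq_add_neg,
        ← ofReal_inv]
      rfl
    rw [e1, jd_smul, jd_add, jd_smul, neg_one_smul, ← sub_eq_add_neg]
  simp only [hsl] at h2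
  obtain ⟨ns, hns, hae⟩ := (tendstoInMeasure_of_tendsto_Lp h2).exists_seq_tendsto_ae
  have hall : ∀ᵐ p ∂μ, ∀ n : ℕ, (((t n : ℂ))⁻¹ • (jd Sy hA (U1 Q (t n • eb 0) v) -
      jd Sy hA v) : Lp ℂ 2 μ) p = ((t n : ℂ))⁻¹ * ((chr (t n • eb 0) p - 1) * jd Sy hA v p) := by
    rw [ae_all_iff]
    intro n
    filter_upwards [Lp.coeFn_smul ((t n : ℂ))⁻¹ (jd Sy hA (U1 Q (t n • eb 0) v) - jd Sy hA v),
      Lp.coeFn_sub (jd Sy hA (U1 Q (t n • eb 0) v)) (jd Sy hA v),
      jd_U1 Sy hA two (t n • eb 0) v] with p h3 h4 h5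
    rw [h3, Pi.smul_apply, h4, Pi.sub_apply, h5, smul_eq_mul]
    ring
  have hI : jd Sy hA (I • H v) =ᵐ[μ] fun p => I * jd Sy hA (H v) p := by
    rw [jd_smul]
    filter_upwards [Lp.coeFn_smul I (jd Sy hA (H v))] with p hp
    rw [hp, Pi.smul_apply, smul_eq_mul]
  filter_upwards [hae, hall, hI] with p h3 h4 h5
  simp only [h4] at h3
  have h6 : Tendsto (fun n : ℕ => ((t n : ℂ))⁻¹ * (chr (t n • eb 0) p - 1)) atTop
      (𝓝 (I * p 0)) := by
    have hd : HasDerivAt (fun s : ℝ => exp (I * ((s * p 0 : ℝ) : ℂ))) (I * p 0) 0 := by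
      have h7 : HasDerivAt (fun s : ℝ => I * ((s * p 0 : ℝ) : ℂ)) (I * p 0) 0 := by
        have := (((Complex.ofRealCLM.hasDerivAt (x := (0 : ℝ))).mul_const (p 0 : ℂ)).const_mul I)
        simpa using this
      have := h7.cexp
      simpa using this
    have h8 := (hasDerivAt_iff_tendsto_slope.1 hd).comp htn
    refine h8.congr fun n => ?_
    simp only [Function.comp_apply, slope_def_module, sub_zero, chr, mdot_eb0]
    rw [real_smul, ofReal_inv]
    simp
  have h7 := (h6.comp hns.tendsto_atTop).mul_const (jd Sy hA v p)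
  have h8 := tendsto_nhds_unique h3 (h7.congr fun n => by
    simp only [Function.comp_apply]; ring)
  rw [h5] at h8
  have h9 : I * jd Sy hA (H v) p = I * ((p 0 : ℂ) * jd Sy hA v p) := by rw [h8]; ring
  exact mul_left_cancel₀ I_ne_zero h9

include two in
lemma jd_pw1 (N : Net Q H alg S) (n : ℕ) (v : D) :
    jd Sy hA (pw1 H n v) =ᵐ[μ] fun p => (1 + (p 0 : ℂ)) ^ n * jd Sy hA v p := by
  induction n generalizing v with
  | zero => exact Eventually.of_forall fun p => by simp [pw1]
  | succ n ih =>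
    have h1 := ih (v + H v)
    have h2 : jd Sy hA (v + H v) =ᵐ[μ] fun p => (1 + (p 0 : ℂ)) * jd Sy hA v p := by
      rw [jd_add]
      filter_upwards [Lp.coeFn_add (jd Sy hA v) (jd Sy hA (H v)), jd_H Sy hA two N v]
        with p h3 h4
      rw [h3, Pi.add_apply, h4]
      ring
    filter_upwards [h1, h2] with p h3 h4
    show jd Sy hA (pw1 H n (v + H v)) p = _
    rw [h3, h4]
    ring

/-! ### The point like functional -/

/-- inverse powers of `1 + p⁰` -/
def wt0 (n : ℕ) (p : Mink) : ℝ := ((1 + |p 0|) ^ n)⁻¹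

lemma measurable_wt0 (n : ℕ) : Measurable (wt0 n) := by
  have : Continuous (wt0 n) := by
    unfold wt0
    refine Continuous.inv₀ (by fun_prop) fun p => ?_
    positivity
  exact this.measurable

include Sy in
lemma exists_wt0 : ∃ n : ℕ, MemLp (fun p => (H246.im p : ℂ) * (wt0 n p : ℂ)) 2 μ := by
  obtain ⟨n, hn⟩ := exists_wt_memLp (sym_rho Sy).temp
  refine ⟨n, memLp_im ?_ (measurable_ofReal.comp (measurable_wt0 n))⟩
  refine MemLp.of_le_mul (c := 2 ^ n) hn
    ((measurable_ofReal.comp (measurable_wt0 n)).aestronglyMeasurable) ?_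
  filter_upwards [ae_cone (sym_rho Sy).good] with p hp
  rw [norm_real, Real.norm_of_nonneg (by unfold wt0; positivity),
    Real.norm_of_nonneg (wt_nonneg n p)]
  unfold wt0 wt
  have h1 : ‖p‖ ≤ 2 * |p 0| := by
    apply abs_le_of_sq_le_sq' _ (by positivity) |>.2
    rw [norm_sq_mink]
    have h2 : 0 ≤ mdot p p := hp.2
    unfold mdot at h2
    nlinarith [sq_abs (p 0)]
  rw [inv_le_comm₀ (by positivity) (by positivity), mul_inv, inv_inv, ← inv_pow, ← mul_pow]
  apply pow_le_pow_left₀ (by positivity)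
  rw [inv_mul_le_iff₀ (by norm_num)]
  have := abs_nonneg (p 0)
  linarith

include two in
/-- the representation of the potential by a point like functional -/
theorem exists_point (N : Net Q H alg S) : ∃ (φ : Completion D) (n : ℕ), ∀ (F : 𝓢(Mink, ℂ)) (v : D),
    inner ℂ (lamV Sy hA F) (v : Completion D) =
      ∫ x : Mink, conj (F x) * inner ℂ φ ((pw1 H n (U1 Q (-x) v) : D) : Completion D) := by
  obtain ⟨n, hn⟩ := exists_wt0 Sy
  set w := hn.toLp _ with hw
  refine ⟨(-(1 / 3 : ℂ)) • J Sy hA w, n, fun F v => ?_⟩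
  -- the right hand side in momentum space
  set u := jd Sy hA (pw1 H n v) with hu
  have hwu : Integrable (fun p => conj (w p) * u p) μ := by
    have := (Lp.memLp w).star.integrable_mul (Lp.memLp u)
    exact this
  have h1 : ∀ x : Mink, inner ℂ ((-(1 / 3 : ℂ)) • J Sy hA w)
      ((pw1 H n (U1 Q (-x) v) : D) : Completion D) =
      (-(1 / 3 : ℂ)) * ∫ p, conj (chr x p) * (conj (w p) * u p) ∂μ := by
    intro x
    rw [pw1_comm N, inner_smul_left, inner_jd, L2.inner_def]
    congr 1
    · rw [map_neg, map_div₀, map_one, map_ofNat]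
    · apply integral_congr_ae
      filter_upwards [jd_U1 Sy hA two (-x) (pw1 H n v)] with p hp
      rw [hp, chr_neg]
      simp only [RCLike.inner_apply]
      ring
  have h2 : inner ℂ (lamV Sy hA F) (v : Completion D) =
      (-(1 / 3 : ℂ)) * ∫ p, conj (mft F p) * (conj (w p) * u p) ∂μ := by
    rw [lamV_apply, inner_smul_left, inner_jd, inner_toI]
    congr 1
    · rw [map_neg, map_div₀, map_one, map_ofNat]
    · apply integral_congr_ae
      filter_upwards [jd_pw1 Sy hA two N n v, hn.coeFn_toLp, ae_cone Sy.good] with p h3 h4 h5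
      rw [h3, h4, map_mul, conj_ofReal, conj_ofReal]
      have h6 : (wt0 n p : ℂ) * (1 + (p 0 : ℂ)) ^ n = 1 := by
        unfold wt0
        rw [abs_of_nonneg h5.1]
        have h7 : (1 + (p 0 : ℂ)) ≠ 0 := by
          have h8 : 0 < 1 + p 0 := by have := h5.1; linarith
          intro h9
          have h10 : ((1 + p 0 : ℝ) : ℂ) = 0 := by rw [ofReal_add, ofReal_one]; exact h9
          exact h8.ne' (Complex.ofReal_eq_zero.1 h10)
        push_cast
        field_simp
      linear_combination (-(conj (mft F p)) * (H246.im p : ℂ) * jd Sy hA v p) * h6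
  rw [h2]
  simp only [h1]
  -- Fubini
  have h3 : ∀ x : Mink, conj (F x) * ((-(1 / 3 : ℂ)) *
      ∫ p, conj (chr x p) * (conj (w p) * u p) ∂μ) =
      (-(1 / 3 : ℂ)) * ∫ p, conj (F x) * (conj (chr x p) * (conj (w p) * u p)) ∂μ := by
    intro x
    rw [integral_const_mul]
    ring
  simp only [h3]
  rw [integral_const_mul]
  congr 1
  have hloc : IsLocallyFiniteMeasure μ := by
    refine ⟨fun x => ⟨Metric.closedBall 0 (‖x‖ + 1), ?_, Sy.fin _⟩⟩
    refine mem_of_superset (Metric.ball_mem_nhds x one_pos) fun y hy => ?_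
    rw [Metric.mem_closedBall, dist_zero_right]
    rw [Metric.mem_ball, dist_eq_norm] at hy
    calc ‖y‖ = ‖(y - x) + x‖ := by congr 1; abel
      _ ≤ ‖y - x‖ + ‖x‖ := norm_add_le _ _
      _ ≤ _ := by linarith
  rw [integral_integral_swap]
  · congr 1
    ext p
    rw [mft, ← integral_conj, ← integral_mul_const]
    congr 1
    ext x
    rw [chr, map_mul]
    ring
  · have hint : Integrable (fun q : Mink × Mink => ‖F q.1‖ * ‖conj (w q.2) * u q.2‖)
        ((volume : Measure Mink).prod μ) :=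
      ((F.integrable (μ := (volume : Measure Mink))).norm).mul_prod hwu.norm
    refine hint.mono' ?_ (Eventually.of_forall fun q => ?_)
    · apply AEStronglyMeasurable.mul
      · exact (Complex.continuous_conj.comp (F.continuous.comp continuous_fst)).aestronglyMeasurable
      · apply AEStronglyMeasurable.mul
        · exact (Complex.continuous_conj.comp continuous_chr2).aestronglyMeasurable
        · exact hwu.aestronglyMeasurable.comp_snd
    · simp only [Function.uncurry]
      rw [norm_mul, norm_mul, RCLike.norm_conj, RCLike.norm_conj, norm_chr, one_mul]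

end

end Vale.Agent.P352.H496

end
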