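import Vale.Agent.P352.H496.Fam

set_option linter.all false

noncomputable section

open MeasureTheory SchwartzMap Complex Filter Topology
open scoped SchwartzMap ComplexConjugate ENNReal LineDeriv

namespace Vale.Agent.P352.H496

open GF (Ix V Fn Sch ev pd bar sim bas o)
open H246
open UniformSpace (Completion)

lemma exists_angle {u v : ℝ} (h : u ^ 2 + v ^ 2 = 1) : ∃ θ, Real.cos θ = u ∧ Real.sin θ = v := by
  set z : ℂ := ⟨u, v⟩ with hz
  have hn : ‖z‖ = 1 := by
    have h1 : ‖z‖ ^ 2 = 1 := by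
      rw [← Complex.normSq_eq_norm_sq, Complex.normSq_mk, ← h]; ring
    exact (pow_eq_one_iff_of_nonneg (norm_nonneg _) two_ne_zero).1 h1
  have hz0 : z ≠ 0 := by
    intro h0
    rw [h0, norm_zero] at hn
    exact zero_ne_one hn
  refine ⟨z.arg, ?_, ?_⟩
  · rw [Complex.cos_arg hz0, hn, div_one]
  · rw [Complex.sin_arg, hn, div_one]

/-- the rotations act transitively on the null directions -/
lemma exists_rot {a : V} (ha : IsNull a) : ∃ θ φ : ℝ, sim 1 (Rt θ φ) 0 (nu (-1)) = (a 0)⁻¹ • a := by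
  obtain ⟨h1, h2⟩ := ha
  have h2' : 0 < a 0 := h2
  have h1' : a 0 * a 0 - a 1 * a 1 - a 2 * a 2 - a 3 * a 3 = 0 := by
    have := gf_mdot a a
    rw [← this]; exact h1
  set u := -(a 1 / a 0) with hu
  set p := -(a 2 / a 0) with hp
  set q := -(a 3 / a 0) with hq
  have hs : u ^ 2 + p ^ 2 + q ^ 2 = 1 := by
    rw [hu, hp, hq]
    field_simp
    linarith
  set w := Real.sqrt (p ^ 2 + q ^ 2) with hw
  have hw2 : w ^ 2 = p ^ 2 + q ^ 2 := Real.sq_sqrt (by positivity)
  obtain ⟨θ, h3, h4⟩ := exists_angle (u := u) (v := w) (by rw [hw2]; linarith)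
  have h5 : ∃ φ, w * Real.cos φ = p ∧ w * Real.sin φ = q := by
    by_cases h0 : w = 0
    · rw [h0] at hw2
      have hp0 : p = 0 := by nlinarith [sq_nonneg p, sq_nonneg q]
      have hq0 : q = 0 := by nlinarith [sq_nonneg p, sq_nonneg q]
      exact ⟨0, by rw [h0, hp0, zero_mul], by rw [h0, hq0, zero_mul]⟩
    · obtain ⟨φ, h6, h7⟩ := exists_angle (u := p / w) (v := q / w) (by
        field_simp; exact hw2.symm)
      exact ⟨φ, by rw [h6]; field_simp, by rw [h7]; field_simp⟩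
  obtain ⟨φ, h6, h7⟩ := h5
  refine ⟨θ, φ, ?_⟩
  have e1 : (a 0)⁻¹ * a 1 = -u := by rw [hu]; field_simp
  have e2 : (a 0)⁻¹ * a 2 = -p := by rw [hp]; field_simp
  have e3 : (a 0)⁻¹ * a 3 = -q := by rw [hq]; field_simp
  have e0 : (a 0)⁻¹ * a 0 = 1 := inv_mul_cancel₀ h2'.ne'
  funext n
  fin_cases n
  · show sim 1 (Rt θ φ) 0 (nu (-1)) 0 = (a 0)⁻¹ * a 0
    rw [e0]; simp [sim, nu, Rt, Fin.sum_univ_four]
  · show sim 1 (Rt θ φ) 0 (nu (-1)) 1 = (a 0)⁻¹ * a 1
    rw [e1, ← h3]; simp [sim, nu, Rt, Fin.sum_univ_four]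
  · show sim 1 (Rt θ φ) 0 (nu (-1)) 2 = (a 0)⁻¹ * a 2
    rw [e2, ← h6, ← h4]; simp [sim, nu, Rt, Fin.sum_univ_four]
  · show sim 1 (Rt θ φ) 0 (nu (-1)) 3 = (a 0)⁻¹ * a 3
    rw [e3, ← h7, ← h4]; simp [sim, nu, Rt, Fin.sum_univ_four]

variable {D : Type*} [NormedAddCommGroup D] [InnerProductSpace ℂ D]
variable {Q : GF.Theory D}
variable {H : D → D} {alg : Set V → Set (D → D)} {S : V → ℝ → D → D}

lemma mft_V (F : 𝓢(Mink, ℂ)) (p : V) :
    ∫ x : V, Complex.exp (Complex.I * GF.mdot p x) * fl F x = mft F (WithLp.toLp 2 p) := by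
  rw [integral_V]
  unfold mft
  congr 1
  ext x
  rw [mdot_eq]
  rfl

lemma U_linv (N : CNet Q H alg S) {L : Ix → V} (hL : GF.IsLor L) (v : D) :
    Q.U 1 L 0 (Q.U 1 (linv L) 0 v) = v := by
  rw [N.U_mul 1 L 0 1 (linv L) 0 v one_pos one_pos hL (isLor_linv hL)]
  have e1 : (fun m => sim 1 L 0 (linv L m)) = GF.one := by
    funext m
    have h1 : (WithLp.toLp 2 (sim 1 L 0 (linv L m)) : Mink) =
        lam L (lam (linv L) (WithLp.toLp 2 (GF.one m))) := by
      rw [toLp_sim]
      congr 1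
      ext n
      simp [lam_apply, GF.one, bas]
    rw [lam_linv hL] at h1
    exact congrArg WithLp.ofLp h1
  have e2 : sim 1 L 0 (0 : V) = (0 : V) := by
    funext n; simp [sim]
  rw [e1, e2, one_mul]
  exact U1_zero_all (Q := Q) v

section

variable {μ : Measure Mink} {T : Ix → Ix → GF.Fld D}
variable (hT : Q.IsStress T) (Sy : SymMeasure μ 4) (two : Two Q (GF.tr T) μ)
variable (N : CNet Q H alg S) {φ : Completion D} {n : ℕ}
variable (hrep : ∀ (F : 𝓢(Mink, ℂ)) (v : D),
    inner ℂ (lamV Sy (PField.tr hT) F) (v : Completion D) =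
      ∫ x : Mink, conj (F x) * inner ℂ φ ((pw1 H n (U1 Q (-x) v) : D) : Completion D))

include N hrep two in
/-- covariance of the values -/
lemma pt_cov (σ : ℝ) (L : Ix → V) (v : D) (hσ : 0 < σ) (hL : GF.IsLor L) :
    pt φ (pw1 H n) (Q.U σ L 0 v) = ((σ ^ 2)⁻¹ : ℝ) * pt φ (pw1 H n) v := by
  have hB := pw1_mem N.toNet n
  have hσ' : (σ : ℂ) ≠ 0 := by exact_mod_cast hσ.ne'
  set g : Mink → ℂ := fun x => pt φ (pw1 H n) (U1 Q (-x) (Q.U σ L 0 v)) with hg
  set g' : Mink → ℂ := fun x => pt φ (pw1 H n) (U1 Q (-x) v) with hg'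
  have hcont : ∀ w : D, Continuous fun x : Mink => pt φ (pw1 H n) (U1 Q (-x) w) := fun w =>
    (cont_op N.toNet φ hB w).comp (by fun_prop : Continuous fun x : Mink => (-x).ofLp)
  have hM : Continuous fun x : Mink => σ⁻¹ • (lamE hL).symm x := by fun_prop
  have hz := fund (W := Set.univ) isOpen_univ
    (h := fun x => g x - ((σ ^ 2)⁻¹ : ℝ) * g' (σ⁻¹ • (lamE hL).symm x))
    ((hcont _).sub (continuous_const.mul ((hcont v).comp hM)))
    (fun F hF => by
      have i1 : Integrable fun x => F x * g x :=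
        Continuous.integrable_of_hasCompactSupport (F.continuous.mul (hcont _)) hF.1.mul_right
      have i2 : Integrable fun x => F x * (((σ ^ 2)⁻¹ : ℝ) * g' (σ⁻¹ • (lamE hL).symm x)) :=
        Continuous.integrable_of_hasCompactSupport (F.continuous.mul
          (continuous_const.mul ((hcont v).comp hM))) hF.1.mul_right
      simp only [mul_sub]
      rw [integral_sub i1 i2, sub_eq_zero]
      have h1 := lamV_cov Sy (PField.tr hT) two σ hσ hL 0 (conjS F) v
      have h2 : inner ℂ (lamV Sy (PField.tr hT) (conjS F)) ((Q.U σ L 0 v : D) : Completion D) =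
          ((σ ^ 2 : ℝ) : ℂ) * inner ℂ (lamV Sy (PField.tr hT) (simS σ hσ hL 0 (conjS F)))
            (v : Completion D) := by
        have := congrArg conj h1
        rwa [map_mul, conj_ofReal, inner_conj_symm, inner_conj_symm] at this
      rw [hrep, hrep] at h2
      have h3 : ∀ x, conj (conjS F x) = F x := fun x => by rw [conjS_apply, conj_conj]
      simp only [h3] at h2
      have h4 : ∫ x, F x * g x = ∫ x : Mink, F x *
          inner ℂ φ ((pw1 H n (U1 Q (-x) (Q.U σ L 0 v)) : D) : Completion D) := rfl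
      rw [h4, h2]
      have h5 := int_sim hσ hL (fun x => F x * (((σ ^ 2)⁻¹ : ℝ) * g' (σ⁻¹ • (lamE hL).symm x)))
      have h6 : ∀ y : Mink, F (σ • lam L y) * (((σ ^ 2)⁻¹ : ℝ) *
          g' (σ⁻¹ • (lamE hL).symm (σ • lam L y))) = ((σ ^ 2)⁻¹ : ℝ) *
          (conj (simS σ hσ hL 0 (conjS F) y) *
            inner ℂ φ ((pw1 H n (U1 Q (-y) v) : D) : Completion D)) := by
        intro y
        have e1 : σ⁻¹ • (lamE hL).symm (σ • lam L y) = y := by
          rw [map_smul, smul_smul, inv_mul_cancel₀ hσ.ne', one_smul, ← lamE_apply hL,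
            ContinuousLinearEquiv.symm_apply_apply]
        rw [e1, simS0_apply, conjS_apply, conj_conj]
        simp only [hg', pt]
        ring
      simp only [h6] at h5
      rw [integral_const_mul] at h5
      have h7 : ∫ x, F x * (((σ ^ 2)⁻¹ : ℝ) * g' (σ⁻¹ • (lamE hL).symm x)) =
          ((σ ^ 4 : ℝ) : ℂ) * (((σ ^ 4)⁻¹ : ℝ) *
            ∫ x, F x * (((σ ^ 2)⁻¹ : ℝ) * g' (σ⁻¹ • (lamE hL).symm x))) := by
        push_cast
        field_simp
      rw [h7, ← h5]
      push_cast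
      field_simp) (0 : Mink) trivial
  have h0 := sub_eq_zero.1 hz
  simp only [hg, hg', map_zero, smul_zero, neg_zero, U1_zero_all] at h0
  exact h0

end

/-- the criterion -/
theorem criterion2 {T : Ix → Ix → GF.Fld D} (hT : Q.IsStress T) (N : Net Q H alg S)
    {l : Fn → Completion D} (hl : IsPot Q T l) :
    (∀ v, ∃! c, Val l v c) ∧
    ((∀ a s v c c', IsNull a → Val l v c → Val l (S a s v) c' → c' = c) →
      ∃ Λ, IsForm Q T l Λ) ∧
    (Cvt Q alg S → ((∃ a, IsNull a ∧ Small Q S l a) ↔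
      ∀ a s v c c', IsNull a → Val l v c → Val l (S a s v) c' → c' = c)) := by
  obtain ⟨c1, c2⟩ := criterion hT N hl
  refine ⟨c1, c2, fun C => ?_⟩
  have N : CNet Q H alg S := ⟨N, C⟩
  obtain ⟨μ, Sy, two⟩ := (PField.tr hT).exists_sym
  obtain ⟨φ, n, hrep⟩ := exists_point Sy (PField.tr hT) two N.toNet
  have hp := isPot_lamF Sy (PField.tr hT) two
  have hll : ∀ f, GF.IsTest f → l f = lamF Sy (PField.tr hT) f := fun f hf => hp.unique hl f hf
  have hv := fun v c => val_iff hT Sy N.toNet hrep hll v c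
  have hB := pw1_mem N.toNet n
  have hq := pt_cov hT Sy two N hrep
  constructor
  · rintro ⟨a, ha, ⟨s0, hs0, hb0⟩, f, p, hf, hp0, hpf, hsm⟩
    obtain ⟨F, rfl⟩ := exists_fl hf
    have hR : ∀ (s : ℝ) (F : 𝓢(Mink, ℂ)) v, Rsp Q S l a s (fl F) v
        (∫ x, conj (F x) * gd Q S φ (pw1 H n) a s v x) := by
      intro s F v
      refine ⟨fun x => pt φ (pw1 H n) (Q.U 1 GF.one (-x) v),
        fun x => pt φ (pw1 H n) (S a (-s) (Q.U 1 GF.one (-x) v)), fun x => (hv _ _).2 rfl,
        fun x => (hv _ _).2 rfl, ?_⟩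
      rw [integral_V]
      rfl
    obtain ⟨θ, ψ, hrot⟩ := exists_rot ha
    have hL := isLor_Rt θ ψ
    have hr : 0 < (a 0)⁻¹ := inv_pos.2 ha.2
    set r := (a 0)⁻¹ with hrd
    have ha0 : IsNull (nu (-1)) := isNull_nu (Or.inr rfl)
    have key : ∀ (s : ℝ) (F : 𝓢(Mink, ℂ)) v,
        ∫ x, conj (simS 1 one_pos hL 0 F x) * gd Q S φ (pw1 H n) (nu (-1)) s v x =
        ∫ x, conj (F x) * gd Q S φ (pw1 H n) a (r * s) (Q.U 1 (Rt θ ψ) 0 v) x := by
      intro s F v
      have h1 := int_sim one_pos hL (fun x => conj (F x) *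
          gd Q S φ (pw1 H n) a (r * s) (Q.U 1 (Rt θ ψ) 0 v) x)
      rw [one_pow, inv_one, ofReal_one, one_mul] at h1
      rw [← h1]
      congr 1
      ext y
      have h2 := gd_U N hq ha0 ha one_pos hr hL hrot (r * s) v y
      have h3 : 1 * (r * s) / r = s := by field_simp
      rw [h3, one_pow, inv_one, ofReal_one, one_mul] at h2
      rw [h2, simS0_apply one_pos hL]
    set q : Mink := lam (linv (Rt θ ψ)) (WithLp.toLp 2 p) with hqd
    have hq0 : mass2 q = 0 := by
      have h1 : mass2 q = mdot (WithLp.toLp 2 p : Mink) (WithLp.toLp 2 p) :=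
        mdot_lam (isLor_linv hL) _ _
      rw [h1, mdot_eq]
      exact hp0.1
    have hqp : 0 < q 0 := by
      have h1 : q 0 = p 0 := by
        simp [hqd, lam_apply, linv, Fin.sum_univ_four, Rt, GF.eta, o]
      rw [h1]
      exact hp0.2
    have hmq : mft (simS 1 one_pos hL 0 F) q ≠ 0 := by
      rw [mft_simS]
      have h0 : (-WithLp.toLp 2 (0 : V) : Mink) = 0 := by
        ext n; simp
      have h1 : lam (Rt θ ψ) q = WithLp.toLp 2 p := lam_linv hL _
      rw [h0, chr_zero', h1, inv_one, one_smul, one_mul, one_pow, inv_one, ofReal_one, one_mul]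
      rwa [← mft_V]
    have hinv := inv_of_small N hB hq
      (fun s hs F => bdd_all N hq ha0 (s0 := s0 / r) (by positivity) (fun F => by
        obtain ⟨C, hC⟩ := hb0 _ (isTest_fl (simJ one_pos hL 0 F))
        refine ⟨C, fun v => ?_⟩
        have h1 := hC _ _ (hR s0 (simJ one_pos hL 0 F) (Q.U 1 (Rt θ ψ) 0 v))
        have h2 := key (s0 / r) (simJ one_pos hL 0 F) v
        rw [simS_simJ, mul_div_cancel₀ _ hr.ne'] at h2
        rw [h2]
        rwa [U_nrm0 one_pos hL] at h1) s hs F)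
      hq0 hqp hmq
      (fun ε hε => by
        have h1 := hsm (ε / r) (by positivity)
        have ht : Tendsto (fun s : ℝ => s / r) (𝓝[>] 0) (𝓝[>] 0) := by
          apply tendsto_nhdsWithin_of_tendsto_nhds_of_eventually_within
          · have : Continuous fun s : ℝ => s / r := by fun_prop
            have h2 := this.tendsto 0
            rw [zero_div] at h2
            exact h2.mono_left nhdsWithin_le_nhds
          · filter_upwards [self_mem_nhdsWithin] with s hs0
            have : 0 < s := hs0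
            show 0 < s / r
            positivity
        refine ht.frequently (h1.mono fun s h2 => ?_)
        intro v
        have h3 := h2 _ _ (hR s F (Q.U 1 (Rt θ ψ) 0 v))
        rw [U_nrm0 one_pos hL] at h3
        rw [key, mul_div_cancel₀ _ hr.ne']
        refine h3.trans (le_of_eq ?_)
        ring)
    intro b s v c c' hb h1 h2
    rw [(hv _ _).1 h1, (hv _ _).1 h2]
    obtain ⟨θ', ψ', hrot'⟩ := exists_rot hb
    have hL' := isLor_Rt θ' ψ'
    have hr' : 0 < (b 0)⁻¹ := inv_pos.2 hb.2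
    set w := Q.U 1 (linv (Rt θ' ψ')) 0 v with hw
    have hvw : Q.U 1 (Rt θ' ψ') 0 w = v := U_linv N hL' v
    have h3 := N.S_cov 1 (Rt θ' ψ') (nu (-1)) (s / (b 0)⁻¹) w one_pos hL' ha0
    rw [hrot', N.S_scale b _ _ _ hb hr', hvw, div_one, mul_div_cancel₀ _ hr'.ne'] at h3
    rw [← h3, hq 1 _ _ one_pos hL', hinv, ← hq 1 _ _ one_pos hL', hvw]
  · intro h
    refine ⟨nu (-1), isNull_nu (Or.inr rfl), ?_⟩
    have hz : ∀ f s v c, Rsp Q S l (nu (-1)) s f v c → c = 0 := by
      rintro f s v c ⟨F, G, h1, h2, rfl⟩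
      have : ∀ x, G x - F x = 0 := fun x =>
        sub_eq_zero.2 (h _ _ _ _ _ (isNull_nu (Or.inr rfl)) (h1 x) (h2 x))
      simp only [this, mul_zero, integral_zero]
    obtain ⟨g, -, hg⟩ := exists_test_ne_zero (W := (Set.univ : Set Mink)) isOpen_univ
      ⟨0, trivial⟩ ‖(WithLp.toLp 2 (nu (-1)) : Mink)‖
    refine ⟨⟨1, one_pos, fun f hf => ⟨0, fun v c hc => by rw [hz _ _ _ _ hc]; simp⟩⟩,
      fl g, nu (-1), isTest_fl g, isNull_nu (Or.inr rfl), ?_, fun ε hε => ?_⟩
    · have h1 := hg (WithLp.toLp 2 (nu (-1))) le_rfl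
      rwa [← mft_V] at h1
    · apply Eventually.frequently
      filter_upwards [self_mem_nhdsWithin] with s hs v c hc
      rw [hz _ _ _ _ hc]
      have : 0 < s := hs
      rw [norm_zero, zero_pow two_ne_zero]
      positivity

end Vale.Agent.P352.H496

end
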