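import Vale.Agent.P352.H496.Resp

set_option linter.all false

noncomputable section

open MeasureTheory SchwartzMap Complex Filter Topology
open scoped SchwartzMap ComplexConjugate ENNReal LineDeriv

namespace Vale.Agent.P352.H496

open GF (Ix V Fn Sch ev pd bar sim bas o)
open H246
open UniformSpace (Completion)

/-! ### Norms and measures of balls -/

section

variable {F : Type*} [NormedAddCommGroup F] [InnerProductSpace ℂ F] [CompleteSpace F]

lemma norm_sq_spec {κ : 𝓢(Mink, ℂ) → F} {ν : 𝓢(Mink, ℂ) → Measure Mink} (Sd : SpecData κ ν)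
    (g : 𝓢(Mink, ℂ)) : ENNReal.ofReal (‖κ g‖ ^ 2) = ν g Set.univ := by
  have hf := Sd.fin g
  have h1 := Sd.spec g 0
  rw [tauS_zero'] at h1
  have h2 : ∫ p, chr 0 p ∂(ν g) = ((ν g).real Set.univ : ℂ) := by
    simp only [chr_zero']
    simp
  rw [h2, inner_self_eq_norm_sq_to_K] at h1
  have h3 : ‖κ g‖ ^ 2 = (ν g).real Set.univ := by
    have : ((‖κ g‖ ^ 2 : ℝ) : ℂ) = (((ν g).real Set.univ : ℝ) : ℂ) := by
      rw [← h1]; push_cast; rfl
    exact Complex.ofReal_injective this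
  rw [h3, ofReal_measureReal]

lemma ball_le (R : ℝ) : ∃ (g : 𝓢(Mink, ℂ)) (c : ℝ), 0 < c ∧ ∀ (κ : 𝓢(Mink, ℂ) → F)
    (ν : 𝓢(Mink, ℂ) → Measure Mink) (μ : Measure Mink), SpecData κ ν →
    (∀ g, ν g = μ.withDensity (dens g)) →
    ENNReal.ofReal (c ^ 2) * μ (Metric.closedBall 0 R) ≤ ENNReal.ofReal (‖κ g‖ ^ 2) := by
  obtain ⟨f, hf, hne⟩ := exists_test_ne_zero (W := (Set.univ : Set Mink)) isOpen_univ
    ⟨0, trivial⟩ R
  have hcont : Continuous (mft f) := continuous_mft f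
  by_cases hR : (Metric.closedBall (0 : Mink) R).Nonempty
  · obtain ⟨p0, hp0, hmin⟩ := (isCompact_closedBall (0 : Mink) R).exists_isMinOn hR
      hcont.norm.continuousOn
    refine ⟨f, ‖mft f p0‖, norm_pos_iff.2 (hne p0 (by
      simpa only [Metric.mem_closedBall, dist_zero_right] using hp0)), fun κ ν μ Sd hμ => ?_⟩
    rw [norm_sq_spec Sd, hμ f, withDensity_apply _ MeasurableSet.univ, ← setLIntegral_const,
      setLIntegral_univ]
    refine (setLIntegral_mono' Metric.isClosed_closedBall.measurableSet ?_).trans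
      (setLIntegral_le_lintegral _ _)
    intro p hp
    unfold dens
    rw [← ofReal_norm, ← ENNReal.ofReal_pow (norm_nonneg _)]
    apply ENNReal.ofReal_le_ofReal
    gcongr
    exact hmin hp
  · rw [Set.not_nonempty_iff_eq_empty] at hR
    refine ⟨f, 1, one_pos, fun κ ν μ Sd hμ => ?_⟩
    rw [hR, measure_empty, mul_zero]
    exact zero_le

end

variable {D : Type*} [NormedAddCommGroup D] [InnerProductSpace ℂ D]
variable {Q : GF.Theory D}
variable {H : D → D} {alg : Set V → Set (D → D)} {S : V → ℝ → D → D}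

/-- data of the response to the null deformation with parameter `s` -/
structure Dat (Q : GF.Theory D) (S : V → ℝ → D → D) (φ : Completion D) (B : D → D) (a : V)
    (s : ℝ) (κ : 𝓢(Mink, ℂ) →L[ℂ] Completion D) (ν : 𝓢(Mink, ℂ) → Measure Mink)
    (μ : Measure Mink) : Prop where
  spec : ∀ F (v : D), inner ℂ (v : Completion D) (κ F) = ∫ x, F x * conj (gd Q S φ B a s v x)
  data : SpecData (fun g => κ g) ν
  cone : μ fwdConeᶜ = 0
  dens : ∀ g, ν g = μ.withDensity (dens g)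

section

variable (N : CNet Q H alg S) {φ : Completion D} {B : D → D} (hB : B ∈ alg Set.univ)
include N

include hB in
theorem exists_dat {a : V} (ha : IsNull a) (s : ℝ) (hbs : ∀ F : 𝓢(Mink, ℂ), ∃ C : ℝ, ∀ v,
      ‖∫ x, conj (F x) * gd Q S φ B a s v x‖ ≤ C * ‖v‖) : ∃ κ ν μ, Dat Q S φ B a s κ ν μ := by
  obtain ⟨κ, hκ⟩ := exists_kap N hB ha s hbs
  obtain ⟨ν, hν⟩ := exists_data (Q := Q) κ (fun g b z => by
    rw [hκ, hκ]
    have : ∀ x, tauS b g x * conj (gd Q S φ B a s (U1 Q b z) x) =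
        (fun y => g y * conj (gd Q S φ B a s z y)) (x - b) := by
      intro x
      rw [tauS_apply, gd_tau N]
    simp only [this]
    exact integral_sub_right_eq_self (μ := (volume : Measure Mink))
      (fun y => g y * conj (gd Q S φ B a s z y)) b)
  obtain ⟨μ, h1, h2⟩ := hν.exists_KL
  exact ⟨κ, ν, μ, hκ, hν, h1, h2⟩

variable (hq : ∀ σ L v, 0 < σ → GF.IsLor L → pt φ B (Q.U σ L 0 v) = ((σ ^ 2)⁻¹ : ℝ) * pt φ B v)
variable {a : V} (ha : IsNull a)
include hq ha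

lemma kap_cov {σ r : ℝ} (hσ : 0 < σ) (hr : 0 < r) {L : Ix → V} (hL : GF.IsLor L)
    (hLa : sim 1 L 0 a = r • a) {s : ℝ} {κ κ' : 𝓢(Mink, ℂ) →L[ℂ] Completion D}
    (h : ∀ F (v : D), inner ℂ (v : Completion D) (κ F) = ∫ x, F x * conj (gd Q S φ B a s v x))
    (h' : ∀ F (v : D), inner ℂ (v : Completion D) (κ' F) =
      ∫ x, F x * conj (gd Q S φ B a (σ * s / r) v x)) (F : 𝓢(Mink, ℂ)) (v : D) :
    inner ℂ ((Q.U σ L 0 v : D) : Completion D) (κ F) =
      ((σ ^ 2 : ℝ) : ℂ) * inner ℂ (v : Completion D) (κ' (simS σ hσ hL 0 F)) := by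
  rw [h, h']
  have h1 := int_sim hσ hL (fun x => F x * conj (gd Q S φ B a s (Q.U σ L 0 v) x))
  have h2 : ∀ y : Mink, F (σ • lam L y) * conj (gd Q S φ B a s (Q.U σ L 0 v) (σ • lam L y)) =
      ((σ ^ 2)⁻¹ : ℝ) * (simS σ hσ hL 0 F y * conj (gd Q S φ B a (σ * s / r) v y)) := by
    intro y
    rw [gd_U N hq ha ha hσ hr hL hLa, simS0_apply, map_mul, conj_ofReal]
    ring
  simp only [h2] at h1
  rw [integral_const_mul] at h1
  have hσ' : (σ : ℂ) ≠ 0 := by exact_mod_cast hσ.ne'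
  have h3 : ∫ x, F x * conj (gd Q S φ B a s (Q.U σ L 0 v) x) = ((σ ^ 4 : ℝ) : ℂ) *
      (((σ ^ 4)⁻¹ : ℝ) * ∫ x, F x * conj (gd Q S φ B a s (Q.U σ L 0 v) x)) := by
    push_cast
    field_simp
  rw [h3, ← h1]
  push_cast
  field_simp

lemma kap_le {σ r : ℝ} (hσ : 0 < σ) (hr : 0 < r) {L : Ix → V} (hL : GF.IsLor L)
    (hLa : sim 1 L 0 a = r • a) {s : ℝ} {κ κ' : 𝓢(Mink, ℂ) →L[ℂ] Completion D}
    (h : ∀ F (v : D), inner ℂ (v : Completion D) (κ F) = ∫ x, F x * conj (gd Q S φ B a s v x))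
    (h' : ∀ F (v : D), inner ℂ (v : Completion D) (κ' F) =
      ∫ x, F x * conj (gd Q S φ B a (σ * s / r) v x)) (F : 𝓢(Mink, ℂ)) :
    σ ^ 2 * ‖κ' (simS σ hσ hL 0 F)‖ ≤ ‖κ F‖ := by
  have hp : 0 < σ ^ 2 := by positivity
  rw [← le_div_iff₀' hp]
  apply norm_le_of_inner (by positivity)
  intro z
  have h1 := kap_cov N hq ha hσ hr hL hLa h h' F z
  have h2 : ‖((σ ^ 2 : ℝ) : ℂ) * inner ℂ (z : Completion D) (κ' (simS σ hσ hL 0 F))‖ ≤
      ‖z‖ * ‖κ F‖ := by
    rw [← h1]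
    refine (norm_inner_le_norm _ _).trans ?_
    rw [Completion.norm_coe, U_nrm0 hσ hL]
  rw [norm_mul, norm_real, Real.norm_of_nonneg hp.le] at h2
  rw [div_mul_eq_mul_div, le_div_iff₀' hp]
  linarith

lemma kap_norm {σ r : ℝ} (hσ : 0 < σ) (hr : 0 < r) {L : Ix → V} (hL : GF.IsLor L)
    (hLa : sim 1 L 0 a = r • a) {s : ℝ} {κ κ' : 𝓢(Mink, ℂ) →L[ℂ] Completion D}
    (h : ∀ F (v : D), inner ℂ (v : Completion D) (κ F) = ∫ x, F x * conj (gd Q S φ B a s v x))
    (h' : ∀ F (v : D), inner ℂ (v : Completion D) (κ' F) =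
      ∫ x, F x * conj (gd Q S φ B a (σ * s / r) v x)) (F : 𝓢(Mink, ℂ)) :
    ‖κ F‖ = σ ^ 2 * ‖κ' (simS σ hσ hL 0 F)‖ := by
  apply le_antisymm _ (kap_le N hq ha hσ hr hL hLa h h' F)
  have hσ' : 0 < σ⁻¹ := by positivity
  have hLa' : sim 1 (linv L) 0 a = r⁻¹ • a := by
    have h1 : (WithLp.toLp 2 (sim 1 (linv L) 0 (r • a)) : Mink) = WithLp.toLp 2 a := by
      rw [toLp_sim, ← hLa, toLp_sim, linv_lam hL]
    have h2 : sim 1 (linv L) 0 (r • a) = a := congrArg WithLp.ofLp h1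
    have h3 : sim 1 (linv L) 0 (r • a) = r • sim 1 (linv L) 0 a := by
      funext n
      simp only [sim, Pi.smul_apply, smul_eq_mul, Pi.zero_apply, Finset.mul_sum, mul_assoc,
        zero_add, one_mul]
    rw [h3] at h2
    calc sim 1 (linv L) 0 a = r⁻¹ • (r • sim 1 (linv L) 0 a) := by
          rw [smul_smul, inv_mul_cancel₀ hr.ne', one_smul]
      _ = _ := by rw [h2]
  have hs : σ⁻¹ * (σ * s / r) / r⁻¹ = s := by field_simp
  have h2 := kap_le N hq ha hσ' (inv_pos.2 hr) (isLor_linv hL) hLa' (κ := κ') (κ' := κ)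
    (s := σ * s / r) h' (by rw [hs]; exact h) (simS σ hσ hL 0 F)
  have e : simS σ⁻¹ hσ' (isLor_linv hL) 0 (simS σ hσ hL 0 F) = F := by
    ext x
    rw [simS0_apply, simS0_apply]
    congr 1
    have : lam L (σ⁻¹ • lam (linv L) x) = σ⁻¹ • lam L (lam (linv L) x) := by
      have := (lamE hL).map_smul σ⁻¹ (lam (linv L) x)
      exact this
    rw [this, lam_linv hL, smul_smul, mul_inv_cancel₀ hσ.ne', one_smul]
  rw [e, inv_pow, inv_mul_le_iff₀ (by positivity)] at h2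
  exact h2

/-- the relation between the measures -/
theorem dat_rel {σ r : ℝ} (hσ : 0 < σ) (hr : 0 < r) {L : Ix → V} (hL : GF.IsLor L)
    (hLa : sim 1 L 0 a = r • a) {s s' : ℝ} (hs' : s' = σ * s / r)
    {κ κ' : 𝓢(Mink, ℂ) →L[ℂ] Completion D}
    {ν ν' : 𝓢(Mink, ℂ) → Measure Mink} {μ μ' : Measure Mink} (d : Dat Q S φ B a s κ ν μ)
    (d' : Dat Q S φ B a s' κ' ν' μ') :
    μ = ENNReal.ofReal ((σ ^ 4)⁻¹) • μ'.map fun p => σ⁻¹ • lam L p := by
  subst hs'
  set Bl : 𝓢(Mink, ℂ) →ₗ[ℂ] Completion D :=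
    { toFun := fun F => ((σ ^ 2 : ℝ) : ℂ) • κ' (simS σ hσ hL 0 F)
      map_add' := fun F G => by
        have : simS σ hσ hL 0 (F + G) = simS σ hσ hL 0 F + simS σ hσ hL 0 G := by
          ext x; simp [simS0_apply]
        rw [this, map_add, smul_add]
      map_smul' := fun c F => by
        have : simS σ hσ hL 0 (c • F) = c • simS σ hσ hL 0 F := by
          ext x; simp [simS0_apply]
        rw [this, map_smul, RingHom.id_apply, smul_comm] } with hBl
  have hn : ∀ F, ‖(κ : 𝓢(Mink, ℂ) →ₗ[ℂ] Completion D) F‖ = ‖Bl F‖ := by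
    intro F
    show ‖κ F‖ = ‖((σ ^ 2 : ℝ) : ℂ) • κ' (simS σ hσ hL 0 F)‖
    rw [norm_smul, norm_real, Real.norm_of_nonneg (by positivity : 0 ≤ σ ^ 2)]
    exact kap_norm N hq ha hσ hr hL hLa d.spec d'.spec F
  have h := inv2 d.data d'.data d.dens d'.dens (fun p => σ⁻¹ • lam L p) (measurable_M σ L)
    (σ ^ 4) ((σ ^ 4)⁻¹) (by positivity) (simS σ hσ hL 0) (fun b => (lamE hL).symm (σ⁻¹ • b))
    (fun g b => by
      ext x
      rw [simS0_apply, tauS_apply, tauS_apply, simS0_apply]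
      congr 1
      have h1 : lam L (x - (lamE hL).symm (σ⁻¹ • b)) = lam L x - σ⁻¹ • b := by
        have h2 := (lamE hL).map_sub x ((lamE hL).symm (σ⁻¹ • b))
        rw [ContinuousLinearEquiv.apply_symm_apply] at h2
        exact h2
      rw [h1, smul_sub, smul_smul, mul_inv_cancel₀ hσ.ne', one_smul])
    (fun f g => by
      have h1 := inner_of_norm (κ : 𝓢(Mink, ℂ) →ₗ[ℂ] Completion D) Bl hn f g
      have h2 : inner ℂ (Bl f) (Bl g) = ((σ ^ 4 : ℝ) : ℂ) *
          inner ℂ (κ' (simS σ hσ hL 0 f)) (κ' (simS σ hσ hL 0 g)) := by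
        show inner ℂ (((σ ^ 2 : ℝ) : ℂ) • κ' (simS σ hσ hL 0 f))
          (((σ ^ 2 : ℝ) : ℂ) • κ' (simS σ hσ hL 0 g)) = _
        rw [inner_smul_left, inner_smul_right, conj_ofReal]
        push_cast
        ring
      rw [h2] at h1
      exact h1)
    (fun g p => by
      rw [mft_simS]
      have : chr (-WithLp.toLp 2 (0 : V)) (σ⁻¹ • lam L p) = 1 := by
        have h0 : (-WithLp.toLp 2 (0 : V) : Mink) = 0 := by
          ext n; simp
        rw [h0, chr_zero']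
      rw [this, one_mul])
    (fun b p => by rw [chr_lam_symm hL, chr_smul])
  rw [h]
  congr 2
  field_simp

end

lemma boost_nu (t : ℝ) : sim 1 (mBoost t) 0 (nu (-1)) = Real.exp (-t) • nu (-1) := by
  have h := Real.cosh_sub_sinh t
  funext n
  fin_cases n <;> simp [sim, nu, mBoost, Fin.sum_univ_four] <;> linarith

lemma null_nu (b : ℝ) : sim 1 (mNull b) 0 (nu (-1)) = (1 : ℝ) • nu (-1) := by
  funext n
  fin_cases n <;> simp [sim, nu, mNull, Fin.sum_univ_four] <;> ring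

lemma null_nu' (b : ℝ) : sim 1 (mNull' b) 0 (nu (-1)) = (1 : ℝ) • nu (-1) := by
  funext n
  fin_cases n <;> simp [sim, nu, mNull', Fin.sum_univ_four] <;> ring

/-- boundedness for one parameter implies boundedness for all parameters -/
lemma bdd_all (N : CNet Q H alg S) {φ : Completion D} {B : D → D}
    (hq : ∀ σ L v, 0 < σ → GF.IsLor L → pt φ B (Q.U σ L 0 v) = ((σ ^ 2)⁻¹ : ℝ) * pt φ B v)
    {a : V} (ha : IsNull a) {s0 : ℝ} (hs0 : 0 < s0) (hbd : ∀ F : 𝓢(Mink, ℂ), ∃ C : ℝ, ∀ v,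
      ‖∫ x, conj (F x) * gd Q S φ B a s0 v x‖ ≤ C * ‖v‖) (s : ℝ) (hs : 0 < s)
    (F : 𝓢(Mink, ℂ)) : ∃ C : ℝ, ∀ v, ‖∫ x, conj (F x) * gd Q S φ B a s v x‖ ≤ C * ‖v‖ := by
  set σ := s / s0 with hσd
  have hσ : 0 < σ := by positivity
  obtain ⟨C, hC⟩ := hbd (simJ hσ isLor_one 0 F)
  refine ⟨(σ ^ 2)⁻¹ * C, fun v => ?_⟩
  have h1 : sim 1 GF.one 0 a = (1 : ℝ) • a := by
    rw [sim_one]; funext n; simp
  have h2 := int_sim hσ isLor_one (fun x => conj (simJ hσ isLor_one 0 F x) *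
    gd Q S φ B a s0 (Q.U σ GF.one 0 v) x)
  have h3 : ∀ y : Mink, conj (simJ hσ isLor_one 0 F (σ • lam GF.one y)) *
      gd Q S φ B a s0 (Q.U σ GF.one 0 v) (σ • lam GF.one y) =
      ((σ ^ 2)⁻¹ : ℝ) * (conj (F y) * gd Q S φ B a s v y) := by
    intro y
    rw [gd_U N hq ha ha hσ one_pos isLor_one h1, ← simS0_apply hσ isLor_one, simS_simJ]
    have : σ * s0 / 1 = s := by rw [hσd]; field_simp
    rw [this]
    ring
  simp only [h3] at h2
  rw [integral_const_mul] at h2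
  have h4 : ∫ x, conj (F x) * gd Q S φ B a s v x = ((σ ^ 2)⁻¹ : ℝ) *
      ∫ x, conj (simJ hσ isLor_one 0 F x) * gd Q S φ B a s0 (Q.U σ GF.one 0 v) x := by
    have hσ' : (σ : ℂ) ≠ 0 := by exact_mod_cast hσ.ne'
    have h5 := congrArg (fun z => ((σ ^ 2 : ℝ) : ℂ) * z) h2
    rw [← mul_assoc, ← mul_assoc] at h5
    have e1 : ((σ ^ 2 : ℝ) : ℂ) * (((σ ^ 2)⁻¹ : ℝ) : ℂ) = 1 := by
      push_cast; field_simp
    have e2 : ((σ ^ 2 : ℝ) : ℂ) * (((σ ^ 4)⁻¹ : ℝ) : ℂ) = (((σ ^ 2)⁻¹ : ℝ) : ℂ) := by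
      push_cast; field_simp
    rw [e1, e2, one_mul] at h5
    exact h5
  rw [h4, norm_mul, norm_real, Real.norm_of_nonneg (by positivity), mul_assoc]
  have h6 := hC (Q.U σ GF.one 0 v)
  rw [U_nrm0 hσ isLor_one] at h6
  gcongr

/-- small response implies invariance -/
theorem inv_of_small (N : CNet Q H alg S) {φ : Completion D} {B : D → D} (hB : B ∈ alg Set.univ)
    (hq : ∀ σ L v, 0 < σ → GF.IsLor L → pt φ B (Q.U σ L 0 v) = ((σ ^ 2)⁻¹ : ℝ) * pt φ B v)
    (hbd : ∀ s, 0 < s → ∀ F : 𝓢(Mink, ℂ), ∃ C : ℝ, ∀ v,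
      ‖∫ x, conj (F x) * gd Q S φ B (nu (-1)) s v x‖ ≤ C * ‖v‖)
    {G : 𝓢(Mink, ℂ)} {q : Mink} (hq0 : mass2 q = 0) (hqp : 0 < q 0) (hGq : mft G q ≠ 0)
    (hsm : ∀ (ε : ℝ), 0 < ε → ∃ᶠ s in 𝓝[>] (0 : ℝ), ∀ v,
      ‖∫ x, conj (G x) * gd Q S φ B (nu (-1)) s v x‖ ^ 2 ≤ ε * s * ‖v‖ ^ 2)
    (s : ℝ) (v : D) : pt φ B (S (nu (-1)) s v) = pt φ B v := by
  have ha : IsNull (nu (-1)) := isNull_nu (Or.inr rfl)
  have hex : ∀ s : ℝ, ∃ κ ν μ, 0 < s → Dat Q S φ B (nu (-1)) s κ ν μ := by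
    intro s
    by_cases hs : 0 < s
    · obtain ⟨κ, ν, μ, h⟩ := exists_dat N hB ha s (hbd s hs)
      exact ⟨κ, ν, μ, fun _ => h⟩
    · exact ⟨0, fun _ => 0, 0, fun h => absurd h hs⟩
  choose κ ν μ hd using hex
  have hcc : ∀ (s : ℝ) (F : 𝓢(Mink, ℂ)) v, ‖∫ x, F x * conj (gd Q S φ B (nu (-1)) s v x)‖ =
      ‖∫ x, conj (F x) * gd Q S φ B (nu (-1)) s v x‖ := by
    intro s F v
    rw [← RCLike.norm_conj, ← integral_conj]
    congr 2
    ext x
    rw [map_mul, conj_conj]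
  obtain ⟨q', hq1, hq2, hq3⟩ := exists_null_near (continuous_mft G) hq0 hqp hGq
  obtain ⟨A, Bb, m0, x0, y0, l0, c, hA, hAB, hm0, hl0, hc, hbox⟩ :=
    exists_Bx (continuous_mft G) hq1 hq2 hq3
  have hnull : ∀ s, 0 < s → μ s = 0 := by
    refine fam_zero (fun s hs => (hd s hs).cone) ?_ ?_ ?_ ?_ hA hAB hm0 hl0 (x0 := x0) (y0 := y0) ?_
    · intro s hs R
      obtain ⟨g, c, hc, h⟩ := ball_le (F := Completion D) R
      have h1 := h _ _ _ (hd s hs).data (hd s hs).dens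
      intro hcon
      rw [hcon, ENNReal.mul_top (by simpa using hc.ne')] at h1
      exact ENNReal.ofReal_ne_top (top_le_iff.1 h1)
    · intro s hs b
      have h := dat_rel N hq ha one_pos one_pos (isLor_null b) (null_nu b)
        (by rw [one_mul, div_one]) (hd s hs) (hd s hs)
      simp only [one_pow, inv_one, ENNReal.ofReal_one, one_smul] at h
      exact h.symm
    · intro s hs b
      have h := dat_rel N hq ha one_pos one_pos (isLor_null' b) (null_nu' b)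
        (by rw [one_mul, div_one]) (hd s hs) (hd s hs)
      simp only [one_pow, inv_one, ENNReal.ofReal_one, one_smul] at h
      exact h.symm
    · intro s hs σ hσ t
      exact dat_rel N hq ha hσ (Real.exp_pos (-t)) (isLor_boost t) (boost_nu t)
        (by rw [Real.exp_neg, div_inv_eq_mul]) (hd s hs) (hd _ (by positivity))
    · intro ε hε
      have h1 := hsm (ε * c ^ 2) (by positivity)
      have h2 : ∀ᶠ s in 𝓝[>] (0 : ℝ), 0 < s := self_mem_nhdsWithin
      refine (h1.and_eventually h2).mono ?_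
      rintro s ⟨h3, hs⟩
      have h5 : ‖κ s G‖ ≤ Real.sqrt (ε * c ^ 2 * s) := by
        apply norm_le_of_inner (Real.sqrt_nonneg _)
        intro z
        rw [(hd s hs).spec, hcc]
        apply le_of_sq_le_sq _ (by positivity)
        rw [mul_pow, Real.sq_sqrt (by positivity)]
        exact h3 z
      have h6 : ‖κ s G‖ ^ 2 ≤ c ^ 2 * (ε * s) := by
        calc ‖κ s G‖ ^ 2 ≤ Real.sqrt (ε * c ^ 2 * s) ^ 2 := by gcongr
          _ = c ^ 2 * (ε * s) := by rw [Real.sq_sqrt (by positivity)]; ring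
      have h4 : ENNReal.ofReal (c ^ 2) * μ s (Bx A Bb m0 x0 y0 l0) ≤
          ENNReal.ofReal (‖κ s G‖ ^ 2) := by
        rw [norm_sq_spec (hd s hs).data, (hd s hs).dens G,
          withDensity_apply _ MeasurableSet.univ, ← setLIntegral_const, setLIntegral_univ]
        refine (setLIntegral_mono' (measurableSet_Bx _ _ _ _ _ _) ?_).trans
          (setLIntegral_le_lintegral _ _)
        intro p hp
        unfold dens
        rw [← ofReal_norm, ← ENNReal.ofReal_pow (norm_nonneg _)]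
        apply ENNReal.ofReal_le_ofReal
        gcongr
        exact hbox p hp
      have h7 : ENNReal.ofReal (c ^ 2) * μ s (Bx A Bb m0 x0 y0 l0) ≤
          ENNReal.ofReal (c ^ 2) * ENNReal.ofReal (ε * s) := by
        rw [← ENNReal.ofReal_mul (by positivity)]
        exact h4.trans (ENNReal.ofReal_le_ofReal h6)
      exact (ENNReal.mul_le_mul_iff_right (by simpa using hc.ne') ENNReal.ofReal_ne_top).1 h7
  have hpos : ∀ s, 0 < s → ∀ v, pt φ B (S (nu (-1)) (-s) v) = pt φ B v := by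
    intro s hs v
    have hk : ∀ g, κ s g = 0 := by
      intro g
      have h1 := norm_sq_spec (hd s hs).data g
      rw [(hd s hs).dens g, hnull s hs, withDensity_zero_left] at h1
      simp only [Measure.coe_zero, Pi.zero_apply, ENNReal.ofReal_eq_zero] at h1
      have h2 : ‖κ s g‖ ^ 2 = 0 := le_antisymm h1 (by positivity)
      exact norm_eq_zero.1 (pow_eq_zero_iff two_ne_zero |>.1 h2)
    have hz := fund (W := Set.univ) isOpen_univ
      (h := fun x => conj (gd Q S φ B (nu (-1)) s v x))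
      (Complex.continuous_conj.comp (cont_gd N hB ha s v))
      (fun F hF => by
        rw [← (hd s hs).spec F v, hk, inner_zero_right]) (0 : Mink) trivial
    have h3 : gd Q S φ B (nu (-1)) s v 0 = 0 := by
      have := congrArg conj hz
      simpa using this
    unfold gd at h3
    rw [neg_zero, U1_zero_all] at h3
    exact sub_eq_zero.1 h3
  rcases lt_trichotomy s 0 with hs | hs | hs
  · have := hpos (-s) (by linarith) v
    rwa [neg_neg] at this
  · rw [hs, S_zero N.toNet ha]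
  · have := hpos s hs (S (nu (-1)) s v)
    rw [S_neg' N.toNet ha] at this
    exact this.symm

end Vale.Agent.P352.H496

end
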