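import Vale.Agent.P352.H496.CSeq
import Mathlib.Analysis.Polynomial.Basic

set_option linter.all false

noncomputable section

open MeasureTheory SchwartzMap Complex Filter Topology
open scoped SchwartzMap ComplexConjugate ENNReal LineDeriv

namespace Vale.Agent.P352.H496

open GF (Ix V Fn Sch ev pd bar sim bas o)
open H246 H15

variable {D : Type*} [NormedAddCommGroup D] [InnerProductSpace ℂ D]
variable {Q : GF.Theory D}

/-- pairs of null vectors with product one -/
def NPr (a b : V) : Prop := IsNull a ∧ IsNull b ∧ GF.mdot a b = 1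

/-- `B`, `B'` are adjoint operator valued distributions that are local relative to the bosonic
fields -/
structure RelF (Q : GF.Theory D) (B B' : GF.Fld D) : Prop where
  lin : ∀ (f g : Fn) (c : ℝ) v, GF.IsTest f → GF.IsTest g →
    B (fun x => f x + c * g x) v = B f v + (c : ℂ) • B g v
  cont : ∀ v, Continuous fun g => B (ev g) v
  adj : ∀ f v w, GF.IsTest f → inner ℂ (B f v) w = inner ℂ v (B' (bar f) w)
  loc : ∀ A f g v, Q.bose A → GF.IsTest f → GF.IsTest g → GF.Sep f g →
    A f (B g v) = B g (A f v)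
  loc' : ∀ A f g v, Q.bose A → GF.IsTest f → GF.IsTest g → GF.Sep f g →
    A f (B' g v) = B' g (A f v)

/-- families of operator valued distributions, labelled by null pairs, with the same vacuum
vectors, that commute with localized operators across null hyperplanes -/
structure LFam (Q : GF.Theory D) (Z : V → V → GF.Fld D) : Prop where
  adj : ∀ a b f v w, NPr a b → GF.IsTest f →
    inner ℂ (Z a b f v) w = inner ℂ v (Z a b (bar f) w)
  lin : ∀ a b (f g : Fn) (c : ℝ) v, NPr a b → GF.IsTest f → GF.IsTest g →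
    Z a b (fun x => f x + c * g x) v = Z a b f v + (c : ℂ) • Z a b g v
  cont : ∀ a b v, NPr a b → Continuous fun g => Z a b (ev g) v
  vac : ∀ a b a' b' f, NPr a b → NPr a' b' → GF.IsTest f → Z a b f Q.vac = Z a' b' f Q.vac
  com : ∀ a b O P P' f v, NPr a b → IsCompact O → LocOp Q O P P' → In (cc O) f →
    Sepa a f O → Sepa b f O → P (Z a b f v) = Z a b f (P v)

lemma mdot_symm' (x y : V) : GF.mdot (x - y) (x - y) = GF.mdot (y - x) (y - x) := by
  unfold GF.mdot
  refine Finset.sum_congr rfl fun m _ => ?_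
  simp only [Pi.sub_apply]
  ring

lemma sep_of_cc {f g : Fn} (h : tsupport f ⊆ cc (tsupport g)) : GF.Sep f g := by
  intro x hx y hy
  have h1 := h hx y hy
  rw [mdot_symm'] at h1
  exact h1

lemma cc_of_sep {f g : Fn} (h : GF.Sep f g) : tsupport f ⊆ cc (tsupport g) := by
  intro x hx y hy
  have h1 : GF.mdot (x - y) (x - y) < 0 := h x hx y hy
  rwa [mdot_symm'] at h1

lemma sep_comm {f g : Fn} (h : GF.Sep f g) : GF.Sep g f := by
  intro x hx y hy
  have h1 : GF.mdot (y - x) (y - x) < 0 := h y hy x hx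
  rwa [mdot_symm'] at h1

/-- the smeared operators are localized operators -/
lemma RelF.locOp {B B' : GF.Fld D} (h : RelF Q B B') {g : Fn} (hg : GF.IsTest g) :
    LocOp Q (tsupport g) (B g) (B' (bar g)) where
  adj := fun v w => h.adj g v w hg
  comm := fun A f v hA hf => (h.loc A f g v hA hf.1 hg (sep_of_cc hf.2.2)).symm
  comm' := fun A f v hA hf => (h.loc' A f (bar g) v hA hf.1 (isTest_bar hg)
    (sep_of_cc (by rw [tsupport_bar]; exact hf.2.2))).symm

lemma relF_fld {B B' : GF.Fld D} (hB : Q.fld B) (hB' : Q.fld B')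
    (hadj : ∀ f v w, GF.IsTest f → inner ℂ (B f v) w = inner ℂ v (B' (bar f) w)) :
    RelF Q B B' where
  lin := fun f g c v hf hg => Q.lin B f g c v hB hf hg
  cont := fun v => Q.cont B v hB
  adj := hadj
  loc := fun A f g v hA hf hg hs => Q.loc A B f g v hA hB hf hg hs
  loc' := fun A f g v hA hf hg hs => Q.loc A B' f g v hA hB' hf hg hs

/-- spatial directions -/
def ed (t : ℝ) : V := ![0, 1, t, t ^ 2]

lemma mdot_ed (a : V) (t : ℝ) : GF.mdot a (ed t) = -(a 1 + a 2 * t + a 3 * t ^ 2) := by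
  simp [GF.mdot, ed, Fin.sum_univ_four, GF.eta, o]
  ring

lemma ev_dir {a : V} (ha : IsNull a) : ∀ᶠ t in atTop, GF.mdot a (ed t) ≠ 0 := by
  have h1 := ha.1
  have h2 : 0 < a 0 := ha.2
  have h3 : a 0 * a 0 = a 1 * a 1 + a 2 * a 2 + a 3 * a 3 := by
    have : GF.mdot a a = a 0 * a 0 - a 1 * a 1 - a 2 * a 2 - a 3 * a 3 := by
      simp [GF.mdot, Fin.sum_univ_four, GF.eta, o]
      ring
    rw [this] at h1
    linarith
  set P : Polynomial ℝ := Polynomial.C (a 1) + Polynomial.C (a 2) * Polynomial.X +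
    Polynomial.C (a 3) * Polynomial.X ^ 2 with hP
  have hne : P ≠ 0 := by
    intro h0
    have c0 : P.coeff 0 = a 1 := by simp [hP]
    have c1 : P.coeff 1 = a 2 := by
      simp [hP, Polynomial.coeff_X]
    have c2 : P.coeff 2 = a 3 := by
      simp [hP, Polynomial.coeff_X, Polynomial.coeff_C]
    rw [h0, Polynomial.coeff_zero] at c0 c1 c2
    rw [← c0, ← c1, ← c2] at h3
    have : 0 < a 0 * a 0 := mul_pos h2 h2
    linarith
  filter_upwards [P.eventually_atTop_not_isRoot hne] with t ht h0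
  apply ht
  rw [mdot_ed] at h0
  rw [Polynomial.IsRoot.def, hP]
  simp
  linarith

lemma abs_mdot_le (a y : V) {r : ℝ} (h : ∀ m, |y m| ≤ r) :
    |GF.mdot a y| ≤ (∑ m, |a m|) * r := by
  unfold GF.mdot
  rw [Finset.sum_mul]
  refine (Finset.abs_sum_le_sum_abs _ _).trans (Finset.sum_le_sum fun m _ => ?_)
  rw [abs_mul, abs_mul]
  have : |GF.eta m| = 1 := by
    unfold GF.eta
    split_ifs <;> simp
  rw [this, one_mul]
  exact mul_le_mul_of_nonneg_left (h m) (abs_nonneg _)

lemma mdot_add_left' (x y z : V) : GF.mdot (x + y) z = GF.mdot x z + GF.mdot y z := by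
  unfold GF.mdot
  rw [← Finset.sum_add_distrib]
  refine Finset.sum_congr rfl fun m _ => ?_
  simp only [Pi.add_apply]
  ring

lemma mdot_smul_left' (c : ℝ) (x z : V) : GF.mdot (c • x) z = c * GF.mdot x z := by
  unfold GF.mdot
  rw [Finset.mul_sum]
  refine Finset.sum_congr rfl fun m _ => ?_
  simp only [Pi.smul_apply, smul_eq_mul]
  ring

lemma mdot_comm'' (x z : V) : GF.mdot x z = GF.mdot z x := by
  unfold GF.mdot
  refine Finset.sum_congr rfl fun m _ => ?_
  ring

lemma mdot_ed_ed (t : ℝ) : GF.mdot (ed t) (ed t) ≤ -1 := by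
  rw [mdot_ed]
  have e1 : ed t 1 = 1 := rfl
  have e2 : ed t 2 = t := rfl
  have e3 : ed t 3 = t ^ 2 := rfl
  rw [e1, e2, e3]
  nlinarith [sq_nonneg t, sq_nonneg (t ^ 2)]

/-- a big set of points that are spacelike to a compact set, on one side of null hyperplanes -/
lemma exists_big {K : Set V} (hK : IsCompact K) {ι : Type*} [Fintype ι] (c : ι → V)
    (hc : ∀ i, IsNull (c i)) : ∃ S : Set V, Big (MW S) ∧ S ⊆ cc K ∧
      ∀ O ⊆ S, ∀ f : Fn, tsupport f ⊆ K → ∀ i, Sepa (c i) f O := by
  obtain ⟨t, ht⟩ := (eventually_all.2 fun i => ev_dir (hc i)).exists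
  set e : V := ed t with he
  obtain ⟨ρ0, hρ0⟩ := hK.isBounded.exists_norm_le
  set ρ : ℝ := max ρ0 0 with hρ
  have hρn : 0 ≤ ρ := le_max_right _ _
  have hKρ : ∀ k ∈ K, ∀ m, |k m| ≤ ρ := fun k hk m =>
    ((norm_le_pi_norm k m).trans (hρ0 k hk)).trans (le_max_left _ _)
  set N : ι → ℝ := fun i => ∑ m, |c i m| with hN
  have hN0 : ∀ i, 0 ≤ N i := fun i => Finset.sum_nonneg fun m _ => abs_nonneg _
  set M : ℝ := 1 + ∑ i, N i * ρ with hM
  have hMi : ∀ i, N i * ρ < M := fun i => by
    have : N i * ρ ≤ ∑ i, N i * ρ :=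
      Finset.single_le_sum (f := fun i => N i * ρ) (fun j _ => mul_nonneg (hN0 j) hρn)
        (Finset.mem_univ i)
    rw [hM]
    linarith
  refine ⟨{y | y ∈ cc K ∧ ∀ i, (0 < GF.mdot (c i) e → M < GF.mdot (c i) y) ∧
    (GF.mdot (c i) e < 0 → GF.mdot (c i) y < -M)}, ?_, fun y hy => hy.1, ?_⟩
  · intro r
    have hr : r ≤ |r| := le_abs_self r
    set E : ℝ := ∑ m, |e m| with hE
    set R : ℝ := ρ + |r| with hR
    have h1 : ∀ i, ∀ᶠ L : ℝ in atTop, M + N i * |r| < L * |GF.mdot (c i) e| := fun i =>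
      (tendsto_id.atTop_mul_const (abs_pos.2 (ht i))).eventually_gt_atTop _
    have h2 : ∀ᶠ L : ℝ in atTop, 4 * R ^ 2 + 2 * L * (E * R) - L * L < 0 := by
      filter_upwards [eventually_gt_atTop (2 * (E * R) + 4 * R ^ 2 + 1), eventually_gt_atTop 1]
        with L hL hL1
      have hE0 : 0 ≤ E := Finset.sum_nonneg fun m _ => abs_nonneg _
      have hR0 : 0 ≤ R := add_nonneg hρn (abs_nonneg _)
      have h3 : 0 ≤ E * R := mul_nonneg hE0 hR0
      nlinarith [sq_nonneg R]
    obtain ⟨L, hL1, hL2, hL0⟩ :=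
      ((eventually_all.2 h1).and (h2.and (eventually_gt_atTop (0 : ℝ)))).exists
    refine ⟨WithLp.toLp 2 (L • e), fun x hx => ?_⟩
    have hx' : ∀ m, |(x.ofLp - L • e) m| ≤ |r| := fun m => (hx m).trans hr
    refine ⟨fun k hk => ?_, fun i => ?_⟩
    · set z : V := k - (x.ofLp - L • e) with hz
      have hzR : ∀ m, |z m| ≤ R := fun m => by
        have : z m = k m - (x.ofLp - L • e) m := rfl
        rw [this]
        exact (abs_sub _ _).trans (add_le_add (hKρ k hk m) (hx' m))
      have e1 : k - x.ofLp = z + (-L) • e := by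
        rw [hz, neg_smul]
        abel
      rw [e1, mdot_add_left', mdot_smul_left', mdot_comm'' z, mdot_comm'' e, mdot_add_left',
        mdot_smul_left', mdot_add_left', mdot_smul_left', mdot_comm'' e z]
      have b1 := abs_le.1 (abs_mdot_le e z hzR)
      have b2 : |GF.mdot z z| ≤ 4 * R ^ 2 := by
        refine (abs_mdot_le z z hzR).trans ?_
        have h5 : ∑ m, |z m| ≤ 4 * R := by
          refine (Finset.sum_le_sum fun m _ => hzR m).trans ?_
          simp
        have hR0 : 0 ≤ R := add_nonneg hρn (abs_nonneg _)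
        nlinarith
      have b3 := (abs_le.1 b2).2
      have b4 := mdot_ed_ed t
      rw [mdot_comm'' z e]
      rw [← he] at b4
      nlinarith [b1.1, b1.2, mul_nonneg hL0.le hL0.le, mul_pos hL0 hL0]
    · have b1 := abs_le.1 (abs_mdot_le (c i) _ hx')
      have e1 : GF.mdot (c i) x.ofLp = L * GF.mdot (c i) e + GF.mdot (c i) (x.ofLp - L • e) := by
        have : x.ofLp = L • e + (x.ofLp - L • e) := by abel
        conv_lhs => rw [this]
        rw [mdot_comm'', mdot_add_left', mdot_smul_left', mdot_comm'' e, mdot_comm'' (x.ofLp - L • e)]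
      rw [e1]
      have h3 := hL1 i
      constructor
      · intro hp
        rw [abs_of_pos hp] at h3
        linarith [b1.1]
      · intro hp
        rw [abs_of_neg hp] at h3
        linarith [b1.2]
  · intro O hO f hf i
    rcases lt_or_gt_of_ne (ht i) with h | h
    · refine ⟨-M, Or.inr ⟨fun x hx => ?_, fun y hy => ((hO hy).2 i).2 h⟩⟩
      have b1 := abs_le.1 (abs_mdot_le (c i) x (hKρ x (hf hx)))
      linarith [b1.1, hMi i]
    · refine ⟨M, Or.inl ⟨fun x hx => ?_, fun y hy => ((hO hy).2 i).1 h⟩⟩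
      have b1 := abs_le.1 (abs_mdot_le (c i) x (hKρ x (hf hx)))
      linarith [b1.2, hMi i]

end Vale.Agent.P352.H496
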