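import Vale.Agent.P352.H496.Imp3
import Vale.Agent.P352.H496.LFam

set_option linter.all false

noncomputable section

open MeasureTheory SchwartzMap Complex Filter Topology
open scoped SchwartzMap ComplexConjugate ENNReal LineDeriv

namespace Vale.Agent.P352.H496

open GF (Ix V Fn Sch ev pd bar sim bas o)
open H246 H15

/-- the improvement terms of the cutoffs are spacelike to compact sets, for large cutoffs -/
lemma sep_cut {F : ℝ → Fn} (hF : GF.IsCutoff F) {f : 𝓢(Mink, ℂ)} (hf : HasCompactSupport f) :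
    ∀ᶠ R in atTop, ∃ G : 𝓢(Mink, ℂ), fl G = F R ∧ ∀ n l : Ix, SpSep (imS o n G) f ∧
      SpSep (imS o n (Xm l G) - imS o l (Xm n G)) f := by
  obtain ⟨a, c, ha, hc, -, hc1, hF⟩ := hF
  obtain ⟨ε, hε, hcε⟩ := Metric.eventually_nhds_iff_ball.1 hc1
  obtain ⟨τ, hτ⟩ := ha.isCompact.isBounded.exists_norm_le
  obtain ⟨ρ, hρ0, hρ⟩ := exists_ball f hf
  filter_upwards [eventually_gt_atTop 0, eventually_gt_atTop ((|τ| + 2 * ρ) / ε)] with R hR hR2
  obtain ⟨hRt, hFx⟩ := hF R hR
  obtain ⟨G, hG⟩ := exists_fl hRt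
  refine ⟨G, hG, ?_⟩
  have hGx : ∀ x : Mink, G x = a (x 0) * c (fun n => if n = o then 0 else x n / R) := by
    intro x
    have h1 := hFx x.ofLp
    rw [← hG] at h1
    exact h1
  set U : Set Mink := {x | ∀ i : Ix, i ≠ 0 → |x i| < ε * R} with hU
  have hUo : IsOpen U := by
    have : U = ⋂ i : Ix, {x : Mink | i ≠ 0 → |x i| < ε * R} := by
      ext x
      simp [hU]
    rw [this]
    refine isOpen_iInter_of_finite fun i => ?_
    by_cases hi : i = 0
    · simp [hi]
    · have : {x : Mink | i ≠ 0 → |x i| < ε * R} = {x : Mink | |x i| < ε * R} := by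
        ext x
        simp [hi]
      rw [this]
      exact isOpen_lt (by fun_prop) continuous_const
  have hGU : ∀ y ∈ U, G y = a (y 0) := by
    intro y hy
    rw [hGx, hcε, ofReal_one, mul_one]
    rw [mem_ball_zero_iff, pi_norm_lt_iff hε]
    intro n
    split_ifs with hn
    · simpa using hε
    · rw [norm_div, Real.norm_eq_abs, Real.norm_eq_abs, abs_of_pos hR, div_lt_iff₀ hR]
      exact hy n hn
  have hGd : ∀ y ∈ U, ∀ k : Ix, k ≠ 0 → (∂_{eb k} G : 𝓢(Mink, ℂ)) y = 0 := by
    intro y hy k hk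
    apply lineDeriv_eq_of_hasDerivAt
    have hcont : Continuous fun t : ℝ => y + t • (eb k : Mink) := by fun_prop
    have h1 : ∀ᶠ t : ℝ in 𝓝 0, y + t • (eb k : Mink) ∈ U := by
      have h2 : U ∈ 𝓝 (y + (0:ℝ) • (eb k : Mink)) := by
        rw [zero_smul, add_zero]
        exact hUo.mem_nhds hy
      exact hcont.continuousAt.eventually h2
    refine (hasDerivAt_const (0:ℝ) (a (y 0) : ℂ)).congr_of_eventuallyEq ?_
    filter_upwards [h1] with t ht
    rw [hGU _ ht]
    congr 2
    simp [eb, Ne.symm hk]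
  have hsupp : ∀ x ∈ tsupport G, |x 0| ≤ |τ| := by
    intro x hx
    have hcl : IsClosed {x : Mink | |x 0| ≤ |τ|} := isClosed_le (by fun_prop) continuous_const
    refine closure_minimal ?_ hcl hx
    intro y hy
    have h1 : a (y 0) ≠ 0 := by
      intro h
      apply hy
      rw [hGx, h, ofReal_zero, zero_mul]
    have h2 := hτ (y 0) (subset_tsupport _ h1)
    exact (Real.norm_eq_abs (y 0) ▸ h2).trans (le_abs_self _)
  have key : ∀ E : 𝓢(Mink, ℂ), tsupport E ⊆ tsupport G → (∀ x ∈ U, E x = 0) → SpSep E f := by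
    intro E hE hEU x hx y hy
    have hx0 := hsupp x (hE hx)
    have hxU : x ∉ U := by
      have hcl : IsClosed Uᶜ := hUo.isClosed_compl
      have : x ∈ Uᶜ := by
        refine closure_minimal ?_ hcl hx
        intro z hz hzU
        exact hz (hEU z hzU)
      exact this
    simp only [hU, Set.mem_setOf_eq, not_forall, not_lt] at hxU
    obtain ⟨i, hi, hiR⟩ := hxU
    have hyρ := hρ y hy
    have h1 : |τ| + 2 * ρ < ε * R := by
      rw [div_lt_iff₀ hε] at hR2
      linarith
    have h2 : |x 0 - y 0| ≤ |τ| + ρ := by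
      have := hyρ 0
      exact (abs_sub _ _).trans (add_le_add hx0 this)
    have h3 : |τ| + ρ < |x i - y i| := by
      have h4 := abs_sub_abs_le_abs_sub (x i) (y i)
      have h5 := hyρ i
      linarith
    have h6 : (x 0 - y 0) ^ 2 < (x i - y i) ^ 2 := sq_lt_sq.2 (h2.trans_lt h3)
    have e : mdot (x - y) (x - y) = (x 0 - y 0) ^ 2 - (x 1 - y 1) ^ 2 - (x 2 - y 2) ^ 2 -
        (x 3 - y 3) ^ 2 := by
      simp [mdot]
      ring
    rw [e]
    have s1 := sq_nonneg (x 1 - y 1)
    have s2 := sq_nonneg (x 2 - y 2)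
    have s3 := sq_nonneg (x 3 - y 3)
    fin_cases i
    · exact absurd rfl hi
    · have h7 : (x 0 - y 0) ^ 2 < (x 1 - y 1) ^ 2 := h6
      linarith
    · have h7 : (x 0 - y 0) ^ 2 < (x 2 - y 2) ^ 2 := h6
      linarith
    · have h7 : (x 0 - y 0) ^ 2 < (x 3 - y 3) ^ 2 := h6
      linarith
  intro n l
  refine ⟨key _ (tsupport_imS o n G) fun x hx => (imS_flat hUo hGd hx n l).1,
    key _ ?_ fun x hx => (imS_flat hUo hGd hx n l).2⟩
  have hX : ∀ m : Ix, tsupport (Xm m G) ⊆ tsupport G := by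
    intro m
    refine closure_minimal ?_ (isClosed_tsupport G)
    intro x hx
    by_contra hcon
    apply hx
    show Xm m G x = 0
    rw [Xm_apply, image_eq_zero_of_notMem_tsupport hcon, mul_zero]
  refine closure_minimal ?_ (isClosed_tsupport G)
  intro x hx
  by_contra hcon
  apply hx
  show (imS o n (Xm l G) - imS o l (Xm n G)) x = 0
  rw [SchwartzMap.sub_apply, image_eq_zero_of_notMem_tsupport fun h => hcon (hX l
    (tsupport_imS o n _ h)), image_eq_zero_of_notMem_tsupport fun h => hcon (hX n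
    (tsupport_imS o l _ h)), sub_zero]

variable {D : Type*} [NormedAddCommGroup D] [InnerProductSpace ℂ D]
variable {Q Q' : GF.Theory D} {T : Ix → Ix → GF.Fld D} {L : GF.Fld D}

lemma xg_fl (l : Ix) (G : 𝓢(Mink, ℂ)) : xg l (fl G) = fl (Xm l G) := by
  funext x
  rw [fl_apply, Xm_apply]
  rfl

lemma sep_comm' {f g : Fn} (h : GF.Sep f g) : GF.Sep g f := sep_comm h

/-- a local scalar field of dimension two whose improvement makes the stress tensor traceless
gives a traceless improvement -/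
theorem isImpr (hT : Q.IsStress T) (he : IsEnl Q Q') (hL : Q'.IsScalar L 2)
    (htr : ∀ f v, GF.IsTest f → GF.tr (GF.improve T L) f v = 0) :
    IsImpr Q' T (GF.improve T L) := by
  have hb : ∀ m n, Q'.bose (T m n) := fun m n => he.bose _ (hT.bose m n)
  have hf : ∀ m n, Q'.fld (T m n) := fun m n => Q'.bose_fld _ (hb m n)
  have hLf := Q'.bose_fld _ hL.1
  have hcm : ∀ (m n : Ix) (G : 𝓢(Mink, ℂ)) {B : GF.Fld D} (hB : Q'.fld B) (f : 𝓢(Mink, ℂ))
      (v : D), cm (GF.improve T L m n) (fl G) B (fl f) v =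
      cm (T m n) (fl G) B (fl f) v + cm L (fl (imS m n G)) B (fl f) v := by
    intro m n G B hB f v
    unfold cm
    rw [improve_fl hLf, improve_fl hLf, fld_add hB]
    abel
  have hcL : ∀ (G : 𝓢(Mink, ℂ)) {B : GF.Fld D} (hB : Q'.fld B) (f : 𝓢(Mink, ℂ)) (v : D),
      SpSep G f → cm L (fl G) B (fl f) v = 0 := by
    intro G B hB f v hs
    unfold cm
    rw [Q'.loc L B (fl G) (fl f) v hL.1 hB (isTest_fl _) (isTest_fl _) (sep_fl hs), sub_self]
  have hcT : ∀ (m n : Ix) (G : 𝓢(Mink, ℂ)) {B : GF.Fld D} (hB : Q'.fld B) (f : 𝓢(Mink, ℂ))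
      (v : D), SpSep G f → cm (T m n) (fl G) B (fl f) v = 0 := by
    intro m n G B hB f v hs
    unfold cm
    rw [Q'.loc (T m n) B (fl G) (fl f) v (hb m n) hB (isTest_fl _) (isTest_fl _) (sep_fl hs),
      sub_self]
  have hloc : ∀ (m n : Ix) (G : 𝓢(Mink, ℂ)) {B : GF.Fld D} (hB : Q'.fld B) (f : 𝓢(Mink, ℂ))
      (v : D), SpSep G f → cm (GF.improve T L m n) (fl G) B (fl f) v = 0 := by
    intro m n G B hB f v hs
    rw [hcm m n G hB, hcT m n G hB f v hs, hcL _ hB f v (spSep_mono hs (tsupport_imS m n G) le_rfl),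
      add_zero]
  refine
    { lin := ?_
      cont := ?_
      symm := ?_
      herm := ?_
      cov := ?_
      conserved := ?_
      traceless := htr
      loc := ?_
      self := ?_
      charge := ?_ }
  · intro m n f g c v hft hgt
    obtain ⟨F, rfl⟩ := exists_fl hft
    obtain ⟨G, rfl⟩ := exists_fl hgt
    rw [fl_add_smul, improve_fl hLf, improve_fl hLf, improve_fl hLf, imS_add, imS_smul,
      fld_lin (hf m n), fld_lin hLf, smul_add]
    abel
  · intro m n v
    have h1 : (fun g : Sch => GF.improve T L m n (ev g) v) =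
        fun g : Sch => T m n (ev g) v + L (fl (imS m n (ofSch g))) v := by
      funext g
      have e : ev g = fl (ofSch g) := rfl
      rw [e, improve_fl hLf]
    rw [h1]
    exact (Q'.cont (T m n) v (hf m n)).add
      ((fld_cont hLf v).comp ((continuous_imS m n).comp ofSch.continuous))
  · intro m n f v hft
    obtain ⟨F, rfl⟩ := exists_fl hft
    rw [improve_fl hLf, improve_fl hLf, hT.symm m n _ v hft, imS_symm]
  · intro m n f v w hft
    obtain ⟨F, rfl⟩ := exists_fl hft
    rw [bar_fl, improve_fl hLf, improve_fl hLf, inner_add_left, inner_add_right,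
      hT.herm m n _ v w hft, hL.2.1 _ v w (isTest_fl _), bar_fl, bar_fl, conjS_imS]
  · intro m n s M a f v hs hM hft
    refine improve_cov (Q := Q') ?_ hL m n s M a f v hs hM hft
    intro m n s M a f v hs hM hft
    rw [he.U]
    exact hT.cov m n s M a f v hs hM hft
  · intro n f v hft
    obtain ⟨F, rfl⟩ := exists_fl hft
    have h1 := hT.conserved n (fl F) v hft
    simp only [pd_fl] at h1 ⊢
    simp only [improve_fl hLf, Finset.sum_add_distrib, h1, zero_add]
    have h2 : L (fl (∑ m, (1 : ℂ) • imS m n (∂_{eb m} F : 𝓢(Mink, ℂ)))) v =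
        ∑ m, (1 : ℂ) • L (fl (imS m n (∂_{eb m} F : 𝓢(Mink, ℂ)))) v := fld_sumf hLf _ _ _ _
    simp only [one_smul] at h2
    rw [← h2, sum_imS, fld_zero hLf]
  · intro m n B f g v hB hft hgt hs
    obtain ⟨F, rfl⟩ := exists_fl hft
    obtain ⟨G, rfl⟩ := exists_fl hgt
    exact hloc m n F hB G v (spSep_of' hs)
  · intro m n k l f g v hft hgt hs
    obtain ⟨F, rfl⟩ := exists_fl hft
    obtain ⟨G, rfl⟩ := exists_fl hgt
    have hs' := spSep_of' hs
    have h1 := hloc m n F (hf k l) G v hs'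
    have h2 := hloc m n F hLf (imS k l G) v (spSep_mono hs' le_rfl (tsupport_imS k l G))
    unfold cm at h1 h2 ⊢
    have hadd : ∀ v w, GF.improve T L m n (fl F) (v + w) =
        GF.improve T L m n (fl F) v + GF.improve T L m n (fl F) w := by
      intro v w
      rw [improve_fl hLf, improve_fl hLf, improve_fl hLf, fld_add (hf m n), fld_add hLf]
      abel
    rw [improve_fl hLf k l G v, hadd, improve_fl hLf k l G (GF.improve T L m n (fl F) v)]
    rw [sub_eq_zero] at h1 h2 ⊢
    rw [h1, h2]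
  · intro F B f hF hB hft hfc
    obtain ⟨f, rfl⟩ := exists_fl hft
    filter_upwards [sep_cut hF (hasCompactSupport_of_fl hfc)] with R hR
    obtain ⟨G, hG, hs⟩ := hR
    intro l n v
    rw [← hG]
    constructor
    · rw [hcm o n G hB, hcL _ hB f v (hs n l).1, add_zero]
    · rw [xg_fl, xg_fl, hcm o n _ hB, hcm o l _ hB]
      have h1 := hcL _ hB f v (hs n l).2
      have h2 : cm L (fl (imS o n (Xm l G) - imS o l (Xm n G))) B (fl f) v =
          cm L (fl (imS o n (Xm l G))) B (fl f) v - cm L (fl (imS o l (Xm n G))) B (fl f) v := by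
        unfold cm
        rw [fld_subf hLf, fld_subf hLf, fld_sub hB]
        abel
      rw [h2, sub_eq_zero] at h1
      rw [h1]
      abel

end Vale.Agent.P352.H496
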