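import Vale.Agent.P352.H496.LLoc

set_option linter.all false

noncomputable section

open MeasureTheory SchwartzMap Complex Filter Topology
open scoped SchwartzMap ComplexConjugate ENNReal LineDeriv

namespace Vale.Agent.P352.H496

open GF (Ix V Fn Sch ev pd bar sim bas o)
open H246 H15

variable {D : Type*} [NormedAddCommGroup D] [InnerProductSpace ℂ D]
variable {Q : GF.Theory D} {Z : V → V → GF.Fld D}

lemma LFam.comm_al (h : LFam Q Z) {a b : V} (hp : NPr a b) {W : Set V} {f : 𝓢(Mink, ℂ)}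
    (hsep : ∀ G, IsTest (MW W) G → SpSep f G) {X X' : D → D} (hX : Al Q W X X') :
    ∀ v, Z a b (fl f) (X v) = X (Z a b (fl f) v) := by
  induction hX with
  | one => intro v; rfl
  | add X X' Y Y' _ _ ih1 ih2 => intro v; rw [h.addv hp (isTest_fl f), ih1, ih2]
  | smul c X X' _ ih => intro v; rw [h.smulv hp (isTest_fl f), ih]
  | fld B B' g X X' hB hB' hadj hg _ ih =>
    intro v
    obtain ⟨G, rfl, hG⟩ := exists_In hg
    rw [h.loc_fld hp hB (isTest_fl _) (isTest_fl _) (sep_fl (hsep G hG)), ih]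

/-- the trace identity -/
theorem LFam.trace (h : LFam Q Z) {T : Ix → Ix → GF.Fld D} (hT : Q.IsStress T) {a b : V}
    (hp : NPr a b)
    (hv : ∀ f, GF.IsTest f → GF.tr T f Q.vac = (3 : ℂ) • Z a b (box f) Q.vac)
    {f : Fn} (hf : GF.IsTest f) (v : D) : GF.tr T f v = (3 : ℂ) • Z a b (box f) v := by
  have hA := PField.tr hT
  have hz2 : ∀ (f : 𝓢(Mink, ℂ)) (v : D),
      GF.tr T (fl f) v - (3 : ℂ) • Z a b (fl (boxS f)) v = 0 := by
    intro f v
    refine van (Q := Q) (B := fun f v => GF.tr T (fl f) v - (3 : ℂ) • Z a b (fl (boxS f)) v)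
      (B' := fun f v => GF.tr T (fl f) v - (3 : ℂ) • Z a b (fl (boxS f)) v) ?_ ?_ ?_ ?_ f v
    · intro f v w
      rw [inner_sub_left, inner_sub_right, inner_smul_left, inner_smul_right, hA.herm,
        h.adj _ _ _ _ _ hp (isTest_fl _), bar_fl, conjS_boxS, map_ofNat]
    · intro f c X X' hf hX
      rw [h.comm_al hp (fun G hG => wed_sep (isLor_Rt 0 0) c (isTest_box hf) hG) hX,
        hX.comm hA (fun G hG => wed_sep (isLor_Rt 0 0) c hf hG)]
      have := (hX.map_add (GF.tr T (fl f) Q.vac)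
        ((-1 : ℂ) • ((3 : ℂ) • Z a b (fl (boxS f)) Q.vac)))
      rw [hX.map_smul, hX.map_smul, neg_one_smul, neg_one_smul, ← sub_eq_add_neg,
        ← sub_eq_add_neg] at this
      exact this.symm
    · intro f hf'
      rw [sub_eq_zero]
      have h1 := hv (fl f) (isTest_fl _)
      rwa [box_fl] at h1
    · intro v
      exact (hA.cont v).sub (((h.contf hp v).comp continuous_boxS).const_smul (3 : ℂ))
  obtain ⟨F, rfl⟩ := exists_fl hf
  rw [box_fl]
  exact sub_eq_zero.1 (hz2 F v)

end Vale.Agent.P352.H496
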