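import Vale.Agent.P352.H496.Imp
import Vale.Agent.P352.H15.Enl
import Vale.Agent.P352.H755.ChDefs

set_option linter.all false

noncomputable section

open MeasureTheory Filter Topology

namespace Vale.Agent.P352.H496

open GF (Ix V Fn sim bas eta o bar)
open H15

variable {D : Type*} [NormedAddCommGroup D] [InnerProductSpace ℂ D]
variable {Q Q' : GF.Theory D} {T t : Ix → Ix → GF.Fld D} {L : GF.Fld D}

lemma isLor_one : GF.IsLor GF.one := by
  refine ⟨fun m n => ?_, ?_, ?_⟩
  · unfold GF.one GF.mdot bas eta o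
    fin_cases m <;> fin_cases n <;> simp [Fin.sum_univ_four]
  · simp [GF.one, bas, o]
  · have : (GF.one : Ix → V) = (1 : Matrix Ix Ix ℝ) := by
      funext m n
      simp [GF.one, bas, Matrix.one_apply, eq_comm]
    rw [this]; exact Matrix.det_one

/-- translation covariance of an improvement -/
lemma impr_transl (ht : IsImpr Q T t) (m n : Ix) (a : V) (f : Fn) (v : D) (hf : GF.IsTest f) :
    t m n f (Q.U 1 GF.one a v) =
      Q.U 1 GF.one a (t m n (fun x => f (sim 1 GF.one a x)) v) := by
  rw [ht.cov m n 1 GF.one a f v one_pos isLor_one hf]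
  rw [Finset.sum_eq_single m, Finset.sum_eq_single n]
  · simp [GF.one, bas]
  · intro l _ hl
    simp [GF.one, bas, Ne.symm hl]
  · simp
  · intro k _ hk
    refine Finset.sum_eq_zero fun l _ => ?_
    simp [GF.one, bas, Ne.symm hk]
  · simp

/-- the theory with the components of an improvement as additional fields -/
theorem exists_enl_impr (ht : IsImpr Q T t) : ∃ Q' : GF.Theory D, IsEnl Q Q' ∧
    (∀ m n, Q'.bose (t m n)) ∧ ∀ A, Q'.fld A → Q.fld A ∨ ∃ m n, A = t m n := by
  refine ⟨
    { vac := Q.vac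
      fld := fun A => Q.fld A ∨ ∃ m n, A = t m n
      bose := fun A => Q.bose A ∨ ∃ m n, A = t m n
      U := Q.U
      norm_vac := Q.norm_vac
      cyclic := ?_
      lin := ?_
      cont := ?_
      adj := ?_
      bose_fld := ?_
      loc := ?_
      U_inner := Q.U_inner
      U_vac := Q.U_vac
      transl := ?_
      spectrum := Q.spectrum }, ⟨rfl, rfl, fun A h => Or.inl h, fun A h => Or.inl h⟩,
      fun m n => Or.inr ⟨m, n, rfl⟩, fun A h => h⟩
  · intro S h0 h
    exact Q.cyclic S h0 fun A f v hA hf hv => h A f v (Or.inl hA) hf hv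
  · rintro A f g c v (hA | ⟨m, n, rfl⟩) hf hg
    · exact Q.lin A f g c v hA hf hg
    · exact ht.lin m n f g c v hf hg
  · rintro A v (hA | ⟨m, n, rfl⟩)
    · exact Q.cont A v hA
    · exact ht.cont m n v
  · rintro A (hA | ⟨m, n, rfl⟩)
    · obtain ⟨B, hB, h⟩ := Q.adj A hA
      exact ⟨B, Or.inl hB, h⟩
    · exact ⟨t m n, Or.inr ⟨m, n, rfl⟩, fun f v w hf => ht.herm m n f v w hf⟩
  · rintro A (hA | h)
    · exact Or.inl (Q.bose_fld A hA)
    · exact Or.inr h
  · rintro A B f g v (hA | ⟨m, n, rfl⟩) (hB | ⟨k, l, rfl⟩) hf hg hs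
    · exact Q.loc A B f g v hA hB hf hg hs
    · exact (sub_eq_zero.1 (ht.loc k l A g f v (Q.bose_fld A hA) hg hf (sep_symm hs))).symm
    · exact sub_eq_zero.1 (ht.loc m n B f g v hB hf hg hs)
    · exact sub_eq_zero.1 (ht.self m n k l f g v hf hg hs)
  · rintro A a f v (hA | ⟨m, n, rfl⟩) hf
    · exact Q.transl A a f v hA hf
    · exact impr_transl ht m n a f v hf

lemma enl_trans {Q'' : GF.Theory D} (h : IsEnl Q Q') (h' : IsEnl Q' Q'') : IsEnl Q Q'' :=
  ⟨h'.vac.trans h.vac, h'.U.trans h.U, fun A hA => h'.fld A (h.fld A hA),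
    fun A hA => h'.bose A (h.bose A hA)⟩

lemma scalar_enl {d : ℝ} (h : IsEnl Q Q') (hL : Q.IsScalar L d) : Q'.IsScalar L d :=
  ⟨h.bose L hL.1, hL.2.1, fun s M a f v hs hM hf => by
    rw [h.U]
    exact hL.2.2 s M a f v hs hM hf⟩

/-- the theory with the components of the improved stress tensor as additional fields -/
theorem exists_enl_t (hT : Q.IsStress T) (he : IsEnl Q Q') (hL : Q'.IsScalar L 2)
    (htr : ∀ f v, GF.IsTest f → GF.tr (GF.improve T L) f v = 0) :
    ∃ Q'' : GF.Theory D, IsEnl Q Q'' ∧ IsEnl Q' Q'' ∧ Q''.IsScalar L 2 ∧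
      (∀ m n, Q''.bose (GF.improve T L m n)) ∧ IsImpr Q'' T (GF.improve T L) := by
  obtain ⟨Q'', he', hb, -⟩ := exists_enl_impr (isImpr hT he hL htr)
  have hs := scalar_enl he' hL
  exact ⟨Q'', enl_trans he he', he', hs, hb, isImpr hT (enl_trans he he') hs htr⟩

/-- an improvement of a stress tensor is a stress tensor -/
theorem isStress_of_impr (h : IsImpr Q T t) (hS : Q.IsStress T) (hb : ∀ m n, Q.bose (t m n)) :
    Q.IsStress t where
  bose := hb
  symm := h.symm
  herm := h.herm
  cov := h.cov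
  conserved := h.conserved
  charge := by
    intro F n B f v w hF hB hf hc
    refine (hS.charge F n B f v w hF hB hf hc).congr' ?_
    filter_upwards [h.charge F B f hF hB hf hc] with R hR
    have := (hR 0 n v).1
    unfold cm at this
    rw [this]

/-- an improvement is a tensor field as in the theorem on conformal charges -/
theorem isT_of_impr (h : IsImpr Q T t) (hS : Q.IsStress T) : H755.IsT Q t where
  lin := h.lin
  cont := h.cont
  herm := h.herm
  transl := fun m n a f v hf => impr_transl h m n a f v hf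
  loc := fun m n B f g v hB hf hg hs => sub_eq_zero.1 (h.loc m n B f g v hB hf hg hs)
  symm := h.symm
  conserved := h.conserved
  traceless := h.traceless
  charge := by
    intro F n B f v w hF hB hf hc
    refine (hS.charge F n B f v w hF hB hf hc).congr' ?_
    filter_upwards [h.charge F B f hF hB hf hc] with R hR
    have := (hR 0 n v).1
    unfold cm at this
    rw [this]

/-- If `T` is a stress tensor for all enlargements of the theory, then the improved stress tensor is
a stress tensor for an enlargement that contains it. -/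
theorem exists_stress (hT : Q.IsStress T) (he : IsEnl Q Q') (hL : Q'.IsScalar L 2)
    (htr : ∀ f v, GF.IsTest f → GF.tr (GF.improve T L) f v = 0)
    (hS : ∀ Q'' : GF.Theory D, IsEnl Q Q'' → Q''.IsStress T) :
    ∃ Q'' : GF.Theory D, IsEnl Q Q'' ∧ IsEnl Q' Q'' ∧ Q''.IsScalar L 2 ∧
      Q''.IsStress (GF.improve T L) ∧ IsImpr Q'' T (GF.improve T L) ∧
      H755.IsT Q'' (GF.improve T L) := by
  obtain ⟨Q'', h1, h2, h3, h4, h5⟩ := exists_enl_t hT he hL htr
  exact ⟨Q'', h1, h2, h3, isStress_of_impr h5 (hS Q'' h1) h4, h5, isT_of_impr h5 (hS Q'' h1)⟩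

end Vale.Agent.P352.H496

end
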