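import Vale.Agent.P352.H496.Inv
import Vale.Agent.P352.H496.LFam
import Vale.Agent.P352.H246.Ext
import Vale.Agent.P352.H246.Dens
import Vale.Agent.P352.H746.InvDefs

set_option linter.all false

noncomputable section

open MeasureTheory SchwartzMap Complex Filter Topology
open scoped SchwartzMap ComplexConjugate ENNReal LineDeriv

namespace Vale.Agent.P352.H496

open GF (Ix V Fn Sch ev pd bar sim bas o)
open H246
open UniformSpace (Completion)

variable {D : Type*} [NormedAddCommGroup D] [InnerProductSpace ℂ D]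
variable {Q : GF.Theory D} {T : Ix → Ix → GF.Fld D}
variable {H : D → D} {alg : Set V → Set (D → D)} {S : V → ℝ → D → D}

/-- (L1) invariance implies hermiticity in the causal complement -/
theorem herm_of_net (hT : Q.IsStress T) (N : CNet Q H alg S) {l : Fn → Completion D}
    (hl : IsPot Q T l) (h : H746.Inv S l) : Herm Q l := by
  obtain ⟨μ, Sy, two⟩ := (PField.tr hT).exists_sym
  obtain ⟨φ, n, hrep⟩ := exists_point Sy (PField.tr hT) two N.toNet
  have hp := isPot_lamF Sy (PField.tr hT) two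
  have hll : ∀ f, GF.IsTest f → l f = lamF Sy (PField.tr hT) f := fun f hf => hp.unique hl f hf
  have hv := fun v c => val_iff hT Sy N.toNet hrep hll v c
  have inv : ∀ a, IsNull a → ∀ s v, pt φ (pw1 H n) (S a s v) = pt φ (pw1 H n) v :=
    fun a ha s v => h a s v _ _ ha ((hv _ _).2 rfl) ((hv _ _).2 rfl)
  have hH := herm_of_inv hT Sy two N.toNet hrep inv
  intro f X X' hf hX
  rw [hll f hf.1, hll _ (isTest_bar hf.1)]
  exact hH f X X' hf hX

lemma bd_mdot (a c x : V) {r : ℝ} (h : ∀ m, |x m - c m| ≤ r) :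
    |GF.mdot a x - GF.mdot a c| ≤ (∑ m, |a m|) * r := by
  have e : GF.mdot a x - GF.mdot a c = GF.mdot a (x - c) := by
    unfold GF.mdot
    rw [← Finset.sum_sub_distrib]
    exact Finset.sum_congr rfl fun m _ => by simp only [Pi.sub_apply]; ring
  rw [e]
  exact abs_mdot_le a (x - c) h

lemma big_two {a b c : V} {p q M M' : ℝ} (hp : 0 < p) (hq : 0 < q) (ha : GF.mdot a c = p)
    (hb : GF.mdot b c = -q) : Big (MW {y : V | M < GF.mdot a y ∧ GF.mdot b y < M'}) := by
  intro r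
  have hr : r ≤ |r| := le_abs_self r
  have h1 : ∀ᶠ t : ℝ in atTop, M + (∑ m, |a m|) * |r| < t * p :=
    (tendsto_id.atTop_mul_const hp).eventually_gt_atTop _
  have h2 : ∀ᶠ t : ℝ in atTop, -M' + (∑ m, |b m|) * |r| < t * q :=
    (tendsto_id.atTop_mul_const hq).eventually_gt_atTop _
  obtain ⟨t, ht1, ht2⟩ := (h1.and h2).exists
  have hs : ∀ z : V, GF.mdot z (t • c) = t * GF.mdot z c := by
    intro z
    rw [mdot_comm'', mdot_smul_left', mdot_comm'']
  refine ⟨WithLp.toLp 2 (t • c), fun x hx => ?_⟩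
  have hx' : ∀ m, |x.ofLp m - (t • c) m| ≤ |r| := fun m => (hx m).trans hr
  have k1 := abs_le.1 (bd_mdot a (t • c) x.ofLp hx')
  have k2 := abs_le.1 (bd_mdot b (t • c) x.ofLp hx')
  rw [hs, ha] at k1
  rw [hs, hb] at k2
  refine ⟨?_, ?_⟩
  · show M < GF.mdot a x.ofLp
    linarith [k1.1]
  · show GF.mdot b x.ofLp < M'
    linarith [k2.2]

lemma dens_al {W : Set V} (hW : Big (MW W)) (v : D) {ε : ℝ} (hε : 0 < ε) :
    ∃ X X', Al Q W X X' ∧ ‖X Q.vac - v‖ < ε := by
  have h1 := dense_big (Q := Q) hW v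
  rw [Metric.mem_closure_iff] at h1
  obtain ⟨w, hw, hd⟩ := h1 ε hε
  obtain ⟨X, X', hX, rfl⟩ := exists_Al (Q := Q) (W := W) hw
  exact ⟨X, X', hX, by rw [← dist_eq_norm, dist_comm]; exact hd⟩

section

variable {a b : V} (haa : GF.mdot a a = 0) (hbb : GF.mdot b b = 0) (hab : GF.mdot a b = 1)
include haa hbb hab

lemma big_wb (M : ℝ) : Big (MW {y : V | M < GF.mdot a y ∧ GF.mdot b y < -1}) := by
  have hba : GF.mdot b a = 1 := by rw [mdot_comm'']; exact hab
  refine big_two (c := b + (-1 : ℝ) • a) one_pos one_pos ?_ ?_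
  · rw [mdot_comm'', mdot_add_left', mdot_smul_left', hba, haa]
    ring
  · rw [mdot_comm'', mdot_add_left', mdot_smul_left', hbb, hab]
    ring

lemma big_wa (M : ℝ) : Big (MW {y : V | GF.mdot a y < -M ∧ 1 < GF.mdot b y}) := by
  have hba : GF.mdot b a = 1 := by rw [mdot_comm'']; exact hab
  have h1 : {y : V | GF.mdot a y < -M ∧ 1 < GF.mdot b y} =
      {y : V | 1 < GF.mdot b y ∧ GF.mdot a y < -M} := by
    ext y
    exact and_comm
  rw [h1]
  refine big_two (c := a + (-1 : ℝ) • b) one_pos one_pos ?_ ?_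
  · rw [mdot_comm'', mdot_add_left', mdot_smul_left', hab, hbb]
    ring
  · rw [mdot_comm'', mdot_add_left', mdot_smul_left', haa, hba]
    ring

/-- (L2) -/
theorem dens_wa (M : ℝ) (v : D) {ε : ℝ} (hε : 0 < ε) :
    ∃ X X', Al Q {y | GF.mdot a y < -M ∧ 1 < GF.mdot b y} X X' ∧ ‖X Q.vac - v‖ < ε :=
  dens_al (big_wa haa hbb hab M) v hε

/-- (L2) -/
theorem dens_wb (M : ℝ) (v : D) {ε : ℝ} (hε : 0 < ε) :
    ∃ X X', Al Q {y | M < GF.mdot a y ∧ GF.mdot b y < -1} X X' ∧ ‖X Q.vac - v‖ < ε :=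
  dens_al (big_wb haa hbb hab M) v hε

end

end Vale.Agent.P352.H496

end
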