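import Vale.Agent.P352.H246.Meas

set_option linter.all false

noncomputable section

open MeasureTheory SchwartzMap Complex Filter Topology
open scoped SchwartzMap ComplexConjugate ENNReal

namespace Vale.Agent.P352.H496

open Vale.Agent.P352 H246

/-- boxes in the forward cone -/
def Bx (A B m x y l : ℝ) : Set Mink :=
  {p | (0 ≤ mass2 p ∧ mass2 p ≤ m) ∧ (A ≤ p 0 + p 1 ∧ p 0 + p 1 < B) ∧
    (x * (p 0 + p 1) ≤ p 2 ∧ p 2 < (x + l) * (p 0 + p 1)) ∧
    (y * (p 0 + p 1) ≤ p 3 ∧ p 3 < (y + l) * (p 0 + p 1))}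

lemma measurableSet_Bx (A B m x y l : ℝ) : MeasurableSet (Bx A B m x y l) := by
  have m0 : Measurable fun p : Mink => p 0 + p 1 := by fun_prop
  have m2 : Measurable fun p : Mink => p 2 := by fun_prop
  have m3 : Measurable fun p : Mink => p 3 := by fun_prop
  refine ((measurableSet_le measurable_const measurable_mass2).inter
    (measurableSet_le measurable_mass2 measurable_const)).inter
    (MeasurableSet.inter ?_ (MeasurableSet.inter ?_ ?_))
  · exact (measurableSet_le measurable_const m0).inter (measurableSet_lt m0 measurable_const)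
  · exact (measurableSet_le (m0.const_mul x) m2).inter (measurableSet_lt m2 (m0.const_mul (x + l)))
  · exact (measurableSet_le (m0.const_mul y) m3).inter (measurableSet_lt m3 (m0.const_mul (y + l)))

section

variable {μ : Measure Mink}

lemma Bx_shift2 (hn : ∀ b, μ.map (lam (mNull b)) = μ) (A B m x y l b : ℝ) :
    μ (Bx A B m (x - b) y l) = μ (Bx A B m x y l) := by
  conv_rhs => rw [← hn b, Measure.map_apply (continuous_lam _).measurable (measurableSet_Bx _ _ _ _ _ _)]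
  congr 1
  ext p
  have e0 : (lam (mNull b) p) 0 + (lam (mNull b) p) 1 = p 0 + p 1 := by
    simp only [Fin.isValue, mNull, lam_apply, Matrix.cons_val', Matrix.cons_val_zero,
      Matrix.cons_val_fin_one, Fin.sum_univ_four, Matrix.cons_val_one, Matrix.cons_val, mul_zero,
      add_zero, mul_neg]; ring
  have e2 : (lam (mNull b) p) 2 = p 2 + b * (p 0 + p 1) := by
    simp only [Fin.isValue, mNull, lam_apply, Matrix.cons_val', Matrix.cons_val,
      Matrix.cons_val_fin_one, Fin.sum_univ_four, Matrix.cons_val_zero, Matrix.cons_val_one,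
      mul_one, mul_zero, add_zero]; ring
  have e3 : (lam (mNull b) p) 3 = p 3 := by
    simp [Fin.sum_univ_four, mNull]
  have em : mass2 (lam (mNull b) p) = mass2 p := mdot_lam (isLor_null b) p p
  simp only [Bx, Set.mem_preimage, Set.mem_ofPred_eq, e0, e2, e3, em]
  constructor
  · rintro ⟨h1, h2, ⟨h3, h4⟩, h5⟩
    exact ⟨h1, h2, ⟨by linarith only [h3], by linarith only [h4]⟩, h5⟩
  · rintro ⟨h1, h2, ⟨h3, h4⟩, h5⟩
    exact ⟨h1, h2, ⟨by linarith only [h3], by linarith only [h4]⟩, h5⟩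

lemma Bx_shift3 (hn' : ∀ b, μ.map (lam (mNull' b)) = μ) (A B m x y l b : ℝ) :
    μ (Bx A B m x (y - b) l) = μ (Bx A B m x y l) := by
  conv_rhs => rw [← hn' b, Measure.map_apply (continuous_lam _).measurable (measurableSet_Bx _ _ _ _ _ _)]
  congr 1
  ext p
  have e0 : (lam (mNull' b) p) 0 + (lam (mNull' b) p) 1 = p 0 + p 1 := by
    simp only [Fin.isValue, mNull', lam_apply, Matrix.cons_val', Matrix.cons_val_zero,
      Matrix.cons_val_fin_one, Fin.sum_univ_four, Matrix.cons_val_one, Matrix.cons_val, mul_zero,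
      add_zero, mul_neg]; ring
  have e2 : (lam (mNull' b) p) 2 = p 2 := by
    simp only [Fin.isValue, mNull', lam_apply, Matrix.cons_val', Matrix.cons_val, Matrix.cons_val_fin_one, Fin.sum_univ_four, Matrix.cons_val_zero, mul_zero, Matrix.cons_val_one, add_zero, mul_one, zero_add]
  have e3 : (lam (mNull' b) p) 3 = p 3 + b * (p 0 + p 1) := by
    simp only [Fin.isValue, mNull', lam_apply, Matrix.cons_val', Matrix.cons_val,
      Matrix.cons_val_fin_one, Fin.sum_univ_four, Matrix.cons_val_zero, Matrix.cons_val_one,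
      mul_zero, add_zero, mul_one]; ring
  have em : mass2 (lam (mNull' b) p) = mass2 p := mdot_lam (isLor_null' b) p p
  simp only [Bx, Set.mem_preimage, Set.mem_ofPred_eq, e0, e2, e3, em]
  constructor
  · rintro ⟨h1, h2, h5, ⟨h3, h4⟩⟩
    exact ⟨h1, h2, h5, ⟨by linarith only [h3], by linarith only [h4]⟩⟩
  · rintro ⟨h1, h2, h5, ⟨h3, h4⟩⟩
    exact ⟨h1, h2, h5, ⟨by linarith only [h3], by linarith only [h4]⟩⟩

lemma Bx_eq (hn : ∀ b, μ.map (lam (mNull b)) = μ) (hn' : ∀ b, μ.map (lam (mNull' b)) = μ)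
    (A B m x y l : ℝ) : μ (Bx A B m x y l) = μ (Bx A B m 0 0 l) := by
  have h1 := Bx_shift2 hn A B m x y l x
  have h2 := Bx_shift3 hn' A B m 0 y l y
  rw [sub_self] at h1 h2
  rw [← h1, ← h2]

/-- subdivision of a box -/
lemma Bx_sub (hn : ∀ b, μ.map (lam (mNull b)) = μ) (hn' : ∀ b, μ.map (lam (mNull' b)) = μ)
    (A B m l l0 : ℝ) (hA : 0 < A) (hl : 0 < l) (k : ℕ) (hk : k * l ≤ l0) :
    ((k ^ 2 : ℕ) : ℝ≥0∞) * μ (Bx A B m 0 0 l) ≤ μ (Bx A B m 0 0 l0) := by
  have hdis : ((Finset.range k ×ˢ Finset.range k : Finset (ℕ × ℕ)) : Set (ℕ × ℕ)).PairwiseDisjoint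
      (fun q : ℕ × ℕ => Bx A B m (q.1 * l) (q.2 * l) l) := by
    rintro ⟨i, j⟩ - ⟨i', j'⟩ - hne
    rw [Function.onFun, Set.disjoint_left]
    rintro p ⟨-, ⟨h1, -⟩, ⟨h2, h3⟩, h4, h5⟩ ⟨-, -, ⟨h2', h3'⟩, h4', h5'⟩
    apply hne
    have hp : 0 < p 0 + p 1 := by linarith
    have key : ∀ a b : ℕ, ∀ z : ℝ, a * l * (p 0 + p 1) ≤ z → z < (b * l + l) * (p 0 + p 1) → a ≤ b := by
      intro a b z ha hb
      have h6 : (a : ℝ) * l * (p 0 + p 1) < (b * l + l) * (p 0 + p 1) := ha.trans_lt hb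
      have h7 : (a : ℝ) * l < b * l + l := lt_of_mul_lt_mul_right h6 hp.le
      have h8 : (a : ℝ) < b + 1 := by
        by_contra hcon
        push Not at hcon
        nlinarith
      have h9 : a < b + 1 := by exact_mod_cast h8
      omega
    have e1 : i = i' := le_antisymm (key i i' _ h2 h3') (key i' i _ h2' h3)
    have e2 : j = j' := le_antisymm (key j j' _ h4 h5') (key j' j _ h4' h5)
    rw [e1, e2]
  have hsum := measure_biUnion_finset (μ := μ) hdis (fun q _ => measurableSet_Bx _ _ _ _ _ _)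
  have hsub : (⋃ q ∈ Finset.range k ×ˢ Finset.range k, Bx A B m ((q.1 : ℝ) * l) ((q.2 : ℝ) * l) l) ⊆
      Bx A B m 0 0 l0 := by
    intro p hp
    simp only [Set.mem_iUnion, Finset.mem_product, Finset.mem_range] at hp
    obtain ⟨⟨i, j⟩, ⟨hi, hj⟩, h0, h1, ⟨h2, h3⟩, h4, h5⟩ := hp
    have hp : 0 < p 0 + p 1 := by linarith [h1.1]
    have key : ∀ a : ℕ, a < k → (a : ℝ) * l + l ≤ l0 := by
      intro a ha
      have : (a : ℝ) + 1 ≤ k := by exact_mod_cast ha
      nlinarith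
    have key0 : ∀ a : ℕ, 0 ≤ (a : ℝ) * l * (p 0 + p 1) := fun a => by positivity
    refine ⟨h0, h1, ⟨?_, ?_⟩, ⟨?_, ?_⟩⟩
    · have := key0 i
      simp only at h2
      linarith
    · refine h3.trans_le ?_
      have := key i hi
      exact mul_le_mul_of_nonneg_right (by simpa using this) hp.le
    · have := key0 j
      simp only at h4
      linarith
    · refine h5.trans_le ?_
      have := key j hj
      exact mul_le_mul_of_nonneg_right (by simpa using this) hp.le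
  calc ((k ^ 2 : ℕ) : ℝ≥0∞) * μ (Bx A B m 0 0 l)
      = ∑ q ∈ Finset.range k ×ˢ Finset.range k, μ (Bx A B m ((q.1 : ℝ) * l) ((q.2 : ℝ) * l) l) := by
        simp only [Bx_eq hn hn' A B m _ _ l]
        rw [Finset.sum_const, Finset.card_product, Finset.card_range, nsmul_eq_mul, sq]
    _ = μ (⋃ q ∈ Finset.range k ×ˢ Finset.range k, Bx A B m ((q.1 : ℝ) * l) ((q.2 : ℝ) * l) l) :=
        hsum.symm
    _ ≤ μ (Bx A B m 0 0 l0) := measure_mono hsub

end

/-- a family of measures that transforms like the response to null deformations vanishes if it is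
small near zero -/
theorem fam_zero {μ : ℝ → Measure Mink} (hcone : ∀ s, 0 < s → μ s fwdConeᶜ = 0)
    (hfin : ∀ s, 0 < s → ∀ R, μ s (Metric.closedBall 0 R) ≠ ∞)
    (hn : ∀ s, 0 < s → ∀ b, (μ s).map (lam (mNull b)) = μ s)
    (hn' : ∀ s, 0 < s → ∀ b, (μ s).map (lam (mNull' b)) = μ s)
    (hb : ∀ s, 0 < s → ∀ σ, 0 < σ → ∀ t, μ s = ENNReal.ofReal ((σ ^ 4)⁻¹) •
      (μ (σ * s * Real.exp t)).map fun p => σ⁻¹ • lam (mBoost t) p)
    {A B m0 x0 y0 l0 : ℝ} (hA : 0 < A) (hAB : A < B) (hm0 : 0 < m0) (hl0 : 0 < l0)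
    (hsm : ∀ ε, 0 < ε → ∃ᶠ s in 𝓝[>] (0 : ℝ), μ s (Bx A B m0 x0 y0 l0) ≤
      ENNReal.ofReal (ε * s)) (s : ℝ) (hs : 0 < s) : μ s = 0 := by
  -- the boost
  have hP : ∀ (t : ℝ) (p : Mink), (lam (mBoost t) p) 0 + (lam (mBoost t) p) 1 =
      Real.exp t * (p 0 + p 1) := by
    intro t p
    rw [lam_boost, ← Real.cosh_add_sinh]
    have h0 : (boost t p) 0 = Real.cosh t * p 0 + Real.sinh t * p 1 := by simp; ring
    have h1 : (boost t p) 1 = Real.sinh t * p 0 + Real.cosh t * p 1 := by simp; ring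
    rw [h0, h1]
    ring
  have hN : ∀ (t : ℝ) (p : Mink), (lam (mBoost t) p) 0 - (lam (mBoost t) p) 1 =
      Real.exp (-t) * (p 0 - p 1) := by
    intro t p
    rw [lam_boost]
    have h0 : (boost t p) 0 = Real.cosh t * p 0 + Real.sinh t * p 1 := by simp; ring
    have h1 : (boost t p) 1 = Real.sinh t * p 0 + Real.cosh t * p 1 := by simp; ring
    rw [h0, h1, ← Real.cosh_sub_sinh]
    ring
  have h2 : ∀ (t : ℝ) (p : Mink), (lam (mBoost t) p) 2 = p 2 := by
    intro t p; rw [lam_boost]; simp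
  have h3 : ∀ (t : ℝ) (p : Mink), (lam (mBoost t) p) 3 = p 3 := by
    intro t p; rw [lam_boost]; simp
  have hmeas : ∀ (σ t : ℝ), Measurable fun p : Mink => σ⁻¹ • lam (mBoost t) p := by
    intro σ t
    have := (continuous_lam (mBoost t)).measurable
    fun_prop
  have hm2 : ∀ (c t : ℝ) (p : Mink), mass2 (c • lam (mBoost t) p) = c ^ 2 * mass2 p := by
    intro c t p
    rw [mass2_smul]
    congr 1
    exact mdot_lam (isLor_boost t) p p
  -- boxes are null
  have hbox : ∀ s, 0 < s → ∀ m, μ s (Bx A B m 0 0 l0) = 0 := by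
    intro s hs m
    by_cases hm : m < 0
    · have : Bx A B m 0 0 l0 = ∅ := by
        ext p
        simp only [Bx, Set.mem_setOf_eq, Set.mem_empty_iff_false, iff_false]
        rintro ⟨⟨g1, g2⟩, -⟩
        linarith
      rw [this, measure_empty]
    push Not at hm
    have key : ∀ ε : ℝ, 0 < ε → μ s (Bx A B m 0 0 l0) ≤ ENNReal.ofReal (4 * ε * s) := by
      intro ε hε
      have hmin : 0 < min s (s * m0 / (m + 1)) := by positivity
      have h4 : ∀ᶠ s' in 𝓝[>] (0 : ℝ), 0 < s' ∧ s' < min s (s * m0 / (m + 1)) := by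
        filter_upwards [Ioo_mem_nhdsGT hmin] with s' hs'
        exact hs'
      obtain ⟨s', h5, h6, h7'⟩ := ((hsm ε hε).and_eventually h4).exists
      have h7 : s' < s := h7'.trans_le (min_le_left _ _)
      have h7m : s' < s * m0 / (m + 1) := h7'.trans_le (min_le_right _ _)
      have h5' : μ s' (Bx A B m0 0 0 l0) ≤ ENNReal.ofReal (ε * s') := by
        rw [← Bx_eq (hn s' h6) (hn' s' h6) A B m0 x0 y0 l0]
        exact h5
      set K : ℝ := Real.sqrt (s / s') with hK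
      have hK1 : 1 ≤ K := by
        rw [hK, Real.one_le_sqrt, one_le_div h6]
        exact h7.le
      have hK2 : K ^ 2 = s / s' := Real.sq_sqrt (by positivity)
      have hK0 : 0 < K := by linarith
      have hmK : m / K ^ 2 ≤ m0 := by
        rw [hK2, div_div_eq_mul_div, div_le_iff₀ hs]
        rw [lt_div_iff₀ (by positivity)] at h7m
        nlinarith
      set k : ℕ := ⌊K⌋₊ with hk
      have hk1 : (k : ℝ) ≤ K := Nat.floor_le hK0.le
      have hk2 : K < k + 1 := Nat.lt_floor_add_one K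
      have hk3 : 1 ≤ k := Nat.le_floor (by exact_mod_cast hK1)
      have hk3' : (1 : ℝ) ≤ k := by exact_mod_cast hk3
      have hk4 : K ≤ 2 * k := by linarith
      -- the scaling
      have h8 : μ s (Bx A B m 0 0 l0) =
          ENNReal.ofReal (K ^ 4) * μ s' (Bx A B (m / K ^ 2) 0 0 (l0 / K)) := by
        have h9 := hb s hs K⁻¹ (by positivity) (-Real.log K)
        have e1 : K⁻¹ * s * Real.exp (-Real.log K) = s' := by
          rw [Real.exp_neg, Real.exp_log hK0]
          have : K⁻¹ * s * K⁻¹ = s * (K ^ 2)⁻¹ := by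
            rw [sq, mul_inv]; ring
          rw [this, hK2]
          field_simp
        rw [e1] at h9
        conv_lhs => rw [h9]
        rw [Measure.smul_apply, Measure.map_apply (hmeas _ _) (measurableSet_Bx _ _ _ _ _ _),
          smul_eq_mul]
        congr 2
        · rw [inv_pow, inv_inv]
        · ext p
          have eP : (K⁻¹⁻¹ • lam (mBoost (-Real.log K)) p) 0 +
              (K⁻¹⁻¹ • lam (mBoost (-Real.log K)) p) 1 = p 0 + p 1 := by
            simp only [PiLp.smul_apply, smul_eq_mul, inv_inv]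
            rw [← mul_add, hP, Real.exp_neg, Real.exp_log hK0, ← mul_assoc,
              mul_inv_cancel₀ hK0.ne', one_mul]
          have e2 : (K⁻¹⁻¹ • lam (mBoost (-Real.log K)) p) 2 = K * p 2 := by
            simp only [PiLp.smul_apply, smul_eq_mul, inv_inv]
            rw [h2]
          have e3 : (K⁻¹⁻¹ • lam (mBoost (-Real.log K)) p) 3 = K * p 3 := by
            simp only [PiLp.smul_apply, smul_eq_mul, inv_inv]
            rw [h3]
          have em : mass2 (K⁻¹⁻¹ • lam (mBoost (-Real.log K)) p) = K ^ 2 * mass2 p := by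
            rw [hm2, inv_inv]
          simp only [Set.mem_preimage, Bx, Set.mem_setOf_eq, eP, e2, e3, em, zero_mul, zero_add]
          have hKK : 0 < K ^ 2 := by positivity
          constructor
          · rintro ⟨⟨g1, g2⟩, g3, ⟨g4, g5⟩, g6, g7⟩
            refine ⟨⟨?_, ?_⟩, g3, ⟨?_, ?_⟩, ?_, ?_⟩
            · exact nonneg_of_mul_nonneg_right g1 hKK
            · rw [le_div_iff₀ hKK]; linarith
            · exact nonneg_of_mul_nonneg_right g4 hK0
            · rw [div_mul_eq_mul_div, lt_div_iff₀ hK0]; linarith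
            · exact nonneg_of_mul_nonneg_right g6 hK0
            · rw [div_mul_eq_mul_div, lt_div_iff₀ hK0]; linarith
          · rintro ⟨⟨g1, g2⟩, g3, ⟨g4, g5⟩, g6, g7⟩
            rw [le_div_iff₀ hKK] at g2
            rw [div_mul_eq_mul_div, lt_div_iff₀ hK0] at g5 g7
            exact ⟨⟨by positivity, by linarith⟩, g3, ⟨by positivity, by linarith⟩,
              by positivity, by linarith⟩
      have h9 : ((k ^ 2 : ℕ) : ℝ≥0∞) * μ s' (Bx A B (m / K ^ 2) 0 0 (l0 / K)) ≤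
          ENNReal.ofReal (ε * s') := by
        refine (Bx_sub (hn s' h6) (hn' s' h6) _ _ _ _ l0 hA (by positivity) k (by
          rw [mul_div_assoc', div_le_iff₀ hK0, mul_comm]; gcongr)).trans ?_
        refine (measure_mono ?_).trans h5'
        rintro p ⟨⟨g1, g2⟩, g3⟩
        exact ⟨⟨g1, g2.trans hmK⟩, g3⟩
      rw [h8]
      have h10 : ENNReal.ofReal (K ^ 4) ≤ ENNReal.ofReal (4 * K ^ 2) * ((k ^ 2 : ℕ) : ℝ≥0∞) := by
        have : ((k ^ 2 : ℕ) : ℝ≥0∞) = ENNReal.ofReal ((k : ℝ) ^ 2) := by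
          rw [← Nat.cast_pow, ENNReal.ofReal_natCast]
        rw [this, ← ENNReal.ofReal_mul (by positivity)]
        apply ENNReal.ofReal_le_ofReal
        have : K ^ 2 ≤ (2 * k) ^ 2 := by gcongr
        nlinarith [sq_nonneg K]
      calc ENNReal.ofReal (K ^ 4) * μ s' (Bx A B (m / K ^ 2) 0 0 (l0 / K))
          ≤ (ENNReal.ofReal (4 * K ^ 2) * ((k ^ 2 : ℕ) : ℝ≥0∞)) *
            μ s' (Bx A B (m / K ^ 2) 0 0 (l0 / K)) := by gcongr
        _ = ENNReal.ofReal (4 * K ^ 2) * (((k ^ 2 : ℕ) : ℝ≥0∞) *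
            μ s' (Bx A B (m / K ^ 2) 0 0 (l0 / K))) := by rw [mul_assoc]
        _ ≤ ENNReal.ofReal (4 * K ^ 2) * ENNReal.ofReal (ε * s') := by gcongr
        _ = ENNReal.ofReal (4 * ε * s) := by
          rw [← ENNReal.ofReal_mul (by positivity), hK2]
          congr 1
          field_simp
    have hlim : Tendsto (fun ε : ℝ => ENNReal.ofReal (4 * ε * s)) (𝓝[>] 0) (𝓝 0) := by
      have h11 : Tendsto (fun ε : ℝ => 4 * ε * s) (𝓝 0) (𝓝 0) := by
        have : Continuous fun ε : ℝ => 4 * ε * s := by fun_prop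
        simpa using this.tendsto 0
      have h12 := (ENNReal.continuous_ofReal.tendsto 0).comp h11
      rw [ENNReal.ofReal_zero] at h12
      exact h12.mono_left nhdsWithin_le_nhds
    exact le_antisymm (ge_of_tendsto hlim (by
      filter_upwards [self_mem_nhdsWithin] with ε hε
      exact key ε hε)) zero_le
  -- the first layer
  have hlay : ∀ s, 0 < s → μ s {p | p ∈ fwdCone ∧ A ≤ p 0 + p 1 ∧ p 0 + p 1 < B} = 0 := by
    intro s hs
    have hall : μ s (⋃ q : ℕ × ℤ × ℤ, Bx A B q.1 (q.2.1 * l0) (q.2.2 * l0) l0) = 0 := by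
      rw [measure_iUnion_null_iff]
      rintro ⟨m, i, j⟩
      rw [Bx_eq (hn s hs) (hn' s hs)]
      exact hbox s hs m
    refine measure_mono_null ?_ hall
    rintro p ⟨hc, g1, g2⟩
    have hp : 0 < p 0 + p 1 := by linarith
    have hp' : 0 < l0 * (p 0 + p 1) := by positivity
    rw [Set.mem_iUnion]
    refine ⟨(⌈mass2 p⌉₊, ⌊p 2 / (l0 * (p 0 + p 1))⌋, ⌊p 3 / (l0 * (p 0 + p 1))⌋),
      ⟨hc.2, Nat.le_ceil _⟩, ⟨g1, g2⟩, ⟨?_, ?_⟩, ⟨?_, ?_⟩⟩
    · have := (le_div_iff₀ hp').1 (Int.floor_le (p 2 / (l0 * (p 0 + p 1))))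
      simp only
      linarith
    · have := (div_lt_iff₀ hp').1 (Int.lt_floor_add_one (p 2 / (l0 * (p 0 + p 1))))
      simp only
      linarith
    · have := (le_div_iff₀ hp').1 (Int.floor_le (p 3 / (l0 * (p 0 + p 1))))
      simp only
      linarith
    · have := (div_lt_iff₀ hp').1 (Int.lt_floor_add_one (p 3 / (l0 * (p 0 + p 1))))
      simp only
      linarith
  have hPm : Measurable fun p : Mink => p 0 + p 1 := by fun_prop
  have hNm : Measurable fun p : Mink => p 0 - p 1 := by fun_prop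
  -- cone preserved
  have hcl : ∀ (σ t : ℝ), 0 < σ → ∀ p : Mink, (σ⁻¹ • lam (mBoost t) p ∈ fwdCone ↔ p ∈ fwdCone) := by
    intro σ t hσ p
    have hσ' : 0 < σ⁻¹ := by positivity
    have e0 : (σ⁻¹ • lam (mBoost t) p) 0 = σ⁻¹ * (boost t p) 0 := by
      rw [lam_boost]; rfl
    have em : mdot (σ⁻¹ • lam (mBoost t) p) (σ⁻¹ • lam (mBoost t) p) = (σ⁻¹) ^ 2 * mdot p p :=
      hm2 σ⁻¹ t p
    constructor
    · rintro ⟨g1, g2⟩
      rw [em] at g2
      have g3 : 0 ≤ mdot p p := nonneg_of_mul_nonneg_right g2 (by positivity)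
      have g4 : 0 ≤ (boost t p) 0 := by
        rw [e0] at g1
        exact nonneg_of_mul_nonneg_right g1 hσ'
      have g5 : boost t p ∈ fwdCone := by
        refine ⟨g4, ?_⟩
        have := mdot_lam (isLor_boost t) p p
        rw [lam_boost] at this
        rw [this]; exact g3
      have g6 := boost_mem_fwdCone g5 (-t)
      have g7 : boost (-t) (boost t p) = p := by
        rw [boost_boost, neg_add_cancel, boost_zero]
      rwa [g7] at g6
    · rintro hp
      have g5 := boost_mem_fwdCone hp t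
      refine ⟨?_, ?_⟩
      · rw [e0]; exact mul_nonneg hσ'.le g5.1
      · rw [em]; exact mul_nonneg (by positivity) hp.2
  -- all layers
  have hB : 0 < B := hA.trans hAB
  have hρ : 1 < B / A := (one_lt_div hA).2 hAB
  have hρ0 : 0 < B / A := by positivity
  have hlay2 : ∀ n : ℤ, μ s {p | p ∈ fwdCone ∧ (B / A) ^ n ≤ p 0 + p 1 ∧
      p 0 + p 1 < (B / A) ^ (n + 1)} = 0 := by
    intro n
    have hpow : (0 : ℝ) < (B / A) ^ n / A := by positivity
    have h9 := hb s hs 1 one_pos (Real.log ((B / A) ^ n / A))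
    rw [Real.exp_log hpow, one_mul] at h9
    have hms : MeasurableSet {p : Mink | p ∈ fwdCone ∧ (B / A) ^ n ≤ p 0 + p 1 ∧
        p 0 + p 1 < (B / A) ^ (n + 1)} :=
      measurableSet_fwdCone.inter ((measurableSet_le measurable_const hPm).inter
        (measurableSet_lt hPm measurable_const))
    rw [h9, Measure.smul_apply, Measure.map_apply (hmeas _ _) hms]
    have h10 : (fun p : Mink => (1 : ℝ)⁻¹ • lam (mBoost (Real.log ((B / A) ^ n / A))) p) ⁻¹'
        {p | p ∈ fwdCone ∧ (B / A) ^ n ≤ p 0 + p 1 ∧ p 0 + p 1 < (B / A) ^ (n + 1)} ⊆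
        {p | p ∈ fwdCone ∧ A ≤ p 0 + p 1 ∧ p 0 + p 1 < B} := by
      rintro p ⟨g1, g2, g3⟩
      have hc := (hcl 1 _ one_pos p).1 g1
      have e : ((1 : ℝ)⁻¹ • lam (mBoost (Real.log ((B / A) ^ n / A))) p) 0 +
          ((1 : ℝ)⁻¹ • lam (mBoost (Real.log ((B / A) ^ n / A))) p) 1 =
          (B / A) ^ n * ((p 0 + p 1) / A) := by
        rw [inv_one, one_smul, hP, Real.exp_log hpow]
        ring
      rw [e] at g2 g3
      have hpn : (0 : ℝ) < (B / A) ^ n := by positivity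
      refine ⟨hc, ?_, ?_⟩
      · have : 1 ≤ (p 0 + p 1) / A := by
          by_contra hcon
          push Not at hcon
          nlinarith
        rwa [one_le_div hA] at this
      · rw [zpow_add_one₀ hρ0.ne'] at g3
        have := lt_of_mul_lt_mul_left g3 hpn.le
        rwa [div_lt_div_iff_of_pos_right hA] at this
    rw [measure_mono_null h10 (hlay _ (by positivity)), smul_zero]
  -- the ray
  have hray : ∀ n : ℕ, μ s {p | p ∈ fwdCone ∧ p 0 + p 1 = 0 ∧ p 0 - p 1 ≤ n} = 0 := by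
    intro n
    set E : Set Mink := {p | p ∈ fwdCone ∧ p 0 + p 1 = 0 ∧ p 0 - p 1 ≤ n} with hE
    have hms : MeasurableSet E :=
      measurableSet_fwdCone.inter ((measurableSet_eq_fun hPm measurable_const).inter
        (measurableSet_le hNm measurable_const))
    have hfinE : μ s E ≠ ∞ := by
      refine ne_top_of_le_ne_top (hfin s hs n) (measure_mono ?_)
      rintro p ⟨⟨g0, g1⟩, g2, g3⟩
      rw [Metric.mem_closedBall, dist_zero_right]
      have hn2 := norm_sq_mink p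
      have g4 : p 2 ^ 2 + p 3 ^ 2 ≤ 0 := by
        have : mdot p p = (p 0 + p 1) * (p 0 - p 1) - p 2 ^ 2 - p 3 ^ 2 := by
          unfold mdot; ring
        rw [this, g2] at g1
        linarith
      have g5 : p 1 = - p 0 := by linarith
      have : ‖p‖ ^ 2 ≤ (n : ℝ) ^ 2 := by
        rw [hn2, g5]
        rw [g5] at g3
        have : 0 ≤ p 0 := g0
        nlinarith
      exact le_of_sq_le_sq this (by positivity)
    have h9 := hb s hs 2 (by norm_num) (-Real.log 2)
    have e1 : 2 * s * Real.exp (-Real.log 2) = s := by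
      rw [Real.exp_neg, Real.exp_log (by norm_num)]; ring
    rw [e1] at h9
    have h10 : μ s E = ENNReal.ofReal ((2 ^ 4)⁻¹) * μ s E := by
      conv_lhs => rw [h9]
      rw [Measure.smul_apply, Measure.map_apply (hmeas _ _) hms, smul_eq_mul]
      congr 2
      ext p
      have eP : ((2 : ℝ)⁻¹ • lam (mBoost (-Real.log 2)) p) 0 +
          ((2 : ℝ)⁻¹ • lam (mBoost (-Real.log 2)) p) 1 = 2⁻¹ * (2⁻¹ * (p 0 + p 1)) := by
        simp only [PiLp.smul_apply, smul_eq_mul]
        rw [← mul_add, hP, Real.exp_neg, Real.exp_log (by norm_num)]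
      have eN : ((2 : ℝ)⁻¹ • lam (mBoost (-Real.log 2)) p) 0 -
          ((2 : ℝ)⁻¹ • lam (mBoost (-Real.log 2)) p) 1 = p 0 - p 1 := by
        simp only [PiLp.smul_apply, smul_eq_mul]
        rw [← mul_sub, hN, neg_neg, Real.exp_log (by norm_num)]
        ring
      simp only [hE, Set.mem_preimage, Set.mem_setOf_eq, eP, eN, hcl 2 _ (by norm_num) p]
      constructor
      · rintro ⟨g1, g2, g3⟩
        exact ⟨g1, by linarith, g3⟩
      · rintro ⟨g1, g2, g3⟩
        exact ⟨g1, by rw [g2]; ring, g3⟩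
    have h11 : (μ s E).toReal = (2 ^ 4)⁻¹ * (μ s E).toReal := by
      conv_lhs => rw [h10]
      rw [ENNReal.toReal_mul, ENNReal.toReal_ofReal (by norm_num)]
    have h12 : (μ s E).toReal = 0 := by
      norm_num at h11
      linarith
    rcases (ENNReal.toReal_eq_zero_iff _).1 h12 with h | h
    · exact h
    · exact absurd h hfinE
  -- conclusion
  rw [← Measure.measure_univ_eq_zero]
  have hcov : (Set.univ : Set Mink) ⊆ fwdConeᶜ ∪
      ((⋃ n : ℤ, {p | p ∈ fwdCone ∧ (B / A) ^ n ≤ p 0 + p 1 ∧ p 0 + p 1 < (B / A) ^ (n + 1)}) ∪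
      ⋃ n : ℕ, {p | p ∈ fwdCone ∧ p 0 + p 1 = 0 ∧ p 0 - p 1 ≤ n}) := by
    intro p _
    by_cases hp : p ∈ fwdCone
    · right
      have h0 : 0 ≤ p 0 + p 1 := by
        have := abs_le.1 (abs_le_of_mem_fwdCone hp)
        linarith
      rcases h0.lt_or_eq with h0 | h0
      · left
        rw [Set.mem_iUnion]
        obtain ⟨n, hn1, hn2⟩ := exists_mem_Ico_zpow h0 hρ
        exact ⟨n, hp, hn1, hn2⟩
      · right
        rw [Set.mem_iUnion]
        exact ⟨⌈p 0 - p 1⌉₊, hp, h0.symm, Nat.le_ceil _⟩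
    · left; exact hp
  refine measure_mono_null hcov (measure_union_null (hcone s hs) (measure_union_null ?_ ?_))
  · rw [measure_iUnion_null_iff]; exact hlay2
  · rw [measure_iUnion_null_iff]; exact hray

/-- boxes near a null momentum -/
lemma exists_Bx {h : Mink → ℂ} (hc : Continuous h) {q : Mink} (hq : mass2 q = 0)
    (hP : 0 < q 0 + q 1) (hne : h q ≠ 0) : ∃ A B m0 x0 y0 l0 c : ℝ, 0 < A ∧ A < B ∧ 0 < m0 ∧
    0 < l0 ∧ 0 < c ∧ ∀ p ∈ Bx A B m0 x0 y0 l0, c ≤ ‖h p‖ := by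
  set Φ : ℝ × ℝ × ℝ × ℝ → Mink := fun z => WithLp.toLp 2
    ![(z.1 + (z.2.2.2 + (z.2.1 * z.1) ^ 2 + (z.2.2.1 * z.1) ^ 2) / z.1) / 2,
      (z.1 - (z.2.2.2 + (z.2.1 * z.1) ^ 2 + (z.2.2.1 * z.1) ^ 2) / z.1) / 2,
      z.2.1 * z.1, z.2.2.1 * z.1] with hΦ
  have key : ∀ p : Mink, 0 < p 0 + p 1 → Φ (p 0 + p 1, p 2 / (p 0 + p 1), p 3 / (p 0 + p 1),
      mass2 p) = p := by
    intro p hp
    have hm : (p 0 - p 1) * (p 0 + p 1) = mass2 p + p 2 ^ 2 + p 3 ^ 2 := by
      unfold mass2 mdot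
      ring
    have e2 : p 2 / (p 0 + p 1) * (p 0 + p 1) = p 2 := div_mul_cancel₀ _ hp.ne'
    have e3 : p 3 / (p 0 + p 1) * (p 0 + p 1) = p 3 := div_mul_cancel₀ _ hp.ne'
    have e4 : (mass2 p + p 2 ^ 2 + p 3 ^ 2) / (p 0 + p 1) = p 0 - p 1 := by
      rw [← hm, mul_div_assoc, div_self hp.ne', mul_one]
    apply mink_ext
    · simp only [hΦ, e2, e3, e4]; simp
    · simp only [hΦ, e2, e3, e4]; simp
    · simp only [hΦ, e2, e3, e4]; simp
    · simp only [hΦ, e2, e3, e4]; simp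
  set z0 : ℝ × ℝ × ℝ × ℝ := (q 0 + q 1, q 2 / (q 0 + q 1), q 3 / (q 0 + q 1), 0) with hz0
  have hΦ0 : Φ z0 = q := by
    have := key q hP
    rwa [hq] at this
  have hca : ContinuousAt (fun z => ‖h (Φ z)‖) z0 := by
    apply ContinuousAt.norm
    apply hc.continuousAt.comp
    have h1 : ContinuousAt (fun z : ℝ × ℝ × ℝ × ℝ =>
        (z.2.2.2 + (z.2.1 * z.1) ^ 2 + (z.2.2.1 * z.1) ^ 2) / z.1) z0 := by
      apply ContinuousAt.div
      · fun_prop
      · fun_prop
      · exact hP.ne'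
    have h2 : ContinuousAt (fun z : ℝ × ℝ × ℝ × ℝ => ![(z.1 + (z.2.2.2 + (z.2.1 * z.1) ^ 2 +
        (z.2.2.1 * z.1) ^ 2) / z.1) / 2,
      (z.1 - (z.2.2.2 + (z.2.1 * z.1) ^ 2 + (z.2.2.1 * z.1) ^ 2) / z.1) / 2,
      z.2.1 * z.1, z.2.2.1 * z.1]) z0 := by
      rw [continuousAt_pi]
      intro i
      fin_cases i
      · exact (continuousAt_fst.add h1).div_const 2
      · exact (continuousAt_fst.sub h1).div_const 2
      · have : Continuous fun z : ℝ × ℝ × ℝ × ℝ => z.2.1 * z.1 := by fun_prop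
        exact this.continuousAt
      · have : Continuous fun z : ℝ × ℝ × ℝ × ℝ => z.2.2.1 * z.1 := by fun_prop
        exact this.continuousAt
    exact (PiLp.continuous_toLp 2 _).continuousAt.comp h2
  have hpos : 0 < ‖h q‖ := norm_pos_iff.2 hne
  have hev : ∀ᶠ z in 𝓝 z0, ‖h q‖ / 2 < ‖h (Φ z)‖ := by
    apply hca.eventually_const_lt
    show ‖h q‖ / 2 < ‖h (Φ z0)‖
    rw [hΦ0]
    linarith
  obtain ⟨r, hr, hball⟩ := Metric.eventually_nhds_iff.1 hev
  refine ⟨q 0 + q 1, q 0 + q 1 + r / 2, r / 2, q 2 / (q 0 + q 1), q 3 / (q 0 + q 1), r / 2,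
    ‖h q‖ / 2, hP, by linarith, by linarith, by linarith, by linarith, ?_⟩
  rintro p ⟨⟨g1, g2⟩, ⟨g3, g4⟩, ⟨g5, g6⟩, g7, g8⟩
  have hp : 0 < p 0 + p 1 := by linarith
  have e5 : q 2 / (q 0 + q 1) ≤ p 2 / (p 0 + p 1) := (le_div_iff₀ hp).2 g5
  have e6 : p 2 / (p 0 + p 1) < q 2 / (q 0 + q 1) + r / 2 := (div_lt_iff₀ hp).2 g6
  have e7 : q 3 / (q 0 + q 1) ≤ p 3 / (p 0 + p 1) := (le_div_iff₀ hp).2 g7
  have e8 : p 3 / (p 0 + p 1) < q 3 / (q 0 + q 1) + r / 2 := (div_lt_iff₀ hp).2 g8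
  have h3 := @hball (p 0 + p 1, p 2 / (p 0 + p 1), p 3 / (p 0 + p 1), mass2 p) (by
    simp only [hz0, Prod.dist_eq, max_lt_iff, Real.dist_eq, abs_lt]
    refine ⟨⟨?_, ?_⟩, ⟨?_, ?_⟩, ⟨?_, ?_⟩, ?_, ?_⟩ <;> linarith)
  rw [key p hp] at h3
  exact h3.le

/-- null momenta near a given one -/
lemma exists_null_near {h : Mink → ℂ} (hc : Continuous h) {q : Mink} (hq : mass2 q = 0)
    (h0 : 0 < q 0) (hne : h q ≠ 0) : ∃ q' : Mink, mass2 q' = 0 ∧ 0 < q' 0 + q' 1 ∧ h q' ≠ 0 := by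
  have hm : q 0 ^ 2 = q 1 ^ 2 + q 2 ^ 2 + q 3 ^ 2 := by
    have : mass2 q = q 0 ^ 2 - q 1 ^ 2 - q 2 ^ 2 - q 3 ^ 2 := by
      unfold mass2 mdot; ring
    rw [this] at hq
    linarith
  have hge : 0 ≤ q 0 + q 1 := by nlinarith [sq_nonneg (q 2), sq_nonneg (q 3)]
  rcases hge.lt_or_eq with h1 | h1
  · exact ⟨q, hq, h1, hne⟩
  have h11 : q 1 = - q 0 := by linarith
  have h23 : q 2 ^ 2 + q 3 ^ 2 = 0 := by rw [h11] at hm; linarith
  have h2 : q 2 = 0 := by nlinarith [sq_nonneg (q 2), sq_nonneg (q 3)]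
  have h3 : q 3 = 0 := by nlinarith [sq_nonneg (q 2), sq_nonneg (q 3)]
  set Ψ : ℝ → Mink := fun t => WithLp.toLp 2 ![q 0 * (1 + t ^ 2), q 0 * (-1 + t ^ 2),
    q 0 * (2 * t), 0] with hΨ
  have hΨ0 : Ψ 0 = q := by
    apply mink_ext
    · simp [hΨ]
    · simp [hΨ, h11]
    · simp [hΨ, h2]
    · simp [hΨ, h3]
  have hΨc : Continuous Ψ := by
    apply (PiLp.continuous_toLp 2 _).comp
    apply continuous_pi
    intro i
    fin_cases i <;> simp <;> fun_prop
  have hev : ∀ᶠ t in 𝓝 (0 : ℝ), h (Ψ t) ≠ 0 := by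
    have := (hc.comp hΨc).continuousAt (x := 0)
    apply this.eventually_ne
    show h (Ψ 0) ≠ 0
    rwa [hΨ0]
  have hev2 : ∀ᶠ t in 𝓝[>] (0 : ℝ), h (Ψ t) ≠ 0 ∧ 0 < t := by
    filter_upwards [hev.filter_mono nhdsWithin_le_nhds, self_mem_nhdsWithin] with t h4 h5
    exact ⟨h4, h5⟩
  obtain ⟨t, h4, h5⟩ := hev2.exists
  refine ⟨Ψ t, ?_, ?_, h4⟩
  · have : mass2 (Ψ t) = (Ψ t) 0 ^ 2 - (Ψ t) 1 ^ 2 - (Ψ t) 2 ^ 2 - (Ψ t) 3 ^ 2 := by
      unfold mass2 mdot; ring
    rw [this]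
    simp [hΨ]
    ring
  · simp [hΨ]
    nlinarith [mul_pos h0 (pow_pos h5 2)]

end Vale.Agent.P352.H496

end
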