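import Vale.Agent.P352.H496.Defs
import Vale.Agent.P352.H246.Main

set_option linter.all false

noncomputable section

open MeasureTheory SchwartzMap Complex Filter Topology
open scoped SchwartzMap ComplexConjugate ENNReal LineDeriv

namespace Vale.Agent.P352.H496

open GF (Ix V Fn Sch ev pd bar sim bas o)
open H246
open UniformSpace (Completion)

lemma cc_anti {K K' : Set V} (h : K ⊆ K') : cc K' ⊆ cc K := fun y hy x hx => hy x (h hx)

variable {D : Type*} [NormedAddCommGroup D] [InnerProductSpace ℂ D]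
variable {Q : GF.Theory D}

lemma gen_mono {W W' : Set V} (h : W ⊆ W') {v : D} (hv : Gen Q W v) : Gen Q W' v := by
  obtain ⟨X, X', hX, rfl⟩ := hv
  exact ⟨X, X', hX.mono h, rfl⟩

lemma In.mono {W W' : Set V} (h : W ⊆ W') {f : Fn} (hf : In W f) : In W' f :=
  ⟨hf.1, hf.2.1, hf.2.2.trans h⟩

lemma tsupport_box {f : Fn} (hf : GF.IsTest f) : tsupport (box f) ⊆ tsupport f := by
  obtain ⟨F, rfl⟩ := exists_fl hf
  rw [box_fl, tsupport_fl, tsupport_fl]
  exact Set.preimage_mono (tsupport_boxS F)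

lemma tsupport_addsmul {f g : Fn} (c : ℂ) :
    tsupport (fun x => f x + c * g x) ⊆ tsupport f ∪ tsupport g := by
  have h1 : Function.support (fun x => f x + c * g x) ⊆ Function.support f ∪ Function.support g := by
    intro x hx
    by_contra h
    simp only [Set.mem_union, Function.mem_support, ne_eq, not_or, not_not] at h
    apply hx
    simp [h.1, h.2]
  refine (closure_mono h1).trans ?_
  rw [closure_union]
  exact subset_rfl

lemma tsupport_bar' (f : Fn) : tsupport (bar f) = tsupport f := tsupport_bar f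

open Classical in
/-- the form determined by a potential -/
def form (Q : GF.Theory D) (l : Fn → Completion D) (f : Fn) (v w : D) : ℂ :=
  if h : ∃ Y Y', Al Q (cc (tsupport f)) Y Y' ∧ w = Y Q.vac then
    inner ℂ ((h.choose_spec.choose v : D) : Completion D) (l f) else 0

/-- hermiticity of the potential in the causal complement of the support -/
def Herm (Q : GF.Theory D) (l : Fn → Completion D) : Prop :=
  ∀ f X X', In Set.univ f → Al Q (cc (tsupport f)) X X' →
    inner ℂ ((X' Q.vac : D) : Completion D) (l f) =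
      inner ℂ (l (bar f)) ((X Q.vac : D) : Completion D)

section

variable {l : Fn → Completion D} (R : Herm Q l)
include R

lemma form_eq {f : Fn} (hf : In Set.univ f) {v w : D} (hv : Gen Q (cc (tsupport f)) v)
    {Y Y' : D → D} (hY : Al Q (cc (tsupport f)) Y Y') (hw : w = Y Q.vac) :
    form Q l f v w = inner ℂ ((Y' v : D) : Completion D) (l f) := by
  classical
  have h : ∃ Y Y', Al Q (cc (tsupport f)) Y Y' ∧ w = Y Q.vac := ⟨Y, Y', hY, hw⟩
  unfold form
  rw [dif_pos h]
  obtain ⟨hZ, hZw⟩ := h.choose_spec.choose_spec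
  set Z := h.choose
  set Z' := h.choose_spec.choose
  obtain ⟨X, X', hX, rfl⟩ := hv
  have h1 := R f _ _ hf (hX.star.mul hZ)
  have h2 := R f _ _ hf (hX.star.mul hY)
  have e3 : h.choose Q.vac = Y Q.vac := hZw.symm.trans hw
  rw [h1, h2, e3]

lemma form_herm {f : Fn} (hf : In Set.univ f) {v w : D} (hv : Gen Q (cc (tsupport f)) v)
    (hw : Gen Q (cc (tsupport f)) w) : form Q l f v w = conj (form Q l (bar f) w v) := by
  obtain ⟨X, X', hX, hXv⟩ := hv
  obtain ⟨Y, Y', hY, hYw⟩ := hw
  have hX' : Al Q (cc (tsupport (bar f))) X X' := by rwa [tsupport_bar]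
  have hY' : Gen Q (cc (tsupport (bar f))) w := by
    rw [tsupport_bar]; exact ⟨Y, Y', hY, hYw⟩
  have e1 := form_eq R hf (v := v) (w := w) ⟨X, X', hX, hXv⟩ hY hYw
  have e2 := form_eq R hf.bar (v := w) (w := v) hY' hX' hXv
  rw [e1, e2, inner_conj_symm]
  have h3 := R f _ _ hf (hX.star.mul hY)
  rw [hXv, hYw]
  exact h3

lemma form_vac {f : Fn} {v : D} (hf : In Set.univ f) (hv : Gen Q (cc (tsupport f)) v) :
    form Q l f v Q.vac = inner ℂ (v : Completion D) (l f) :=
  form_eq R hf (Y := fun v => v) (Y' := fun v => v) hv .one rfl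

lemma form_linf {f g : Fn} {c : ℂ} {v w : D}
    (hlin : l (fun x => f x + c * g x) = l f + c • l g) (hf : In Set.univ f)
    (hg : In Set.univ g) (hv : Gen Q (cc (tsupport f ∪ tsupport g)) v)
    (hw : Gen Q (cc (tsupport f ∪ tsupport g)) w) :
    form Q l (fun x => f x + c * g x) v w = form Q l f v w + c * form Q l g v w := by
  obtain ⟨Y, Y', hY, hYw⟩ := hw
  have h1 : In Set.univ (fun x => f x + c * g x) := by
    obtain ⟨F, rfl⟩ := exists_fl hf.1
    obtain ⟨G, rfl⟩ := exists_fl hg.1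
    rw [fl_add_smul]
    exact in_univ.2 ((in_univ.1 hf).add ((in_univ.1 hg).smul c))
  have s0 := cc_anti (tsupport_addsmul (f := f) (g := g) c)
  have s1 : cc (tsupport f ∪ tsupport g) ⊆ cc (tsupport f) := cc_anti Set.subset_union_left
  have s2 : cc (tsupport f ∪ tsupport g) ⊆ cc (tsupport g) := cc_anti Set.subset_union_right
  have e0 := form_eq R h1 (gen_mono s0 hv) (hY.mono s0) hYw
  have e1 := form_eq R hf (gen_mono s1 hv) (hY.mono s1) hYw
  have e2 := form_eq R hg (gen_mono s2 hv) (hY.mono s2) hYw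
  rw [e0, e1, e2, hlin, inner_add_right, inner_smul_right]

lemma form_linv {f : Fn} {c : ℂ} {u v w : D} (hf : In Set.univ f)
    (hu : Gen Q (cc (tsupport f)) u) (hv : Gen Q (cc (tsupport f)) v)
    (hw : Gen Q (cc (tsupport f)) w) :
    form Q l f u (v + c • w) = form Q l f u v + c * form Q l f u w := by
  obtain ⟨Y, Y', hY, hYv⟩ := hv
  obtain ⟨Z, Z', hZ, hZw⟩ := hw
  have e0 := form_eq R hf (w := v + c • w) hu (Al.add _ _ _ _ hY (Al.smul c _ _ hZ))
    (by rw [hYv, hZw])
  have e1 := form_eq R hf hu hY hYv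
  have e2 := form_eq R hf hu hZ hZw
  rw [e0, e1, e2, Completion.coe_add, inner_add_left, Completion.coe_smul, inner_smul_left]
  simp

lemma form_cont {K : Set V} {v w : D} (hc : Continuous fun g : Sch => l (ev g))
    (hK : IsCompact K) (hv : Gen Q (cc K) v) (hw : Gen Q (cc K) w) :
    ContinuousOn (fun g => form Q l (ev g) v w) {g | tsupport (ev g) ⊆ K} := by
  obtain ⟨Y, Y', hY, hYw⟩ := hw
  have hc : Continuous fun g : Sch => inner ℂ ((Y' v : D) : Completion D) (l (ev g)) :=
    continuous_const.inner hc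
  refine hc.continuousOn.congr fun g hg => ?_
  have hg' : tsupport (ev g) ⊆ K := hg
  have hin : In Set.univ (ev g) :=
    ⟨⟨g, rfl⟩, hK.of_isClosed_subset (isClosed_tsupport _) hg', Set.subset_univ _⟩
  exact form_eq R hin (gen_mono (cc_anti hg') hv) (hY.mono (cc_anti hg')) hYw

lemma form_loc {A B : GF.Fld D} {f g : Fn} {v w : D} (hA : Q.fld A) (hB : Q.fld B)
    (hadj : ∀ f v w, GF.IsTest f → inner ℂ (A f v) w = inner ℂ v (B (bar f) w))
    (hf : In Set.univ f) (hg : In (cc (tsupport f)) g) (hv : Gen Q (cc (tsupport f)) v)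
    (hw : Gen Q (cc (tsupport f)) w) :
    form Q l f (B (bar g) v) w = form Q l f v (A g w) := by
  obtain ⟨Y, Y', hY, hYw⟩ := hw
  obtain ⟨X, X', hX, hXv⟩ := hv
  have hBX : Gen Q (cc (tsupport f)) (B (bar g) v) :=
    ⟨_, _, Al.fld B A (bar g) X X' hB hA (adj_symm hadj) hg.bar hX, by rw [hXv]⟩
  have hAY := Al.fld A B g Y Y' hA hB hadj hg hY
  have e1 := form_eq R hf hBX hY hYw
  have e2 := form_eq R hf (w := A g w) ⟨X, X', hX, hXv⟩ hAY (by rw [hYw])
  rw [e1, e2]

omit R in
lemma cc_sim {s : ℝ} (hs : 0 < s) {L : Ix → V} (hL : GF.IsLor L) (a : V) (F : 𝓢(Mink, ℂ)) :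
    sim s L a '' cc (tsupport fun x => fl F (sim s L a x)) ⊆ cc (tsupport (fl F)) := by
  rintro _ ⟨y, hy, rfl⟩ x hx
  obtain ⟨x0, hx0⟩ := (simH hs hL a).surjective (WithLp.toLp 2 x)
  rw [simH_apply] at hx0
  have hxe : x = sim s L a x0.ofLp := (congrArg WithLp.ofLp hx0).symm
  have hmem : x0.ofLp ∈ tsupport fun x => fl F (sim s L a x) := by
    rw [fl_sim s hs hL a, tsupport_fl, simS_eqH, tsupport_comp_eq_preimage]
    show simH hs hL a (WithLp.toLp 2 x0.ofLp) ∈ tsupport F
    rw [tsupport_fl] at hx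
    have h1 : WithLp.toLp 2 x ∈ tsupport F := hx
    have h2 : simH hs hL a (WithLp.toLp 2 x0.ofLp) = WithLp.toLp 2 x := by
      rw [simH_apply, hxe]
    rw [h2]; exact h1
  have h3 := hy _ hmem
  have h4 : GF.mdot (x - sim s L a y) (x - sim s L a y) =
      s ^ 2 * GF.mdot (x0.ofLp - y) (x0.ofLp - y) := by
    have e1 : x - sim s L a y = s • (lam L (x0 - WithLp.toLp 2 y)).ofLp := by
      rw [hxe]
      funext n
      simp only [sim, Pi.sub_apply, Pi.smul_apply, smul_eq_mul]
      rw [show (lam L (x0 - WithLp.toLp 2 y)).ofLp n =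
        ∑ m, (x0 - WithLp.toLp 2 y) m * L m n from rfl]
      simp only [PiLp.sub_apply, sub_mul, Finset.sum_sub_distrib]
      ring
    have e2 := mdot_lam hL (x0 - WithLp.toLp 2 y) (x0 - WithLp.toLp 2 y)
    rw [mdot_eq, mdot_eq] at e2
    rw [e1]
    have e3 : ∀ z : V, GF.mdot (s • z) (s • z) = s ^ 2 * GF.mdot z z := by
      intro z
      simp only [gf_mdot, Pi.smul_apply, smul_eq_mul]; ring
    rw [e3, e2]
    rfl
  rw [h4]
  have : 0 < s ^ 2 := by positivity
  nlinarith

lemma form_cov {s : ℝ} {L : Ix → V} {a : V} {F : 𝓢(Mink, ℂ)} {v w : D} (hs : 0 < s)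
    (hL : GF.IsLor L)
    (hcov : ∀ v, inner ℂ (Q.U s L a v : Completion D) (l (fl F)) =
      (s ^ 2 : ℝ) * inner ℂ (v : Completion D) (l fun x => fl F (sim s L a x)))
    (ht : Tran Q s L a) (hf : In Set.univ (fl F))
    (hv : Gen Q (cc (tsupport fun x => fl F (sim s L a x))) v)
    (hw : Gen Q (cc (tsupport fun x => fl F (sim s L a x))) w) :
    form Q l (fl F) (Q.U s L a v) (Q.U s L a w) =
      (s ^ 2 : ℝ) * form Q l (fun x => fl F (sim s L a x)) v w := by
  have hf' : In Set.univ (fun x => fl F (sim s L a x)) := by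
    rw [fl_sim s hs hL a]
    exact in_univ.2 (isTest_simS_univ hs hL a (in_univ.1 hf))
  have hsub := cc_sim hs hL a F
  obtain ⟨Y, Y', hY, hYw⟩ := hw
  obtain ⟨X, X', hX, hXv⟩ := hv
  obtain ⟨Y1, Y1', hY1, e1, e1'⟩ := ht.al _ _ _ hY
  obtain ⟨X1, X1', hX1, e2, e2'⟩ := ht.al _ _ _ hX
  have gX : Gen Q (cc (tsupport (fl F))) (Q.U s L a v) :=
    ⟨X1, X1', hX1.mono hsub, by rw [hXv, e2, Q.U_vac _ _ _ hs hL]⟩
  have gY : Q.U s L a w = Y1 Q.vac := by rw [hYw, e1, Q.U_vac _ _ _ hs hL]
  have f1 := form_eq R hf gX (hY1.mono hsub) gY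
  have f2 := form_eq R hf' (v := v) (w := w) ⟨X, X', hX, hXv⟩ hY hYw
  rw [f1, f2, ← e1', hcov]

lemma form_trace {T : Ix → Ix → GF.Fld D} (hT : Q.IsStress T) {F : 𝓢(Mink, ℂ)} {v w : D}
    (htr : (3 : ℂ) • l (box (fl F)) = ((GF.tr T (fl F) Q.vac : D) : Completion D))
    (hf : In Set.univ (fl F)) (hv : Gen Q (cc (tsupport (fl F))) v)
    (hw : Gen Q (cc (tsupport (fl F))) w) :
    3 * form Q l (box (fl F)) v w = inner ℂ v (GF.tr T (fl F) w) := by
  obtain ⟨Y, Y', hY, hYw⟩ := hw
  have hs := cc_anti (tsupport_box hf.1)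
  have hb : In Set.univ (box (fl F)) := by
    rw [box_fl]
    exact in_univ.2 (isTest_box (in_univ.1 hf))
  have e0 := form_eq R hb (gen_mono hs hv) (hY.mono hs) hYw
  have h2 : (3 : ℂ) * inner ℂ ((Y' v : D) : Completion D) (l (box (fl F))) =
      inner ℂ ((Y' v : D) : Completion D) ((3 : ℂ) • l (box (fl F))) := by
    rw [inner_smul_right]
  rw [e0, h2, htr, Completion.inner_coe, hY.adj']
  have h3 := hY.comm (PField.tr hT) (f := F) (fun G hG => ?_) Q.vac
  · rw [hYw, h3]
  · intro x hx y hy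
    have h3 := hG.2 hy
    have h4 : x.ofLp ∈ tsupport (fl F) := by
      rw [tsupport_fl]; exact hx
    have h5 := h3 x.ofLp h4
    rw [mdot_eq]
    exact h5

/-- the form field determined by a potential -/
theorem isForm {T : Ix → Ix → GF.Fld D} (hT : Q.IsStress T) (hl : IsPot Q T l) :
    IsForm Q T l (form Q l) where
  vac f v hf hv := form_vac R hf hv
  linf f g c v w hf hg hv hw := form_linf R (hl.lin f g c hf.1 hg.1) hf hg hv hw
  linv f c u v w hf hu hv hw := form_linv R hf hu hv hw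
  cont K v w hK hv hw := form_cont R hl.cont hK hv hw
  herm f v w hf hv hw := form_herm R hf hv hw
  loc A B f g v w hA hB hadj hf hg hv hw := form_loc R hA hB hadj hf hg hv hw
  cov s L a f v w hs hL hc hf hv hw := by
    obtain ⟨F, rfl⟩ := exists_fl hf.1
    have ht : Tran Q s L a := by
      rcases hc with hc | ⟨rfl, rfl⟩
      · exact tran_of_cov hs hL hc
      · exact tran_one a
    exact form_cov R hs hL (fun v => hl.cov s L a (fl F) v hs hL hf.1) ht hf hv hw
  trace f v w hf hv hw := by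
    obtain ⟨F, rfl⟩ := exists_fl hf.1
    exact form_trace R hT (hl.trace (fl F) hf.1) hf hv hw

end

end Vale.Agent.P352.H496

end
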