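import Vale.Agent.P352.H496.Base
import Vale.Agent.P352.H496.Form

set_option linter.all false

noncomputable section

open MeasureTheory SchwartzMap Complex Filter Topology
open scoped SchwartzMap ComplexConjugate ENNReal LineDeriv

namespace Vale.Agent.P352.H496

open GF (Ix V Fn Sch ev pd bar sim bas o)
open H246
open UniformSpace (Completion)

variable {D : Type*} [NormedAddCommGroup D] [InnerProductSpace ℂ D]
variable {Q : GF.Theory D}
variable {H : D → D} {alg : Set V → Set (D → D)} {S : V → ℝ → D → D}

lemma integral_V (g : V → ℂ) : ∫ x : V, g x = ∫ x : Mink, g x.ofLp :=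
  ((PiLp.volume_preserving_ofLp Ix).integral_comp
    (MeasurableEquiv.toLp 2 (Ix → ℝ)).symm.measurableEmbedding g).symm

section

variable {μ : Measure Mink} {T : Ix → Ix → GF.Fld D}
variable (hT : Q.IsStress T) (Sy : SymMeasure μ 4) (two : Two Q (GF.tr T) μ)
variable (N : Net Q H alg S) {φ : Completion D} {n : ℕ}
variable (hrep : ∀ (F : 𝓢(Mink, ℂ)) (v : D),
    inner ℂ (lamV Sy (PField.tr hT) F) (v : Completion D) =
      ∫ x : Mink, conj (F x) * inner ℂ φ ((pw1 H n (U1 Q (-x) v) : D) : Completion D))

include N hrep two in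
/-- invariance of the point like functional implies hermiticity in the causal complement -/
theorem herm_of_inv
    (inv : ∀ a, IsNull a → ∀ s v, pt φ (pw1 H n) (S a s v) = pt φ (pw1 H n) v) :
    Herm Q (lamF Sy (PField.tr hT)) := by
  intro f X X' hf hX
  obtain ⟨F, rfl⟩ := exists_fl hf.1
  rw [bar_fl, lamF_fl, lamF_fl, ← inner_conj_symm, hrep, hrep, ← integral_conj]
  congr 1
  ext x
  rw [map_mul, conj_conj, conjS_apply, conj_conj]
  by_cases hx : F x = 0
  · rw [hx, zero_mul, zero_mul]
  congr 1
  have hxt : x.ofLp ∈ tsupport (fl F) := by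
    rw [tsupport_fl]
    exact subset_tsupport _ hx
  obtain ⟨Y, Y', hY, e1, e2⟩ := (tran_one (Q := Q) (-x).ofLp).al _ _ _ hX
  have hsub : sim 1 GF.one (-x).ofLp '' cc (tsupport (fl F)) ⊆ Sp0 := by
    rintro _ ⟨y, hy, rfl⟩
    have h1 := hy _ hxt
    show GF.mdot _ _ < 0
    have h2 : sim 1 GF.one (-x).ofLp y = fun n => -(x.ofLp - y) n := by
      rw [sim_one]
      funext n
      simp
      ring
    rw [h2]
    have h3 : GF.mdot (fun n => -(x.ofLp - y) n) (fun n => -(x.ofLp - y) n) =
        GF.mdot (x.ofLp - y) (x.ofLp - y) := by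
      simp only [gm]; ring
    rw [h3]
    exact h1
  have h := point_herm hT Sy two N hrep inv (hY.mono hsub)
  have e3 : U1 Q (-x) (X Q.vac) = Y Q.vac := by
    have := e1 Q.vac
    rw [Q.U_vac _ _ _ one_pos isLor_one] at this
    exact this
  have e4 : U1 Q (-x) (X' Q.vac) = Y' Q.vac := by
    have := e2 Q.vac
    rw [Q.U_vac _ _ _ one_pos isLor_one] at this
    exact this
  unfold pt at h
  rw [e3, e4, h]

include N hrep in
/-- the values of the potential at the origin -/
theorem val_iff {l : Fn → Completion D} (hl : ∀ f, GF.IsTest f → l f = lamF Sy (PField.tr hT) f)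
    (v : D) (c : ℂ) : Val l v c ↔ c = pt φ (pw1 H n) v := by
  have hB := pw1_mem N n
  have hcont : Continuous fun x : V => inner ℂ φ ((pw1 H n (Q.U 1 GF.one (-x) v) : D) :
      Completion D) := (cont_op N φ hB v).comp continuous_neg
  have h0 : inner ℂ φ ((pw1 H n (Q.U 1 GF.one (-(0 : V)) v) : D) : Completion D) =
      pt φ (pw1 H n) v := by
    have : Q.U 1 GF.one (-(0 : V)) v = v := by
      rw [neg_zero]; exact U1_zero_all (Q := Q) v
    rw [this]; rfl
  have hint : ∀ f, In Set.univ f → inner ℂ (l f) (v : Completion D) =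
      ∫ x : V, star (f x) * inner ℂ φ ((pw1 H n (Q.U 1 GF.one (-x) v) : D) : Completion D) := by
    intro f hf
    obtain ⟨F, rfl⟩ := exists_fl hf.1
    rw [hl _ hf.1, lamF_fl, hrep, integral_V]
    rfl
  constructor
  · rintro ⟨G, hG, rfl, hGint⟩
    have hz := fund (W := Set.univ) isOpen_univ
      (h := fun x : Mink => G x.ofLp - inner ℂ φ ((pw1 H n (Q.U 1 GF.one (-x.ofLp) v) : D) :
        Completion D))
      ((hG.comp (by fun_prop : Continuous fun x : Mink => x.ofLp)).sub
        (hcont.comp (by fun_prop : Continuous fun x : Mink => x.ofLp)))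
      (fun F hF => by
        have hin : In Set.univ (fl (conjS F)) := by
          refine in_univ.2 ⟨?_, Set.subset_univ _⟩
          have : (conjS F : Mink → ℂ) = (fun z => conj z) ∘ F := by ext x; simp
          rw [this]
          exact hF.1.comp_left (map_zero _)
        have h1 := hGint _ hin
        have h2 := hint _ hin
        rw [h1, integral_V, integral_V] at h2
        have e : ∀ x : Mink, star (fl (conjS F) x.ofLp) = F x := by
          intro x
          show conj (conjS F x) = F x
          rw [conjS_apply, conj_conj]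
        simp only [e] at h2
        have i1 : Integrable fun x : Mink => F x * G x.ofLp :=
          Continuous.integrable_of_hasCompactSupport (F.continuous.mul
            (hG.comp (by fun_prop : Continuous fun x : Mink => x.ofLp))) hF.1.mul_right
        have i2 : Integrable fun x : Mink => F x * inner ℂ φ
            ((pw1 H n (Q.U 1 GF.one (-x.ofLp) v) : D) : Completion D) :=
          Continuous.integrable_of_hasCompactSupport (F.continuous.mul
            (hcont.comp (by fun_prop : Continuous fun x : Mink => x.ofLp))) hF.1.mul_right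
        simp only [mul_sub]
        rw [integral_sub i1 i2, h2, sub_self]) (0 : Mink) trivial
    have h3 : G (0 : Mink).ofLp = inner ℂ φ ((pw1 H n (Q.U 1 GF.one (-(0 : Mink).ofLp) v) : D) :
        Completion D) := sub_eq_zero.1 hz
    have h4 : (0 : Mink).ofLp = (0 : V) := rfl
    rw [h4] at h3
    rw [h3, h0]
  · rintro rfl
    exact ⟨_, hcont, h0, hint⟩

end

/-- the criterion -/
theorem criterion {T : Ix → Ix → GF.Fld D} (hT : Q.IsStress T) (N : Net Q H alg S)
    {l : Fn → Completion D} (hl : IsPot Q T l) :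
    (∀ v, ∃! c, Val l v c) ∧
    ((∀ a s v c c', IsNull a → Val l v c → Val l (S a s v) c' → c' = c) →
      ∃ Λ, IsForm Q T l Λ) := by
  obtain ⟨μ, Sy, two⟩ := (PField.tr hT).exists_sym
  obtain ⟨φ, n, hrep⟩ := exists_point Sy (PField.tr hT) two N
  have hp := isPot_lamF Sy (PField.tr hT) two
  have hll : ∀ f, GF.IsTest f → l f = lamF Sy (PField.tr hT) f := fun f hf => hp.unique hl f hf
  have hv := fun v c => val_iff hT Sy N hrep hll v c
  refine ⟨fun v => ⟨pt φ (pw1 H n) v, (hv _ _).2 rfl, fun c hc => (hv _ _).1 hc⟩, fun h => ?_⟩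
  have inv : ∀ a, IsNull a → ∀ s v, pt φ (pw1 H n) (S a s v) = pt φ (pw1 H n) v :=
    fun a ha s v => h a s v _ _ ha ((hv _ _).2 rfl) ((hv _ _).2 rfl)
  have hH := herm_of_inv hT Sy two N hrep inv
  have hR : Herm Q l := by
    intro f X X' hf hX
    rw [hll f hf.1, hll _ (isTest_bar hf.1)]
    exact hH f X X' hf hX
  exact ⟨_, isForm hR hT hl⟩

end Vale.Agent.P352.H496

end
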