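import Vale.Agent.P352.H246.Vec

set_option linter.all false

noncomputable section

open MeasureTheory SchwartzMap Complex Filter Topology
open scoped SchwartzMap ComplexConjugate ENNReal LineDeriv

namespace Vale.Agent.P352.H496

open GF (Ix V Fn Sch ev pd bar sim bas o)
open H246
open UniformSpace (Completion)

section

variable {F : Type*} [NormedAddCommGroup F] [InnerProductSpace ℂ F] [CompleteSpace F]

/-- a relation between two point functions gives a relation between the spectral measures -/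
theorem inv2 {κ κ' : 𝓢(Mink, ℂ) → F} {ν ν' : 𝓢(Mink, ℂ) → Measure Mink}
    (S : SpecData κ ν) (S' : SpecData κ' ν') {μ μ' : Measure Mink}
    (hμ : ∀ g, ν g = μ.withDensity (dens g)) (hμ' : ∀ g, ν' g = μ'.withDensity (dens g))
    (M : Mink → Mink) (hM : Measurable M) (C c : ℝ) (hC : 0 ≤ C)
    (τ : 𝓢(Mink, ℂ) → 𝓢(Mink, ℂ)) (σ : Mink → Mink)
    (h1 : ∀ g a, τ (tauS a g) = tauS (σ a) (τ g))
    (h2 : ∀ f g, inner ℂ (κ f) (κ g) = (C : ℂ) * inner ℂ (κ' (τ f)) (κ' (τ g)))
    (h3 : ∀ g p, mft (τ g) p = c * mft g (M p))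
    (h4 : ∀ a p, chr (σ a) p = chr a (M p)) :
    μ = ENNReal.ofReal (C * c ^ 2) • μ'.map M := by
  apply measure_unique
  intro g
  have hA : ν g = ENNReal.ofReal C • (ν' (τ g)).map M := by
    have hf1 := S.fin g
    have hf2 := S'.fin (τ g)
    have hf3 : IsFiniteMeasure (ENNReal.ofReal C • (ν' (τ g)).map M) := by
      apply Measure.smul_finite
      exact ENNReal.ofReal_ne_top
    apply measure_ext_chr
    intro a
    rw [← S.spec, h2, h1, S'.spec, integral_smul_measure, ENNReal.toReal_ofReal hC,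
      integral_map hM.aemeasurable (continuous_chr a).aestronglyMeasurable, real_smul]
    congr 2
    ext p
    rw [h4]
  have hd : dens (τ g) = fun p => ENNReal.ofReal (c ^ 2) * dens g (M p) := by
    ext p
    unfold dens
    rw [h3, enorm_mul, mul_pow]
    congr 1
    rw [← ofReal_norm, norm_real, ← ENNReal.ofReal_pow (norm_nonneg _), Real.norm_eq_abs, sq_abs]
  rw [← hμ g, hA, hμ' (τ g), hd]
  have e1 : (μ'.withDensity fun p => ENNReal.ofReal (c ^ 2) * dens g (M p)) =
      ENNReal.ofReal (c ^ 2) • μ'.withDensity fun p => dens g (M p) := by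
    have := withDensity_smul (μ := μ') (ENNReal.ofReal (c ^ 2)) ((measurable_dens g).comp hM)
    exact this
  rw [e1, Measure.map_smul, map_withDensity_comp μ' M hM _ (measurable_dens g), smul_smul,
    ENNReal.ofReal_mul hC, withDensity_smul_measure]

end

variable {D : Type*} [NormedAddCommGroup D] [InnerProductSpace ℂ D]
variable {Q : GF.Theory D}

/-- spectral data of a translation covariant vector valued distribution -/
theorem exists_data (κ : 𝓢(Mink, ℂ) →L[ℂ] Completion D)
    (hx : ∀ g (a : Mink) (z : D), inner ℂ ((U1 Q a z : D) : Completion D) (κ (tauS a g)) =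
      inner ℂ (z : Completion D) (κ g)) :
    ∃ ν : 𝓢(Mink, ℂ) → Measure Mink, SpecData (fun g => κ g) ν := by
  have htau : ∀ a g, ‖κ (tauS a g)‖ ≤ ‖κ g‖ := by
    intro a g
    apply norm_le_of_inner (norm_nonneg _)
    intro z
    have h1 := hx g a (U1 Q (-a) z)
    rw [← hx g a (U1 Q (-a) z)] at h1
    have h2 : inner ℂ (z : Completion D) (κ (tauS a g)) =
        inner ℂ ((U1 Q (-a) z : D) : Completion D) (κ g) := by
      have h3 := hx (tauS a g) (-a) z
      rw [tauS_tauS, add_neg_cancel, tauS_zero'] at h3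
      exact h3.symm
    rw [h2]
    refine (norm_inner_le_norm _ _).trans ?_
    rw [Completion.norm_coe, U1_norm]
    exact (mul_comm _ _).le
  have htau' : ∀ a g, ‖κ (tauS a g)‖ = ‖κ g‖ := by
    intro a g
    refine le_antisymm (htau a g) ?_
    have := htau (-a) (tauS a g)
    rwa [tauS_tauS, add_neg_cancel, tauS_zero'] at this
  choose ν hfin hcone hν using fun g => exists_spec (x := κ g) (y := fun a => κ (tauS a g))
    (hx g) (fun a => htau a g)
  have tauL : ∀ a : Mink, ∃ B : 𝓢(Mink, ℂ) →ₗ[ℂ] Completion D,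
      ∀ g, B g = κ (tauS a g) := fun a =>
    ⟨(κ : 𝓢(Mink, ℂ) →ₗ[ℂ] _) ∘ₗ ((SchwartzMap.compSubConstCLM ℂ a : 𝓢(Mink, ℂ) →L[ℂ] _) :
      𝓢(Mink, ℂ) →ₗ[ℂ] 𝓢(Mink, ℂ)), fun g => rfl⟩
  refine ⟨ν, ?_, hfin, hcone, ?_, ?_⟩
  · intro g k c hc
    exact ⟨conv_integrable κ g k, conv_identity κ g k c hc⟩
  · intro g a
    exact hν g a
  · intro f g a
    obtain ⟨B, hB⟩ := tauL a
    have := inner_of_norm B (κ : 𝓢(Mink, ℂ) →ₗ[ℂ] Completion D)
      (fun f => by rw [hB]; exact htau' a f) f g
    rw [hB, hB] at this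
    exact this

end Vale.Agent.P352.H496

end
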