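import Vale.Agent.P352.H496.Defs2
import Vale.Agent.P352.H496.Twin
import Vale.Agent.P352.H496.Box
import Vale.Agent.P352.H496.Inv
import Vale.Agent.P352.H246.Compl

set_option linter.all false

noncomputable section

open MeasureTheory SchwartzMap Complex Filter Topology
open scoped SchwartzMap ComplexConjugate ENNReal LineDeriv

namespace Vale.Agent.P352.H496

open GF (Ix V Fn Sch ev pd bar sim bas o)
open H246
open UniformSpace (Completion)

/-! ### Integrals of polynomially bounded functions against test functions -/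

lemma pol_bound {h : Mink → ℂ} {C : ℝ} {m : ℕ} (hb : ∀ x, ‖h x‖ ≤ C * (1 + ‖x‖) ^ m)
    (F : 𝓢(Mink, ℂ)) (x : Mink) : ‖F x * h x‖ ≤ C * (2 ^ (m + 5) *
      (Finset.Iic (m + 5, 0)).sup (schwartzSeminormFamily ℂ Mink ℂ) F) *
        (1 + ‖x‖) ^ (-(5 : ℝ)) := by
  have hC : 0 ≤ C := by
    have := (norm_nonneg _).trans (hb 0)
    simpa using this
  have h1 := SchwartzMap.one_add_le_sup_seminorm_apply (𝕜 := ℂ) (m := (m + 5, 0)) (k := m + 5)
    (n := 0) le_rfl le_rfl F x
  rw [norm_iteratedFDeriv_zero] at h1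
  have hx : 0 < 1 + ‖x‖ := by positivity
  have h2 : (1 + ‖x‖) ^ (-(5 : ℝ)) = ((1 + ‖x‖) ^ 5)⁻¹ := by
    rw [Real.rpow_neg hx.le]
    norm_cast
  rw [h2, ← div_eq_mul_inv, le_div_iff₀ (by positivity), norm_mul]
  calc ‖F x‖ * ‖h x‖ * (1 + ‖x‖) ^ 5 ≤ ‖F x‖ * (C * (1 + ‖x‖) ^ m) * (1 + ‖x‖) ^ 5 := by
        gcongr
        exact hb x
    _ = C * ((1 + ‖x‖) ^ (m + 5) * ‖F x‖) := by ring
    _ ≤ _ := mul_le_mul_of_nonneg_left h1 hC

lemma integrable_pol {h : Mink → ℂ} (hc : Continuous h) {C : ℝ} {m : ℕ}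
    (hb : ∀ x, ‖h x‖ ≤ C * (1 + ‖x‖) ^ m) (F : 𝓢(Mink, ℂ)) : Integrable fun x => F x * h x := by
  have h0 : Integrable (fun x : Mink => (1 + ‖x‖) ^ (-(5 : ℝ))) :=
    integrable_one_add_norm (by simp; norm_num)
  refine (h0.const_mul _).mono' (F.continuous.mul hc).aestronglyMeasurable
    (Eventually.of_forall (pol_bound hb F))

lemma cont_pol {h : Mink → ℂ} (hc : Continuous h) {C : ℝ} {m : ℕ}
    (hb : ∀ x, ‖h x‖ ≤ C * (1 + ‖x‖) ^ m) : Continuous fun F : 𝓢(Mink, ℂ) => ∫ x, F x * h x := by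
  have hi := integrable_pol hc hb
  have h0 : Integrable (fun x : Mink => (1 + ‖x‖) ^ (-(5 : ℝ))) :=
    integrable_one_add_norm (by simp; norm_num)
  have hC : 0 ≤ C := by
    have := (norm_nonneg _).trans (hb 0)
    simpa using this
  have := (SchwartzMap.mkCLMtoNormedSpace (𝕜 := ℂ) (σ := RingHom.id ℂ)
    (fun F : 𝓢(Mink, ℂ) => ∫ x, F x * h x)
    (fun F G => by
      rw [← integral_add (hi F) (hi G)]
      congr 1; ext x; simp only [SchwartzMap.add_apply]; ring)
    (fun c F => by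
      rw [RingHom.id_apply, smul_eq_mul, ← integral_const_mul]
      congr 1; ext x; simp only [SchwartzMap.smul_apply, smul_eq_mul]; ring)
    ⟨Finset.Iic (m + 5, 0), C * 2 ^ (m + 5) * ∫ x : Mink, (1 + ‖x‖) ^ (-(5 : ℝ)), by positivity,
      fun F => by
        refine (norm_integral_le_integral_norm _).trans ?_
        refine (integral_mono (hi F).norm (h0.const_mul _) (pol_bound hb F)).trans ?_
        rw [integral_const_mul]
        apply le_of_eq
        ring⟩).continuous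
  exact this

/-! ### Substitutions -/

lemma int_sim {s : ℝ} (hs : 0 < s) {L : Ix → V} (hL : GF.IsLor L) (G : Mink → ℂ) :
    ∫ x, G (s • lam L x) = ((s ^ 4)⁻¹ : ℝ) * ∫ x, G x := by
  have hemb : MeasurableEmbedding (lam L) := (lamE hL).toHomeomorph.measurableEmbedding
  have h1 := (measurePreserving_lam_volume hL).integral_comp hemb (fun x => G (s • x))
  rw [h1]
  have h := Measure.integral_comp_smul (μ := (volume : Measure Mink)) G s
  have hd : Module.finrank ℝ Mink = 4 := by simp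
  rw [hd, abs_of_pos (by positivity), real_smul] at h
  exact h

lemma simS0_apply {s : ℝ} (hs : 0 < s) {L : Ix → V} (hL : GF.IsLor L) (F : 𝓢(Mink, ℂ))
    (x : Mink) : simS s hs hL 0 F x = F (s • lam L x) := by
  rw [simS_apply]
  congr 1
  ext n
  simp [sim, lam_apply]

lemma linv_lam {L : Ix → V} (hL : GF.IsLor L) (x : Mink) : lam (linv L) (lam L x) = x := by
  have h1 : lam L (lam (linv L) (lam L x)) = lam L x := lam_linv hL _
  exact (lamE hL).injective h1

lemma toLp_sim (L : Ix → V) (a : V) : (WithLp.toLp 2 (sim 1 L 0 a) : Mink) =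
    lam L (WithLp.toLp 2 a) := by
  ext n
  simp [sim, lam_apply]

variable {D : Type*} [NormedAddCommGroup D] [InnerProductSpace ℂ D]
variable {Q : GF.Theory D}
variable {H : D → D} {alg : Set V → Set (D → D)} {S : V → ℝ → D → D}

/-- difference of the values on the deformed and on the undeformed vectors -/
def gd (Q : GF.Theory D) (S : V → ℝ → D → D) (φ : Completion D) (B : D → D) (a : V) (s : ℝ)
    (v : D) (x : Mink) : ℂ :=
  pt φ B (S a (-s) (U1 Q (-x) v)) - pt φ B (U1 Q (-x) v)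

section

variable (N : CNet Q H alg S) {φ : Completion D} {B : D → D} (hB : B ∈ alg Set.univ)
include N

lemma U_scale {s : ℝ} (hs : 0 < s) {L : Ix → V} (hL : GF.IsLor L) (y : Mink) (v : D) :
    U1 Q (-(s • lam L y)) (Q.U s L 0 v) = Q.U s L 0 (U1 Q (-y) v) := by
  have h1 := N.U_mul 1 GF.one (-(s • lam L y)).ofLp s L 0 v one_pos hs isLor_one hL
  have h2 := N.U_mul s L 0 1 GF.one (-y).ofLp v hs one_pos hL isLor_one
  have e1 : (fun m => sim 1 GF.one 0 (L m)) = L := by
    funext m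
    rw [sim_one]
    funext n
    simp
  have e2 : (fun m => sim 1 L 0 (GF.one m)) = L := by
    funext m n
    simp [sim, GF.one, bas]
  have e3 : sim 1 GF.one (-(s • lam L y)).ofLp 0 = sim s L 0 (-y).ofLp := by
    rw [sim_one]
    funext n
    simp [sim, lam_apply]
  rw [e1, one_mul, e3] at h1
  rw [e2, mul_one] at h2
  exact h1.trans h2.symm

include hB

lemma S_B_mem {a : V} (ha : IsNull a) (s : ℝ) : (fun v => B (S a s v)) ∈ alg Set.univ :=
  N.mul _ _ hB _ (N.S_mem a s ha)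

lemma cont_gd {a : V} (ha : IsNull a) (s : ℝ) (v : D) : Continuous (gd Q S φ B a s v) := by
  have h1 := cont_op N.toNet φ (S_B_mem N hB ha (-s)) v
  have h2 := cont_op N.toNet φ hB v
  have hc : Continuous fun x : Mink => (-x).ofLp := by fun_prop
  exact (h1.comp hc).sub (h2.comp hc)

lemma bdd_gd {a : V} (ha : IsNull a) (s : ℝ) (v : D) : ∃ (C : ℝ) (m : ℕ), ∀ x,
    ‖gd Q S φ B a s v x‖ ≤ C * (1 + ‖x‖) ^ m := by
  obtain ⟨C1, m1, h1⟩ := N.transl_bdd _ (S_B_mem N hB ha (-s)) v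
  obtain ⟨C2, m2, h2⟩ := N.transl_bdd _ hB v
  have hC1 : 0 ≤ C1 := by simpa using (norm_nonneg _).trans (h1 0)
  have hC2 : 0 ≤ C2 := by simpa using (norm_nonneg _).trans (h2 0)
  refine ⟨‖φ‖ * (C1 + C2), m1 + m2, fun x => ?_⟩
  have hx : ‖(-x).ofLp‖ ≤ ‖x‖ := by
    rw [← norm_neg x, pi_norm_le_iff_of_nonneg (norm_nonneg _)]
    intro i
    rw [Real.norm_eq_abs]
    exact abs_coord_le (-x) i
  have g1 : ‖pt φ B (S a (-s) (U1 Q (-x) v))‖ ≤ ‖φ‖ * (C1 * (1 + ‖x‖) ^ m1) := by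
    refine (norm_inner_le_norm _ _).trans ?_
    rw [Completion.norm_coe]
    gcongr
    refine (h1 (-x).ofLp).trans ?_
    gcongr
  have g2 : ‖pt φ B (U1 Q (-x) v)‖ ≤ ‖φ‖ * (C2 * (1 + ‖x‖) ^ m2) := by
    refine (norm_inner_le_norm _ _).trans ?_
    rw [Completion.norm_coe]
    gcongr
    refine (h2 (-x).ofLp).trans ?_
    gcongr
  have hx1 : 1 ≤ 1 + ‖x‖ := by linarith [norm_nonneg x]
  have p1 : (1 + ‖x‖) ^ m1 ≤ (1 + ‖x‖) ^ (m1 + m2) := pow_le_pow_right₀ hx1 (by omega)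
  have p2 : (1 + ‖x‖) ^ m2 ≤ (1 + ‖x‖) ^ (m1 + m2) := pow_le_pow_right₀ hx1 (by omega)
  calc ‖gd Q S φ B a s v x‖ ≤ ‖φ‖ * (C1 * (1 + ‖x‖) ^ m1) + ‖φ‖ * (C2 * (1 + ‖x‖) ^ m2) :=
        (norm_sub_le _ _).trans (add_le_add g1 g2)
    _ ≤ ‖φ‖ * (C1 * (1 + ‖x‖) ^ (m1 + m2)) + ‖φ‖ * (C2 * (1 + ‖x‖) ^ (m1 + m2)) := by gcongr
    _ = _ := by ring

lemma gd_add {a : V} (ha : IsNull a) (s : ℝ) (v w : D) (x : Mink) :
    gd Q S φ B a s (v + w) x = gd Q S φ B a s v x + gd Q S φ B a s w x := by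
  obtain ⟨Y, -, hadj⟩ := N.adj _ B hB
  have hBa : ∀ v w, B (v + w) = B v + B w := fun v w => Adj.add hadj v w
  unfold gd pt
  rw [U1_add, S_addv N.toNet ha, hBa, hBa, Completion.coe_add, Completion.coe_add, inner_add_right,
    inner_add_right]
  ring

lemma gd_smul {a : V} (ha : IsNull a) (s : ℝ) (c : ℂ) (v : D) (x : Mink) :
    gd Q S φ B a s (c • v) x = c * gd Q S φ B a s v x := by
  obtain ⟨Y, -, hadj⟩ := N.adj _ B hB
  have hBs : ∀ v, B (c • v) = c • B v := fun v => Adj.smul hadj c v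
  unfold gd pt
  rw [U1_smul, S_smulv N.toNet ha, hBs, hBs, Completion.coe_smul, Completion.coe_smul,
    inner_smul_right, inner_smul_right]
  ring

omit hB in
/-- transformation of the response -/
lemma gd_U (hq : ∀ σ L v, 0 < σ → GF.IsLor L → pt φ B (Q.U σ L 0 v) = ((σ ^ 2)⁻¹ : ℝ) * pt φ B v)
    {a b : V} (ha : IsNull a) (hb : IsNull b) {σ r : ℝ} (hσ : 0 < σ) (hr : 0 < r) {L : Ix → V}
    (hL : GF.IsLor L) (hab : sim 1 L 0 a = r • b) (s : ℝ) (v : D) (y : Mink) :
    gd Q S φ B b s (Q.U σ L 0 v) (σ • lam L y) =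
      ((σ ^ 2)⁻¹ : ℝ) * gd Q S φ B a (σ * s / r) v y := by
  unfold gd
  rw [U_scale N hσ hL]
  have h1 := N.S_cov σ L a (-(σ * s / r)) (U1 Q (-y) v) hσ hL ha
  rw [hab, N.S_scale b r _ _ hb hr] at h1
  have h2 : r * (-(σ * s / r) / σ) = -s := by
    field_simp
  rw [h2] at h1
  rw [← h1, hq σ L _ hσ hL, hq σ L _ hσ hL]
  ring

omit hB in
lemma gd_tau (a : V) (s : ℝ) (b : Mink) (v : D) (x : Mink) :
    gd Q S φ B a s (U1 Q b v) x = gd Q S φ B a s v (x - b) := by
  unfold gd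
  rw [U1_U1_all]
  have : -x + b = -(x - b) := by abel
  rw [this]

/-- the response as a vector valued distribution -/
theorem exists_kap {a : V} (ha : IsNull a) (s : ℝ) (hbs : ∀ F : 𝓢(Mink, ℂ), ∃ C : ℝ, ∀ v,
      ‖∫ x, conj (F x) * gd Q S φ B a s v x‖ ≤ C * ‖v‖) :
    ∃ κ : 𝓢(Mink, ℂ) →L[ℂ] Completion D, ∀ F (v : D), inner ℂ (v : Completion D) (κ F) =
      ∫ x, F x * conj (gd Q S φ B a s v x) := by
  have hc : ∀ v, Continuous fun x => conj (gd Q S φ B a s v x) := fun v =>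
    Complex.continuous_conj.comp (cont_gd N hB ha s v)
  have hbd : ∀ v, ∃ (C : ℝ) (m : ℕ), ∀ x, ‖conj (gd Q S φ B a s v x)‖ ≤ C * (1 + ‖x‖) ^ m := by
    intro v
    obtain ⟨C, m, h⟩ := bdd_gd N hB (φ := φ) ha s v
    exact ⟨C, m, fun x => by rw [RCLike.norm_conj]; exact h x⟩
  have hint : ∀ (F : 𝓢(Mink, ℂ)) v, Integrable fun x => F x * conj (gd Q S φ B a s v x) := by
    intro F v
    obtain ⟨C, m, h⟩ := hbd v
    exact integrable_pol (hc v) h F
  have hcc : ∀ (F : 𝓢(Mink, ℂ)) v, conj (∫ x, F x * conj (gd Q S φ B a s v x)) =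
      ∫ x, conj (F x) * gd Q S φ B a s v x := by
    intro F v
    rw [← integral_conj]
    congr 1
    ext x
    rw [map_mul, conj_conj]
  have hint' : ∀ (F : 𝓢(Mink, ℂ)) v, Integrable fun x => conj (F x) * gd Q S φ B a s v x := by
    intro F v
    refine (Complex.conjCLE.toContinuousLinearMap.integrable_comp (hint F v)).congr
      (Eventually.of_forall fun x => ?_)
    show conj (F x * conj (gd Q S φ B a s v x)) = _
    rw [map_mul, conj_conj]
  have hex : ∀ F : 𝓢(Mink, ℂ), ∃ u : Completion D, ∀ v : D, inner ℂ (v : Completion D) u =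
      ∫ x, F x * conj (gd Q S φ B a s v x) := by
    intro F
    obtain ⟨C, hC⟩ := hbs F
    set φ0 : D →ₗ[ℂ] ℂ :=
      { toFun := fun v => ∫ x, conj (F x) * gd Q S φ B a s v x
        map_add' := fun v w => by
          rw [← integral_add (hint' F v) (hint' F w)]
          congr 1; ext x; rw [gd_add N hB ha]; ring
        map_smul' := fun c v => by
          rw [RingHom.id_apply, smul_eq_mul, ← integral_const_mul]
          congr 1; ext x; rw [gd_smul N hB ha]; ring } with hφ0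
    set φ1 : D →L[ℂ] ℂ := φ0.mkContinuous C (fun v => hC v) with hφ1
    set ψ : Completion D →L[ℂ] ℂ :=
      φ1.extend (Completion.toComplL (𝕜 := ℂ) (E := D)) with hψ
    have hψz : ∀ z : D, ψ (z : Completion D) = φ1 z := fun z =>
      φ1.extend_eq (Completion.denseRange_coe) (Completion.isUniformInducing_coe D) z
    refine ⟨(InnerProductSpace.toDual ℂ _).symm ψ, fun z => ?_⟩
    rw [← inner_conj_symm, InnerProductSpace.toDual_symm_apply, hψz]
    change conj (∫ x, conj (F x) * gd Q S φ B a s z x) = _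
    rw [← hcc, conj_conj]
  choose κ hκ using hex
  set κl : 𝓢(Mink, ℂ) →ₗ[ℂ] Completion D :=
    { toFun := κ
      map_add' := fun F G => ext_coe fun z => by
        rw [inner_add_right, hκ, hκ, hκ, ← integral_add (hint F z) (hint G z)]
        congr 1; ext x; simp only [SchwartzMap.add_apply]; ring
      map_smul' := fun c F => ext_coe fun z => by
        rw [RingHom.id_apply, inner_smul_right, hκ, hκ, ← integral_const_mul]
        congr 1; ext x; simp only [SchwartzMap.smul_apply, smul_eq_mul]; ring } with hκl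
  have := barrelled_schwartz
  have hcont : Continuous κl := by
    refine cont_of_weak κl (Z := Set.range ((↑) : D → Completion D)) Completion.denseRange_coe ?_
    rintro _ ⟨z, rfl⟩
    obtain ⟨C, m, h⟩ := hbd z
    have h1 := cont_pol (hc z) h
    have e : (fun F : 𝓢(Mink, ℂ) => inner ℂ (z : Completion D) (κl F)) =
        fun F : 𝓢(Mink, ℂ) => ∫ x, F x * conj (gd Q S φ B a s z x) := by
      funext F
      exact hκ F z
    rw [e]
    exact h1
  exact ⟨⟨κl, hcont⟩, hκ⟩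

end

end Vale.Agent.P352.H496

end
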