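import Vale.Agent.P352.H496.GnrTr
import Vale.Agent.P352.H496.Crit2

set_option linter.all false

noncomputable section

open MeasureTheory SchwartzMap Complex Filter Topology
open scoped SchwartzMap ComplexConjugate ENNReal LineDeriv

namespace Vale.Agent.P352.H496

open GF (Ix V Fn Sch ev pd bar sim bas o)
open H246
open UniformSpace (Completion)

/-! ### Null rotations -/

/-- null rotation fixing `(1,-1,0,0)` -/
def nr (c : ℝ × ℝ) : Ix → V :=
  ![![1 + (c.1 ^ 2 + c.2 ^ 2) / 2, -((c.1 ^ 2 + c.2 ^ 2) / 2), c.1, c.2],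
    ![(c.1 ^ 2 + c.2 ^ 2) / 2, 1 - (c.1 ^ 2 + c.2 ^ 2) / 2, c.1, c.2],
    ![c.1, -c.1, 1, 0], ![c.2, -c.2, 0, 1]]

lemma isLor_nr (c : ℝ × ℝ) : GF.IsLor (nr c) := by
  refine ⟨?_, ?_, ?_⟩
  · intro m n
    rw [gf_mdot]
    fin_cases m <;> fin_cases n <;>
      simp [nr, GF.bas, eta_0, eta_1, eta_2, eta_3] <;> ring
  · change (0 : ℝ) < 1 + (c.1 ^ 2 + c.2 ^ 2) / 2
    positivity
  · change Matrix.det (Matrix.of (nr c)) = 1
    rw [Matrix.det_succ_row_zero]
    simp only [Nat.succ_eq_add_one, Nat.reduceAdd, nr, Fin.isValue, Matrix.of_apply,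
      Matrix.cons_val', Matrix.cons_val_fin_one, Matrix.cons_val_zero, Matrix.det_fin_three,
      Matrix.submatrix_apply, Fin.succ_zero_eq_one, Matrix.cons_val_one, Fin.succ_one_eq_two,
      Matrix.cons_val, Fin.reduceSucc, Fin.sum_univ_four, Fin.coe_ofNat_eq_mod, Nat.zero_mod,
      pow_zero, one_mul, Fin.zero_succAbove, mul_one, mul_zero, sub_zero, mul_neg, zero_mul,
      neg_zero, add_zero, sub_neg_eq_add, Nat.one_mod, pow_one, neg_mul, neg_neg, ne_eq,
      one_ne_zero, not_false_eq_true, Fin.succAbove_ne_zero_zero, Fin.one_succAbove_one,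
      Nat.reduceMod, even_two, Even.neg_pow, one_pow, Fin.reduceEq, Nat.mod_succ]
    simp only [Fin.succAbove, Nat.reduceAdd, Fin.isValue, Fin.reduceCastSucc, Fin.lt_one_iff,
      Fin.reduceEq, ↓reduceIte, Fin.reduceSucc, Matrix.cons_val, mul_one, Fin.castSucc_one,
      Fin.reduceLT, Matrix.cons_val_one, Matrix.cons_val_zero, mul_neg, lt_self_iff_false,
      mul_zero, sub_zero, zero_mul, add_zero, sub_neg_eq_add, zero_add]
    ring

lemma nr_nu (c : ℝ × ℝ) : sim 1 (nr c) 0 (nu (-1)) = (1 : ℝ) • nu (-1) := by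
  funext n
  fin_cases n <;> simp [sim, nu, nr, Fin.sum_univ_four] <;> ring

lemma nr_add (c c' : ℝ × ℝ) : (fun m => sim 1 (nr c) 0 (nr c' m)) = nr (c + c') := by
  funext m n
  fin_cases m <;> fin_cases n <;> simp [sim, nr, Fin.sum_univ_four] <;> ring

lemma boost_add (s t : ℝ) : (fun m => sim 1 (mBoost s) 0 (mBoost t m)) = mBoost (s + t) := by
  have h1 := Real.cosh_add s t
  have h2 := Real.sinh_add s t
  funext m n
  fin_cases m <;> fin_cases n <;> simp [sim, mBoost, Fin.sum_univ_four, h1, h2] <;> ring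

lemma nr_boost (c : ℝ × ℝ) (t : ℝ) : (fun m => sim 1 (nr c) 0 (mBoost t m)) =
    fun m => sim 1 (mBoost t) 0 (nr (Real.exp t • c) m) := by
  have h3 : Real.exp t = Real.cosh t + Real.sinh t := (Real.cosh_add_sinh t).symm
  have h4 := Real.cosh_sq t
  rw [h3]
  unfold mBoost
  generalize Real.cosh t = x at *
  generalize Real.sinh t = y at *
  obtain ⟨a, b⟩ := c
  funext m n
  fin_cases m <;> fin_cases n <;> simp [sim, nr, Fin.sum_univ_four]
  · linear_combination (-(x + y) * (a ^ 2 + b ^ 2) / 2) * h4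
  · linear_combination ((x + y) * (a ^ 2 + b ^ 2) / 2) * h4
  · ring
  · ring
  · linear_combination (-(x + y) * (a ^ 2 + b ^ 2) / 2) * h4
  · linear_combination ((x + y) * (a ^ 2 + b ^ 2) / 2) * h4
  · ring
  · ring
  · linear_combination (-a) * h4
  · linear_combination a * h4
  · linear_combination (-b) * h4
  · linear_combination b * h4

variable {D : Type*} [NormedAddCommGroup D] [InnerProductSpace ℂ D]
variable {Q : GF.Theory D}
variable {H : D → D} {alg : Set V → Set (D → D)} {S : V → ℝ → D → D} {G : V → D → D}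

lemma hasDerivAt_iso {X : D → D} (hadd : ∀ v w, X (v + w) = X v + X w)
    (hsmul : ∀ (c : ℂ) v, X (c • v) = c • X v) (hn : ∀ v, ‖X v‖ = ‖v‖) {f : ℝ → D} {f' : D}
    {t : ℝ} (h : HasDerivAt f f' t) : HasDerivAt (fun s => X (f s)) (X f') t := by
  let L : D →L[ℂ] D := LinearMap.mkContinuous ⟨⟨X, hadd⟩, hsmul⟩ 1
    (fun v => by rw [one_mul]; exact (hn v).le)
  exact (L.restrictScalars ℝ).hasFDerivAt.comp_hasDerivAt t h

lemma U_nrmL {s : ℝ} (hs : 0 < s) {L : Ix → V} (hL : GF.IsLor L) (v : D) :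
    ‖Q.U s L 0 v‖ = ‖v‖ := U_nrm0 hs hL 0 v

lemma hasDerivAt_UL {σ : ℝ} (hσ : 0 < σ) {L : Ix → V} (hL : GF.IsLor L) {f : ℝ → D} {f' : D}
    {t : ℝ} (h : HasDerivAt f f' t) : HasDerivAt (fun s => Q.U σ L 0 (f s)) (Q.U σ L 0 f') t :=
  hasDerivAt_iso (U_add hσ hL 0) (U_smul hσ hL 0) (U_nrmL hσ hL) h

/-! ### The generator -/

section

variable (N : CNet Q H alg S) (Gg : Gnr Q alg S G) {a : V} (ha : IsNull a)
include N Gg ha

/-- the generator is symmetric -/
lemma G_adj : Adj (G a) (G a) := by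
  intro v w
  have h0 : S a 0 v = v := S_zero N.toNet ha v
  have h0' : S a 0 w = w := S_zero N.toNet ha w
  have h1 := (Gg.der a v ha).inner ℂ (hasDerivAt_const (0 : ℝ) w)
  have hneg : HasDerivAt (fun s : ℝ => S a (-s) w) (-(I • G a w)) 0 := by
    have := Gg.der a w ha
    rw [← neg_zero] at this
    have h2 := this.scomp (0 : ℝ) (hasDerivAt_neg (0 : ℝ))
    rw [neg_one_smul] at h2
    exact h2
  have h2 := (hasDerivAt_const (0 : ℝ) v).inner ℂ hneg
  have e : (fun t : ℝ => inner ℂ (S a t v) w) = fun t : ℝ => inner ℂ v (S a (-t) w) := by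
    funext t
    exact S_move N.toNet ha t v w
  rw [e] at h1
  have h3 := h1.unique h2
  simp only [inner_zero_right, zero_add, neg_zero, h0, inner_smul_left, inner_neg_right,
    inner_smul_right, conj_I, inner_zero_left, add_zero] at h3
  have h4 : I * inner ℂ (G a v) w = I * inner ℂ v (G a w) := by
    linear_combination -h3
  exact mul_left_cancel₀ I_ne_zero h4

lemma G_add (v w : D) : G a (v + w) = G a v + G a w := (G_adj N Gg ha).add v w

lemma G_smul (c : ℂ) (v : D) : G a (c • v) = c • G a v := (G_adj N Gg ha).smul c v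

/-- covariance of the generator -/
lemma G_U {σ r : ℝ} (hσ : 0 < σ) (hr : 0 < r) {L : Ix → V} (hL : GF.IsLor L)
    (hLa : sim 1 L 0 a = r • a) (v : D) :
    G a (Q.U σ L 0 v) = ((σ / r : ℝ) : ℂ) • Q.U σ L 0 (G a v) := by
  have h1 := hasDerivAt_UL (Q := Q) hσ hL (Gg.der a v ha)
  have e : (fun s : ℝ => Q.U σ L 0 (S a s v)) = fun s : ℝ => S a (r / σ * s) (Q.U σ L 0 v) := by
    funext s
    rw [N.S_cov σ L a s v hσ hL ha, hLa, N.S_scale a r _ _ ha hr]
    congr 1
    ring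
  rw [e] at h1
  have h2 := Gg.der a (Q.U σ L 0 v) ha
  have h3 : HasDerivAt (fun s : ℝ => r / σ * s) (r / σ) 0 := by
    simpa using (hasDerivAt_id (0 : ℝ)).const_mul (r / σ)
  have h4 : HasDerivAt (fun s : ℝ => S a (r / σ * s) (Q.U σ L 0 v))
      ((r / σ) • (I • G a (Q.U σ L 0 v))) 0 := by
    have h5 : HasDerivAt (fun s : ℝ => S a s (Q.U σ L 0 v)) (I • G a (Q.U σ L 0 v))
        ((fun s : ℝ => r / σ * s) 0) := by
      simpa using h2
    exact h5.scomp (0 : ℝ) h3
  have h5 := h1.unique h4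
  rw [U_smul hσ hL] at h5
  have h6 := congrArg (fun w => (-I * ((σ / r : ℝ) : ℂ)) • w) h5
  have e1 : (r / σ) • (I • G a (Q.U σ L 0 v)) = ((r / σ : ℝ) : ℂ) • (I • G a (Q.U σ L 0 v)) := rfl
  simp only [e1, smul_smul] at h6
  have hr' : (r : ℂ) ≠ 0 := by exact_mod_cast hr.ne'
  have hσ' : (σ : ℂ) ≠ 0 := by exact_mod_cast hσ.ne'
  have e2 : -I * ((σ / r : ℝ) : ℂ) * I = ((σ / r : ℝ) : ℂ) := by
    linear_combination (-((σ / r : ℝ) : ℂ)) * I_mul_I
  have e3 : -I * ((σ / r : ℝ) : ℂ) * (((r / σ : ℝ) : ℂ) * I) = 1 := by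
    push_cast
    field_simp
    rw [I_sq]
    ring
  rw [e2, e3, one_smul] at h6
  exact h6.symm

/-- the generator commutes with the translations in the direction `a` -/
lemma G_tr (t : ℝ) (v : D) :
    G a (Q.U 1 GF.one (t • a) v) = Q.U 1 GF.one (t • a) (G a v) := by
  have h1 := Gg.der a (Q.U 1 GF.one (t • a) v) ha
  have h2 := hasDerivAt_iso (U_add one_pos isLor_one (t • a))
    (U_smul one_pos isLor_one (t • a)) (fun v => U_nrm0 (Q := Q) one_pos isLor_one (t • a) v)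
    (Gg.der a v ha)
  have e : (fun s : ℝ => S a s (Q.U 1 GF.one (t • a) v)) =
      fun s : ℝ => Q.U 1 GF.one (t • a) (S a s v) := by
    funext s
    exact Gg.tr a s t v ha
  rw [e] at h1
  have h3 := h1.unique h2
  rw [U_smul one_pos isLor_one] at h3
  have h4 := congrArg (fun w => (-I) • w) h3
  simpa [smul_smul] using h4

/-- derivatives at other points -/
lemma der_all (s : ℝ) (v : D) : HasDerivAt (fun s : ℝ => S a s v) (I • G a (S a s v)) s := by
  have h1 := Gg.der a (S a s v) ha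
  have h2 : HasDerivAt (fun t : ℝ => t - s) 1 s := by
    simpa using (hasDerivAt_id s).sub_const s
  have h3 : HasDerivAt (fun t : ℝ => S a t (S a s v)) (I • G a (S a s v)) (s - s) := by
    rwa [sub_self]
  have h4 := HasDerivAt.scomp (h := fun t : ℝ => t - s) s h3 h2
  rw [one_smul] at h4
  refine h4.congr_of_eventuallyEq (Eventually.of_forall fun t => ?_)
  show S a t v = S a (t - s) (S a s v)
  rw [N.S_add a _ _ _ ha, sub_add_cancel]

end

/-! ### The operators of null rotations and of the dilations preserving the null direction -/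

/-- null rotations -/
def Rn (Q : GF.Theory D) (c : ℝ × ℝ) (v : D) : D := Q.U 1 (nr c) 0 v

/-- dilation combined with a boost -/
def Wd (Q : GF.Theory D) (t : ℝ) (v : D) : D := Q.U (Real.exp t) (mBoost t) 0 v

lemma Rn_add (c : ℝ × ℝ) (v w : D) : Rn Q c (v + w) = Rn Q c v + Rn Q c w :=
  U_add one_pos (isLor_nr c) _ _ _

lemma Rn_smul (c : ℝ × ℝ) (z : ℂ) (v : D) : Rn Q c (z • v) = z • Rn Q c v :=
  U_smul one_pos (isLor_nr c) _ _ _

lemma Rn_inner (c : ℝ × ℝ) (v w : D) : inner ℂ (Rn Q c v) (Rn Q c w) = inner ℂ v w :=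
  Q.U_inner _ _ _ _ _ one_pos (isLor_nr c)

lemma Rn_norm (c : ℝ × ℝ) (v : D) : ‖Rn Q c v‖ = ‖v‖ := U_nrmL one_pos (isLor_nr c) v

lemma Wd_add (t : ℝ) (v w : D) : Wd Q t (v + w) = Wd Q t v + Wd Q t w :=
  U_add (Real.exp_pos t) (isLor_boost t) _ _ _

lemma Wd_smul (t : ℝ) (z : ℂ) (v : D) : Wd Q t (z • v) = z • Wd Q t v :=
  U_smul (Real.exp_pos t) (isLor_boost t) _ _ _

lemma Wd_inner (t : ℝ) (v w : D) : inner ℂ (Wd Q t v) (Wd Q t w) = inner ℂ v w :=
  Q.U_inner _ _ _ _ _ (Real.exp_pos t) (isLor_boost t)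

lemma sim_zero' (s : ℝ) (L : Ix → V) : sim s L 0 (0 : V) = 0 := by
  funext n; simp [sim]

section

variable (N : CNet Q H alg S)
include N

lemma Rn_Rn (c c' : ℝ × ℝ) (v : D) : Rn Q c (Rn Q c' v) = Rn Q (c + c') v := by
  unfold Rn
  rw [N.U_mul 1 _ 0 1 _ 0 v one_pos one_pos (isLor_nr c) (isLor_nr c'), nr_add, one_mul,
    sim_zero']

lemma Rn_zero (v : D) : Rn Q 0 v = v := by
  have h : Rn Q 0 (Rn Q 0 v - v) = 0 := by
    have h1 : Rn Q 0 v - v = Rn Q 0 v + (-1 : ℂ) • v := by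
      rw [neg_one_smul, sub_eq_add_neg]
    rw [h1, Rn_add, Rn_smul, Rn_Rn N, add_zero]
    simp
  have h2 := Rn_norm (Q := Q) 0 (Rn Q 0 v - v)
  rw [h, norm_zero] at h2
  exact sub_eq_zero.1 (norm_eq_zero.1 h2.symm)

lemma Rn_move (c : ℝ × ℝ) (v w : D) : inner ℂ (Rn Q c v) w = inner ℂ v (Rn Q (-c) w) := by
  rw [← Rn_inner (Q := Q) (-c) (Rn Q c v) w, Rn_Rn N, neg_add_cancel, Rn_zero N]

lemma Wd_Wd (s t : ℝ) (v : D) : Wd Q s (Wd Q t v) = Wd Q (s + t) v := by
  unfold Wd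
  rw [N.U_mul _ _ 0 _ _ 0 v (Real.exp_pos s) (Real.exp_pos t) (isLor_boost s) (isLor_boost t),
    boost_add, ← Real.exp_add, sim_zero']

lemma Rn_Wd (c : ℝ × ℝ) (t : ℝ) (v : D) : Rn Q c (Wd Q t v) = Wd Q t (Rn Q (Real.exp t • c) v) := by
  unfold Rn Wd
  rw [N.U_mul 1 _ 0 _ _ 0 v one_pos (Real.exp_pos t) (isLor_nr c) (isLor_boost t),
    N.U_mul _ _ 0 1 _ 0 v (Real.exp_pos t) one_pos (isLor_boost t) (isLor_nr _), nr_boost,
    one_mul, mul_one, sim_zero', sim_zero']

lemma Rn_U1 (c : ℝ × ℝ) (x : Mink) (v : D) :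
    Rn Q c (U1 Q x v) = U1 Q (lam (nr c) x) (Rn Q c v) := by
  have := U_scale N one_pos (isLor_nr c) (-x) v
  rw [one_smul, neg_neg] at this
  have e : -(lam (nr c) (-x)) = lam (nr c) x := by
    have := (lamL (nr c)).map_neg x
    have h2 : lam (nr c) (-x) = -lam (nr c) x := this
    rw [h2, neg_neg]
  rw [e] at this
  exact this.symm

variable (Gg : Gnr Q alg S G)
include Gg

lemma Rn_cont (v : D) : Continuous fun c => Rn Q c v := by
  have h1 : Continuous nr := by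
    refine continuous_pi fun m => continuous_pi fun n => ?_
    fin_cases m <;> fin_cases n <;> simp [nr] <;> fun_prop
  have h2 := (Gg.cont v).comp_continuous h1 (fun c => isLor_nr c)
  exact h2

end

end Vale.Agent.P352.H496

end
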