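import Vale.Agent.P352.H246.Dom10
import Vale.Agent.P352.H15.Top
import Vale.Agent.P352.H746.Chg2

set_option linter.all false

noncomputable section

open MeasureTheory SchwartzMap Complex Filter Topology
open scoped SchwartzMap ComplexConjugate ENNReal LineDeriv ContDiff

namespace Vale.Agent.P352.H496

open GF (Ix V Fn Sch ev pd bar sim bas o)
open H246 H15
open UniformSpace (Completion)

variable {D : Type*} [NormedAddCommGroup D] [InnerProductSpace ℂ D]
variable {Q Q' : GF.Theory D} {T : Ix → Ix → GF.Fld D} {J : Ix → GF.Fld D} {L : GF.Fld D}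
variable {H : D → D} {alg : Set V → Set (D → D)} {S : V → ℝ → D → D} {G : V → D → D}
  {A : (V → V) → D → D} {K : V → D → D}

/-- the Cauchy Schwarz inequality for the generator -/
lemma G_cs (N : CNet Q H alg S) (Gg : Gnr Q alg S G) {a : V} (ha : IsNull a) (u v : D) :
    ‖(inner ℂ u (G a v) : ℂ)‖ ^ 2 ≤ (inner ℂ u (G a u) : ℂ).re * (inner ℂ v (G a v) : ℂ).re := by
  set z : ℂ := inner ℂ u (G a v) with hz
  set α := (inner ℂ u (G a u) : ℂ).re with hα
  set β := (inner ℂ v (G a v) : ℂ).re with hβ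
  have hα0 : 0 ≤ α := G_pos N Gg ha u
  have hβ0 : 0 ≤ β := G_pos N Gg ha v
  have hz' : inner ℂ v (G a u) = conj z := by
    rw [hz, inner_conj_symm]
    exact (G_adj N Gg ha v u).symm
  have key : ∀ t : ℝ, 0 ≤ (‖z‖ ^ 2 * β) * (t * t) + (-2 * ‖z‖ ^ 2) * t + α := by
    intro t
    have h1 := G_pos N Gg ha (u + (-(t : ℂ) * conj z) • v)
    have h2 : (inner ℂ (u + (-(t : ℂ) * conj z) • v) (G a (u + (-(t : ℂ) * conj z) • v)) : ℂ) =
        inner ℂ u (G a u) + (-(t : ℂ) * conj z) * z + (-(t : ℂ) * z) * conj z +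
          ((t : ℂ) * (t : ℂ) * (z * conj z)) * inner ℂ v (G a v) := by
      rw [G_add N Gg ha, G_smul N Gg ha, inner_add_left, inner_add_right, inner_add_right,
        inner_smul_left, inner_smul_left, inner_smul_right, inner_smul_right, hz', ← hz]
      simp only [map_mul, map_neg, conj_ofReal, conj_conj]
      ring
    rw [h2] at h1
    have h3 : z * conj z = ((‖z‖ ^ 2 : ℝ) : ℂ) := by
      rw [mul_conj, normSq_eq_norm_sq]
    have h4 : (-(t : ℂ) * conj z) * z = ((-t * ‖z‖ ^ 2 : ℝ) : ℂ) := by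
      push_cast
      push_cast at h3
      linear_combination (-(t : ℂ)) * h3
    have h5 : (-(t : ℂ) * z) * conj z = ((-t * ‖z‖ ^ 2 : ℝ) : ℂ) := by
      push_cast
      push_cast at h3
      linear_combination (-(t : ℂ)) * h3
    have h6 : ((t : ℂ) * (t : ℂ) * (z * conj z)) = ((t * t * ‖z‖ ^ 2 : ℝ) : ℂ) := by
      rw [h3]
      push_cast
      ring
    rw [h4, h5, h6, add_re, add_re, add_re, ofReal_re, re_ofReal_mul, ← hα, ← hβ] at h1
    linarith
  have h := discrim_le_zero key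
  unfold discrim at h
  by_cases h0 : ‖z‖ ^ 2 = 0
  · rw [h0]
    exact mul_nonneg hα0 hβ0
  · have h1 : 0 < ‖z‖ ^ 2 := lt_of_le_of_ne (sq_nonneg _) (Ne.symm h0)
    have h2 : 0 ≤ 4 * ‖z‖ ^ 2 * (α * β - ‖z‖ ^ 2) := by nlinarith
    have h3 : 0 ≤ α * β - ‖z‖ ^ 2 := by
      by_contra hcon
      push Not at hcon
      have : 4 * ‖z‖ ^ 2 * (α * β - ‖z‖ ^ 2) < 0 := mul_neg_of_pos_of_neg (by positivity) hcon
      linarith
    linarith

/-- a potential of an enlargement -/
lemma isPot_enl (he : IsEnl Q Q') {l : Fn → Completion D} (h : IsPot Q' T l) : IsPot Q T l where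
  lin := h.lin
  cont := h.cont
  trace := fun f hf => by
    rw [← he.vac]
    exact h.trace f hf
  cov := fun s L a f v hs hL hf => by
    rw [← he.U]
    exact h.cov s L a f v hs hL hf

/-- the potential of an improvement field -/
lemma pot_of_L (hT : Q.IsStress T) (he : IsEnl Q Q') (hL : Q'.IsScalar L 2)
    (htr : ∀ f v, GF.IsTest f → GF.tr (GF.improve T L) f v = 0) {l : Fn → Completion D}
    (hl : IsPot Q T l) {f : Fn} (hf : GF.IsTest f) :
    l f = ((L f Q.vac : D) : Completion D) := by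
  obtain ⟨l', h1, -, h3, -⟩ := H246.main (H746.isStress_enl he hT)
  have h4 := h3 L hL htr f hf
  rw [he.vac] at h4
  rw [h4]
  exact ((isPot_enl he h1).unique hl f hf)

/-- a test function with nonvanishing Fourier transform at a null vector -/
lemma exists_ft : ∃ (f : Fn) (p : V), GF.IsTest f ∧ IsNull p ∧
    ∫ x, Complex.exp (Complex.I * GF.mdot p x) * f x ≠ 0 := by
  let φ : ContDiffBump (0 : V) := ⟨1, 2, one_pos, one_lt_two⟩
  have hc : ContDiff ℝ ∞ fun x : V => Complex.exp (-(Complex.I * GF.mdot H15.a0 x)) * (φ x : ℂ) := by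
    have h1 : ContDiff ℝ ∞ fun x : V => (φ x : ℂ) :=
      Complex.ofRealCLM.contDiff.comp φ.contDiff
    have h2 : ContDiff ℝ ∞ fun x : V => (GF.mdot H15.a0 x : ℂ) :=
      Complex.ofRealCLM.contDiff.comp (H846.contDiff_mdot H15.a0)
    exact ((contDiff_const.mul h2).neg.cexp).mul h1
  have hs : HasCompactSupport fun x : V =>
      Complex.exp (-(Complex.I * GF.mdot H15.a0 x)) * (φ x : ℂ) := by
    refine HasCompactSupport.mul_left ?_
    exact φ.hasCompactSupport.comp_left (g := fun t : ℝ => (t : ℂ)) (by simp)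
  refine ⟨_, H15.a0, ⟨hs.toSchwartzMap hc, rfl⟩, npr0.1, ?_⟩
  have h1 : (fun x : V => Complex.exp (Complex.I * GF.mdot H15.a0 x) *
      (Complex.exp (-(Complex.I * GF.mdot H15.a0 x)) * (φ x : ℂ))) = fun x => ((φ x : ℝ) : ℂ) := by
    funext x
    rw [← mul_assoc, ← Complex.exp_add, add_neg_cancel, Complex.exp_zero, one_mul]
  have h3 : ∀ hh : ContDiff ℝ ∞ (fun x : V => Complex.exp (-(Complex.I * GF.mdot H15.a0 x)) * (φ x : ℂ)),
      ev (hs.toSchwartzMap hh) = fun x : V => Complex.exp (-(Complex.I * GF.mdot H15.a0 x)) * (φ x : ℂ) := fun _ => rfl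
  rw [h3, h1, integral_complex_ofReal]
  have h2 : 0 < ∫ x, φ x := φ.integral_pos
  exact_mod_cast h2.ne'

/-- **Theories with a local improvement field satisfy the vacuum criterion.** -/
theorem inv_of_L (hT : Q.IsStress T) (N : CNet Q H alg S) (Gg : Gnr Q alg S G)
    (he : IsEnl Q Q') (hL : Q'.IsScalar L 2)
    (htr : ∀ f v, GF.IsTest f → GF.tr (GF.improve T L) f v = 0) {l : Fn → Completion D}
    (hl : IsPot Q T l) : H746.Inv S l := by
  obtain ⟨f, p, hf, hp, hne⟩ := exists_ft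
  refine H246D.mom_inv hT N Gg hl ⟨H15.a0, npr0.1, f, p, (inner ℂ (L f Q.vac)
    (G H15.a0 (L f Q.vac)) : ℂ).re, hf, hp, hne, fun v => ?_⟩
  rw [pot_of_L hT he hL htr hl hf, Completion.inner_coe]
  exact G_cs N Gg npr0.1 _ _

/-- **The vacuum criterion is necessary for special conformal symmetry.** -/
theorem inv_of_conf (hT : Q.IsStress T) (hJ : IsVirial Q T J) (N : CNet Q H alg S)
    (Gg : Gnr Q alg S G) (h : ConfGen Q A K) (hm : Mom Q T K ∨ Act Q J K)
    {l : Fn → Completion D} (hl : IsPot Q T l) : H746.Inv S l := by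
  obtain ⟨Q', L, h1, h2, h3⟩ := main1 hT hJ h hm
  exact inv_of_L hT N Gg h1 h2 h3.traceless hl

end Vale.Agent.P352.H496

end
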