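import Vale.Agent.P352.H496.Gen9

set_option linter.all false

noncomputable section

open MeasureTheory SchwartzMap Complex Filter Topology
open scoped SchwartzMap ComplexConjugate ENNReal LineDeriv ContDiff FourierTransform

namespace Vale.Agent.P352.H496

open GF (Ix V Fn Sch ev pd bar sim bas o)
open H246
open UniformSpace (Completion)

variable {D : Type*} [NormedAddCommGroup D] [InnerProductSpace ℂ D]
variable {Q : GF.Theory D}
variable {H : D → D} {alg : Set V → Set (D → D)} {S : V → ℝ → D → D} {G : V → D → D}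

/-- a functional that vanishes on the range of the generator is invariant -/
lemma inv_of_gen (N : CNet Q H alg S) (Gg : Gnr Q alg S G) {φ : Completion D} {B : D → D}
    (hB : B ∈ alg Set.univ) {a : V} (ha : IsNull a) (h0 : ∀ v, pt φ B (G a v) = 0) (s : ℝ)
    (v : D) : pt φ B (S a s v) = pt φ B v := by
  obtain ⟨Y, hY, hadj⟩ := N.adj _ B hB
  have hX : (fun v => B (G a v)) ∈ alg Set.univ := N.mul _ _ hB _ (Gg.mem a ha)
  obtain ⟨C, m, hC⟩ := N.S_bdd a ha _ hX v
  have hC0 : 0 ≤ C := by simpa using (norm_nonneg _).trans (hC 0)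
  set K : ℝ := ‖B (S a s v)‖ + C * (1 + |s|) ^ m * |s| + ‖B v‖ with hK
  refine eq_of_small (K := K) fun ε hε _ => ?_
  obtain ⟨w, hw⟩ := exists_near φ hε
  have e1 : ∀ x : D, inner ℂ (w : Completion D) ((B x : D) : Completion D) =
      inner ℂ (Y w) x := by
    intro x
    rw [Completion.inner_coe]
    exact (Adj.symm hadj w x).symm
  have e2 : ∀ x : D, ‖pt φ B x - inner ℂ (Y w) x‖ ≤ ε * ‖B x‖ := by
    intro x
    rw [← e1]
    unfold pt
    rw [← inner_sub_left]
    refine (norm_inner_le_norm _ _).trans ?_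
    rw [Completion.norm_coe]
    gcongr
  have hder : ∀ t : ℝ, HasDerivAt (fun t => inner ℂ (Y w) (S a t v))
      (inner ℂ (Y w) (I • G a (S a t v))) t := by
    intro t
    have h1 := (hasDerivAt_const t (Y w)).inner ℂ (der_all N Gg ha t v)
    simp only [inner_zero_left, add_zero] at h1
    exact h1
  have hb : ∀ t ∈ Set.Icc (-|s|) |s|, ‖inner ℂ (Y w) (I • G a (S a t v))‖ ≤
      ε * (C * (1 + |s|) ^ m) := by
    intro t ht
    rw [inner_smul_right, norm_mul, norm_I, one_mul]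
    have h1 := e2 (G a (S a t v))
    rw [h0, zero_sub, norm_neg] at h1
    refine h1.trans ?_
    have h2 := hC t
    have h3 : |t| ≤ |s| := abs_le.2 ht
    calc ε * ‖B (G a (S a t v))‖ ≤ ε * (C * (1 + |t|) ^ m) := by gcongr
      _ ≤ _ := by gcongr
  have h1 := Convex.norm_image_sub_le_of_norm_hasDerivWithin_le
    (f := fun t => inner ℂ (Y w) (S a t v)) (fun t ht => (hder t).hasDerivWithinAt) hb
    (convex_Icc _ _) (x := 0) (y := s) ⟨by simp, by simp⟩ ⟨neg_abs_le s, le_abs_self s⟩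
  simp only [S_zero N.toNet ha, sub_zero, Real.norm_eq_abs] at h1
  have h2 := e2 (S a s v)
  have h3 := e2 v
  calc ‖pt φ B (S a s v) - pt φ B v‖ = ‖(pt φ B (S a s v) - inner ℂ (Y w) (S a s v)) +
        (inner ℂ (Y w) (S a s v) - inner ℂ (Y w) v) - (pt φ B v - inner ℂ (Y w) v)‖ := by
        congr 1; ring
    _ ≤ ‖pt φ B (S a s v) - inner ℂ (Y w) (S a s v)‖ +
        ‖inner ℂ (Y w) (S a s v) - inner ℂ (Y w) v‖ + ‖pt φ B v - inner ℂ (Y w) v‖ :=
        (norm_sub_le _ _).trans (add_le_add (norm_add_le _ _) le_rfl)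
    _ ≤ ε * ‖B (S a s v)‖ + ε * (C * (1 + |s|) ^ m) * |s| + ε * ‖B v‖ := by gcongr
    _ = K * ε := by rw [hK]; ring

/-- Vanishing of the values on the vectors `G a Θ(f) vac` implies invariance -/
theorem inv_of_kappa {T : Ix → Ix → GF.Fld D} (hT : Q.IsStress T) (N : CNet Q H alg S)
    (Gg : Gnr Q alg S G) {l : Fn → Completion D} (hl : IsPot Q T l)
    (hk : ∀ f c, GF.IsTest f → Val l (G (nu (-1)) (GF.tr T f Q.vac)) c → c = 0) :
    ∀ a s v c c', IsNull a → Val l v c → Val l (S a s v) c' → c' = c := by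
  obtain ⟨μ, Sy, two⟩ := (PField.tr hT).exists_sym
  obtain ⟨φ, n, hrep, hval⟩ := exists_point_val hT Sy two N.toNet
  have hp := isPot_lamF Sy (PField.tr hT) two
  have hll : ∀ f, GF.IsTest f → l f = lamF Sy (PField.tr hT) f := fun f hf => hp.unique hl f hf
  have hv := fun v c => val_iff hT Sy N.toNet hrep hll v c
  have hB := pw1_mem N.toNet n
  have hq := pt_cov hT Sy two N hrep
  have ha0 : IsNull (nu (-1)) := null_m
  have hk' : ∀ F : 𝓢(Mink, ℂ), ∫ p, (H246.im p : ℂ) *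
      jd Sy (PField.tr hT) (G (nu (-1)) (Tv Q T F)) p ∂μ = 0 := by
    intro F
    have h1 := hk (fl F) _ (isTest_fl F) ((hv _ _).2 rfl)
    have h2 := hval (G (nu (-1)) (Tv Q T F))
    have h3 : pt φ (pw1 H n) (G (nu (-1)) (Tv Q T F)) = 0 := h1
    rw [h3] at h2
    have h4 : (-(1 / 3 : ℂ)) ≠ 0 := by norm_num
    exact (mul_eq_zero.1 h2.symm).resolve_left h4
  have hC := stepC hT Sy two N Gg hk'
  have hinv : ∀ s v, pt φ (pw1 H n) (S (nu (-1)) s v) = pt φ (pw1 H n) v := by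
    intro s v
    refine inv_of_gen N Gg hB ha0 (fun v => ?_) s v
    rw [hval, hC, mul_zero]
  intro b s v c c' hb h1 h2
  rw [(hv _ _).1 h1, (hv _ _).1 h2]
  obtain ⟨θ', ψ', hrot'⟩ := exists_rot hb
  have hL' := isLor_Rt θ' ψ'
  have hr' : 0 < (b 0)⁻¹ := inv_pos.2 hb.2
  set w := Q.U 1 (linv (Rt θ' ψ')) 0 v with hw
  have hvw : Q.U 1 (Rt θ' ψ') 0 w = v := U_linv N hL' v
  have h3 := N.S_cov 1 (Rt θ' ψ') (nu (-1)) (s / (b 0)⁻¹) w one_pos hL' ha0
  rw [hrot', N.S_scale b _ _ _ hb hr', hvw, div_one, mul_div_cancel₀ _ hr'.ne'] at h3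
  rw [← h3, hq 1 _ _ one_pos hL', hinv, ← hq 1 _ _ one_pos hL', hvw]

end Vale.Agent.P352.H496

end
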