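import Vale.Agent.P352.H496.Defs3
import Vale.Agent.P352.H496.Crit2

set_option linter.all false

noncomputable section

open MeasureTheory Filter Topology
open scoped ComplexConjugate

namespace Vale.Agent.P352.H496

open GF (Ix V Fn Sch ev pd bar sim bas o)
open H246
open UniformSpace (Completion)

variable {D : Type*} [NormedAddCommGroup D] [InnerProductSpace ℂ D]
variable {Q : GF.Theory D} {alg : Set V → Set (D → D)} {S : V → ℝ → D → D} {G : V → D → D}

/-- the null deformations commute with the translations in the direction `a` -/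
theorem Gnr.tr (Gg : Gnr Q alg S G) (a : V) (s t : ℝ) (v : D) (ha : IsNull a) :
    S a s (Q.U 1 GF.one (t • a) v) = Q.U 1 GF.one (t • a) (S a s v) := by
  have h1 : GF.mdot a (t • a) = 0 := by
    have h2 : GF.mdot a (t • a) = t * GF.mdot a a := by
      simp only [gf_mdot, Pi.smul_apply, smul_eq_mul]; ring
    rw [h2, ha.1, mul_zero]
  have h3 : ∀ z, GF.mdot (t • a) z = t * GF.mdot a z := fun z => by
    simp only [gf_mdot, Pi.smul_apply, smul_eq_mul]; ring
  have h4 : GF.mdot (t • a) (t • a) = 0 := by rw [h3, h1, mul_zero]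
  have h := Gg.ptr a s (t • a) GF.one v ha h1 isLor_one (fun z => by
    rw [sim_one, h4, h3]
    funext n
    simp only [Pi.zero_apply, zero_add, Pi.sub_apply, Pi.add_apply, Pi.smul_apply, smul_eq_mul]
    ring)
  rw [h, h4]
  congr 2
  have e : -(s * 0) • a = (0 : V) := by simp
  rw [e]
  exact U1_zero_all (Q := Q) v

end Vale.Agent.P352.H496

end
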