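import Vale.Agent.P352.H496.Fieldw
import Vale.Agent.P352.H496.Point
import Mathlib.Analysis.Distribution.AEEqOfIntegralContDiff

set_option linter.all false

noncomputable section

open MeasureTheory SchwartzMap Complex Filter Topology
open scoped SchwartzMap ComplexConjugate ENNReal LineDeriv

namespace Vale.Agent.P352.H496

open GF (Ix V Fn Sch ev pd bar sim bas o)
open H246
open UniformSpace (Completion)

/-- continuous functions are determined by their integrals against test functions -/
lemma fund {W : Set Mink} (hW : IsOpen W) {h : Mink → ℂ} (hc : Continuous h)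
    (hint : ∀ F : 𝓢(Mink, ℂ), IsTest W F → ∫ x, F x * h x = 0) : ∀ x ∈ W, h x = 0 := by
  have h1 : ∀ᵐ x ∂(volume : Measure Mink), x ∈ W → h x = 0 := by
    refine hW.ae_eq_zero_of_integral_contDiff_smul_eq_zero
      (hc.locallyIntegrable.locallyIntegrableOn W) fun g hg hgc hgW => ?_
    set G : Mink → ℂ := fun x => (g x : ℂ) with hG
    have hGs : ContDiff ℝ ((⊤ : ℕ∞) : WithTop ℕ∞) G := Complex.ofRealCLM.contDiff.comp hg
    have hGc : HasCompactSupport G := hgc.comp_left (g := fun r : ℝ => (r : ℂ)) ofReal_zero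
    have ht : tsupport G ⊆ tsupport g := by
      apply closure_mono
      intro x hx hgx
      apply hx
      simp [hG, hgx]
    have h2 := hint (hGc.toSchwartzMap hGs) ⟨hGc, ht.trans hgW⟩
    have h3 : ∀ x, (hGc.toSchwartzMap hGs : 𝓢(Mink, ℂ)) x * h x = g x • h x := by
      intro x
      rw [real_smul]
      rfl
    simpa only [h3] using h2
  have h2 : h =ᵐ[(volume : Measure Mink).restrict W] fun _ => 0 := by
    rw [Filter.EventuallyEq, ae_restrict_iff' hW.measurableSet]
    exact h1
  exact Measure.eqOn_open_of_ae_eq h2 hW hc.continuousOn continuousOn_const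

variable {D : Type*} [NormedAddCommGroup D] [InnerProductSpace ℂ D]
variable {Q : GF.Theory D}
variable {H : D → D} {alg : Set V → Set (D → D)} {S : V → ℝ → D → D}

/-- the standard null vectors -/
def nu (r : ℝ) : V := ![1, r, 0, 0]

lemma isNull_nu {r : ℝ} (hr : r = 1 ∨ r = -1) : IsNull (nu r) := by
  rcases hr with rfl | rfl
  · exact ⟨by simp [gm, nu], by simp [nu, o]⟩
  · exact ⟨by simp [gm, nu], by simp [nu, o]⟩

lemma mem_wedge_iff (x : Mink) : x ∈ wedge ↔ x.ofLp ∈ Wdg (nu 1) (nu (-1)) 0 := by
  unfold Wdg wedge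
  simp only [Set.mem_setOf_eq, sub_zero, gm, nu, abs_lt]
  constructor
  · rintro ⟨h1, h2⟩
    simp
    constructor <;> linarith
  · rintro ⟨h1, h2⟩
    simp at h1 h2
    constructor <;> linarith

section

variable {μ : Measure Mink} {T : Ix → Ix → GF.Fld D}
variable (hT : Q.IsStress T) (Sy : SymMeasure μ 4) (two : Two Q (GF.tr T) μ)
variable (N : Net Q H alg S)

include hT N in
lemma tr_comm {X X' : D → D} (hX : X ∈ alg (Wdg (nu (-1)) (nu 1) 0)) (hadj : Adj X X')
    {F : 𝓢(Mink, ℂ)} (hF : IsTest wedge F) (v : D) :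
    GF.tr T (fl F) (X v) = X (GF.tr T (fl F) v) := by
  have h1 : ∀ m, T m m (fl F) (X v) = X (T m m (fl F) v) := by
    intro m
    have hin : In (Wdg (nu 1) (nu (-1)) 0) (fl F) := by
      refine In_fl.2 ⟨hF.1, fun x hx => ?_⟩
      exact (mem_wedge_iff x).1 (hF.2 hx)
    have h2 := N.fld _ (T m m) (fl F) (Q.bose_fld _ (hT.bose m m)) hin
    have hp : 0 < GF.mdot (nu (-1)) (nu 1) := by simp [gm, nu]
    exact (N.loc _ _ 0 (isNull_nu (Or.inr rfl)) (isNull_nu (Or.inl rfl)) hp X hX _ h2 v).symm
  unfold GF.tr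
  have hsum : ∀ (s : Finset Ix) (w : Ix → D), X (∑ m ∈ s, w m) = ∑ m ∈ s, X (w m) := by
    intro s w
    induction s using Finset.induction_on with
    | empty =>
      have := hadj.smul 0 0
      simpa using this
    | insert a s ha ih => rw [Finset.sum_insert ha, Finset.sum_insert ha, hadj.add, ih]
  rw [hsum]
  refine Finset.sum_congr rfl fun m _ => ?_
  rw [h1, hadj.smul]

include N two in
/-- the smeared wedge relation -/
lemma smeared {X X' : D → D} (hX : X ∈ alg (Wdg (nu (-1)) (nu 1) 0)) (hadj : Adj X X')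
    {F : 𝓢(Mink, ℂ)} (hF : IsTest wedge F) :
    inner ℂ ((X' Q.vac : D) : Completion D) (lamV Sy (PField.tr hT) F) =
      inner ℂ (lamV Sy (PField.tr hT) (conjS F)) ((X Q.vac : D) : Completion D) := by
  set hA := PField.tr hT with hAd
  set Jd := ContinuousLinearMap.adjoint (J Sy hA) with hJd
  set x := Jd ((X' Q.vac : D) : Completion D) with hx
  set y := Jd ((X Q.vac : D) : Completion D) with hy
  have ex : ∀ φ, inner ℂ ((X' Q.vac : D) : Completion D) (J Sy hA φ) =
      inner ℂ x φ := fun φ => (ContinuousLinearMap.adjoint_inner_left _ _ _).symm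
  have ey : ∀ φ, inner ℂ (J Sy hA φ) ((X Q.vac : D) : Completion D) =
      inner ℂ φ y := fun φ => (ContinuousLinearMap.adjoint_inner_right _ _ _).symm
  have hxm : MemLp (fun p => conj (x p)) 2 μ := (Lp.memLp x).star
  have e1 : ∀ f, inner ℂ x (toL Sy.good.temp f) = ∫ p, mft f p * conj (x p) ∂μ := by
    intro f
    rw [L2.inner_def]
    apply integral_congr_ae
    filter_upwards [coeFn_toL Sy.good.temp f] with p hp
    rw [hp]
    simp
  have e2 : ∀ f, inner ℂ x (toI Sy f) = ∫ p, mft f p * ((H246.im p : ℂ) * conj (x p)) ∂μ := by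
    intro f
    rw [L2.inner_def]
    apply integral_congr_ae
    filter_upwards [coeFn_toI Sy f] with p hp
    rw [hp]
    simp only [RCLike.inner_apply]
    ring
  have key := wedge_im Sy hxm (Lp.memLp y) (fun g hg => by
    rw [← e1, ← inner_toL Sy.good.temp, ← ex, ← ey, J_toL Sy hA two, J_toL Sy hA two,
      hA.kap_apply, hA.kap_apply, Completion.inner_coe, Completion.inner_coe,
      hadj.symm, ← tr_comm hT N hX hadj hg, hA.herm, conjS_conjS]) F hF
  rw [← e2, ← inner_toI Sy] at key
  rw [lamV_apply, lamV_apply, inner_smul_right, inner_smul_left, ex, ey, key]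
  simp only [map_neg, map_div₀, map_one, map_ofNat]

variable {φ : Completion D} {n : ℕ}

include N two in
/-- the reflected relation for the identity, on the standard wedge -/
theorem base_rel (hrep : ∀ (F : 𝓢(Mink, ℂ)) (v : D),
    inner ℂ (lamV Sy (PField.tr hT) F) (v : Completion D) =
      ∫ x : Mink, conj (F x) * inner ℂ φ ((pw1 H n (U1 Q (-x) v) : D) : Completion D)) :
    Rel Q alg φ (pw1 H n) (fun v => v) (fun v => v) (nu (-1)) (nu 1) := by
  intro X hX X' hadj
  have hB := pw1_mem N n
  set G : Mink → ℂ := fun x => inner ℂ φ ((pw1 H n (U1 Q (-x) (X Q.vac)) : D) : Completion D)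
    with hG
  set G' : Mink → ℂ := fun x => inner ℂ φ ((pw1 H n (U1 Q (-x) (X' Q.vac)) : D) : Completion D)
    with hG'
  have hcont : ∀ v : D, Continuous fun x : Mink =>
      inner ℂ φ ((pw1 H n (U1 Q (-x) v) : D) : Completion D) := fun v =>
    (cont_op N φ hB v).comp (by fun_prop : Continuous fun x : Mink => (-x).ofLp)
  have hzero : ∀ x ∈ wedge, G x - conj (G' x) = 0 := by
    refine fund isOpen_wedge ((hcont _).sub (Complex.continuous_conj.comp (hcont _)))
      fun F hF => ?_
    have h1 := smeared hT Sy two N hX hadj hF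
    rw [hrep, ← inner_conj_symm, hrep, ← integral_conj] at h1
    have i1 : Integrable fun x => F x * G x := by
      refine Continuous.integrable_of_hasCompactSupport (F.continuous.mul (hcont _)) ?_
      exact hF.1.mul_right
    have i2 : Integrable fun x => F x * conj (G' x) := by
      refine Continuous.integrable_of_hasCompactSupport
        (F.continuous.mul (Complex.continuous_conj.comp (hcont _))) ?_
      exact hF.1.mul_right
    have h2 : ∫ x, F x * (G x - conj (G' x)) = (∫ x, F x * G x) - ∫ x, F x * conj (G' x) := by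
      rw [← integral_sub i1 i2]
      congr 1
      ext x
      ring
    rw [h2, sub_eq_zero]
    have h3 : ∫ x, F x * G x = ∫ x, conj (conjS F x) * G x := by
      congr 1
      ext x
      simp
    have h4 : ∫ x, F x * conj (G' x) = ∫ x, conj (conj (F x) * G' x) := by
      congr 1
      ext x
      simp
    rw [h3, h4]
    exact h1.symm
  have h0 : G 0 - conj (G' 0) = 0 := by
    have hcl : (0 : Mink) ∈ closure wedge := by
      have ht : Tendsto (fun j : ℕ => (1 / ((j : ℝ) + 1)) • eb 1) atTop (𝓝 (0 : Mink)) := by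
        have := (tendsto_one_div_add_atTop_nhds_zero_nat (𝕜 := ℝ)).smul_const (eb 1)
        rwa [zero_smul] at this
      refine mem_closure_of_tendsto ht (Eventually.of_forall fun j => ?_)
      show |((1 / ((j : ℝ) + 1)) • eb 1 : Mink) 0| < ((1 / ((j : ℝ) + 1)) • eb 1 : Mink) 1
      have : (0 : ℝ) < 1 / ((j : ℝ) + 1) := by positivity
      simpa [eb] using this
    have hcl2 : IsClosed {x : Mink | G x - conj (G' x) = 0} :=
      isClosed_eq ((hcont _).sub (Complex.continuous_conj.comp (hcont _))) continuous_const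
    exact closure_minimal hzero hcl2 hcl
  simp only [hG, hG', neg_zero, U1_zero_all] at h0
  exact sub_eq_zero.1 h0

include N two in
/-- hermiticity of the point like functional on the causal complement of the origin -/
theorem point_herm (hrep : ∀ (F : 𝓢(Mink, ℂ)) (v : D),
    inner ℂ (lamV Sy (PField.tr hT) F) (v : Completion D) =
      ∫ x : Mink, conj (F x) * inner ℂ φ ((pw1 H n (U1 Q (-x) v) : D) : Completion D))
    (inv : ∀ a, IsNull a → ∀ s v, pt φ (pw1 H n) (S a s v) = pt φ (pw1 H n) v)
    {X X' : D → D} (hX : Al Q Sp0 X X') :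
    pt φ (pw1 H n) (X Q.vac) = conj (pt φ (pw1 H n) (X' Q.vac)) := by
  have hB := pw1_mem N n
  have hBU : ∀ (x : V) v, pw1 H n (Q.U 1 GF.one x v) = Q.U 1 GF.one x (pw1 H n v) :=
    fun x v => pw1_comm N n (WithLp.toLp 2 x) v
  have hp : 0 < GF.mdot (nu (-1)) (nu 1) := by simp [gm, nu]
  have base : Rel0 Q alg φ (pw1 H n) (fun v => v) (fun v => v) := by
    intro a b ha hb hab
    exact rel_all N hB hBU inv (N.one _) (N.one _) (isNull_nu (Or.inr rfl))
      (isNull_nu (Or.inl rfl)) ha hb hp hab (base_rel hT Sy two N hrep)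
  exact herm_point N hB hBU inv base hX

end

end Vale.Agent.P352.H496

end
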