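import Vale.Agent.P352.H496.CoreJ3
import Vale.Agent.P352.H496.Gen10
import Vale.Agent.P352.H846.RayNull
import Vale.Agent.P352.H246.Rc10
import Vale.Agent.P352.H746.Glue

set_option linter.all false

noncomputable section

open MeasureTheory SchwartzMap Complex Filter Topology
open scoped SchwartzMap ComplexConjugate ENNReal LineDeriv ContDiff FourierTransform

namespace Vale.Agent.P352.H496

open GF (Ix V Fn Sch ev pd bar sim bas o)
open H246
open UniformSpace (Completion)

variable {D : Type*} [NormedAddCommGroup D] [InnerProductSpace ℂ D]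
variable {Q : GF.Theory D} {T : Ix → Ix → GF.Fld D}
variable {H : D → D} {alg : Set V → Set (D → D)} {S : V → ℝ → D → D} {G : V → D → D}
variable {J : Ix → GF.Fld D}

lemma locfin_of {μ : Measure Mink} (h : IsFiniteMeasureOnCompacts μ) :
    IsLocallyFiniteMeasure μ :=
  ⟨fun x => ⟨Metric.closedBall x 1, Metric.closedBall_mem_nhds x one_pos,
      (isCompact_closedBall x 1).measure_lt_top⟩⟩

lemma null0 : IsNull (nu (-1)) := null_m

/-- the light-like component of the current vanishes on the range of the generator -/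
theorem n0_of (N : CNet Q H alg S) (Gg : Gnr Q alg S G) (hJ : VFld Q J)
    (hB0 : ∀ g : 𝓢(Mink, ℂ), H246R.PC (mftS g) →
      ∑ m, (c0 m : ℂ) * H755.vj Q J m (G (nu (-1)) (Jv Q J g)) = 0) (v : D) :
    ∑ m, (c0 m : ℂ) * H755.vj Q J m (G (nu (-1)) v) = 0 := by
  have hf : ∀ m, Q.fld (J m) := fun m => Q.bose_fld _ (hJ.bose m)
  obtain ⟨μ, K, w, n, hrep⟩ := H746.exists_kc N.toNet hf c0
  have hB := pw1_mem N.toNet n
  have hval : ∀ v, ∑ m, (c0 m : ℂ) * H755.vj Q J m v = ∫ p, K.jd v p ∂μ := by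
    intro v
    rw [H746.sum_vj N.toNet hf hB hrep, pt_jd K N.toNet hB hrep]
  have hpos : ∀ᵐ p ∂μ, 0 < mass2 p := H846.ray_null K.fin K.cone
    (fun σ r L hσ hr hL hab => map_Jv hJ hf K hσ hr hL hab)
  have C : Cmp Q H μ (fun y p => K.jd y p) :=
    { loc := locfin_of K.fin
      cone := K.cone
      int := fun y => int_jd K N.toNet y
      zero := fun y => by
        filter_upwards [hpos] with p hp h
        exact absurd hp (not_lt.2 h)
      hU := fun a y => K.jd_U1 a y
      hadd := fun x y => by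
        rw [K.jd_add]
        exact Lp.coeFn_add _ _
      hsmul := fun c y => by
        rw [K.jd_smul]
        exact Lp.coeFn_smul _ _
      hH := fun y => K.jd_H N.toNet y }
  rw [hval]
  refine C.main N Gg (fun ρ hρ g θ B => ?_) v
  obtain ⟨F, hF, hPC⟩ := exists_F2 hρ B
  refine ⟨Jv Q J F, fun t y => L2J hJ hf K hpos N.toNet hρ B hF t y, fun t => ?_⟩
  rw [← hval, U1_Jv hJ]
  exact hB0 _ (hPC _)

/-- (N0): for every vector -/
theorem n0 (N : CNet Q H alg S) (Gg : Gnr Q alg S G) (hJ : IsVirial Q T J) (v : D) :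
    H746.vc Q J (nu (-1)) (G (nu (-1)) v) = 0 :=
  n0_of N Gg hJ.vfld (fun g hg => H246R.aJ_zero N Gg.der Gg.mem hJ g hg) v

/-! ### Theorem E with the hypothesis in the open forward cone -/

lemma exists_FP {ρ : ℝ → ℂ} (hρ : Cut ρ) {g θ : ℝ → ℝ} (B : Bmp g θ) :
    ∃ F : 𝓢(Mink, ℂ), (∀ p, mft F p = prof ρ g θ p) ∧ ∀ a : Mink, H246R.PC (mftS (tauS a F)) := by
  obtain ⟨F, hF⟩ := exists_F hρ B
  refine ⟨F, hF, fun a => ?_⟩
  obtain ⟨a', R, ha, hne⟩ := prof_ne hρ B
  have h2 : ∀ p, mftS (tauS a F) p ≠ 0 → a' ≤ pm p ∧ 1 / 4 ≤ mass2 p ∧ ‖p‖ ≤ R := by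
    intro p hp
    rw [mftS_apply, mft_tauS, hF] at hp
    exact hne p (right_ne_zero_of_mul hp)
  have hcl : IsClosed {p : Mink | a' ≤ pm p ∧ 1 / 4 ≤ mass2 p ∧ ‖p‖ ≤ R} :=
    (isClosed_le continuous_const continuous_pm).inter
      ((isClosed_le continuous_const continuous_mass2).inter
        (isClosed_le continuous_norm continuous_const))
  have hts : tsupport (mftS (tauS a F)) ⊆
      {p : Mink | a' ≤ pm p ∧ 1 / 4 ≤ mass2 p ∧ ‖p‖ ≤ R} :=
    closure_minimal (fun p hp => h2 p hp) hcl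
  refine ⟨?_, fun p hp => ?_⟩
  · refine (isCompact_closedBall (0 : Mink) R).of_isClosed_subset (isClosed_tsupport _)
      fun p hp => ?_
    rw [Metric.mem_closedBall, dist_zero_right]
    exact (hts hp).2.2
  · obtain ⟨k1, k2, -⟩ := hts hp
    exact ⟨lt_of_lt_of_le ha k1, lt_of_lt_of_le (by norm_num) k2⟩

/-- Vanishing of the values on the vectors `G a Θ(f) vac` implies invariance -/
theorem inv_of_kappaPC (hT : Q.IsStress T) (N : CNet Q H alg S)
    (Gg : Gnr Q alg S G) {l : Fn → Completion D} (hl : IsPot Q T l)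
    (hk : ∀ f : 𝓢(Mink, ℂ), H246R.PC (mftS f) →
      H746.vl l (G (nu (-1)) (GF.tr T (fl f) Q.vac)) = 0) :
    ∀ a s v c c', IsNull a → Val l v c → Val l (S a s v) c' → c' = c := by
  obtain ⟨μ, Sy, two⟩ := (PField.tr hT).exists_sym
  obtain ⟨φ, n, hrep, hval⟩ := exists_point_val hT Sy two N.toNet
  have hp := isPot_lamF Sy (PField.tr hT) two
  have hll : ∀ f, GF.IsTest f → l f = lamF Sy (PField.tr hT) f := fun f hf => hp.unique hl f hf
  have hv := fun v c => val_iff hT Sy N.toNet hrep hll v c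
  have hvl : ∀ v, H746.vl l v = pt φ (pw1 H n) v := by
    intro v
    have h1 : Val l v (H746.vl l v) := Classical.epsilon_spec ⟨_, (hv v _).2 rfl⟩
    exact (hv _ _).1 h1
  have hB := pw1_mem N.toNet n
  have hq := pt_cov hT Sy two N hrep
  have ha0 : IsNull (nu (-1)) := null_m
  have C : Cmp Q H μ (fun y p => (H246.im p : ℂ) * jd Sy (PField.tr hT) y p) :=
    { loc := locfin Sy
      cone := ae_cone Sy.good
      int := fun y => int_im hT Sy two N.toNet y
      zero := fun y => im_zero Sy _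
      hU := fun a y => by
        filter_upwards [jd_U1 Sy (PField.tr hT) two a y] with p h
        rw [h]
        ring
      hadd := fun x y => by
        rw [jd_add]
        filter_upwards [Lp.coeFn_add (jd Sy (PField.tr hT) x) (jd Sy (PField.tr hT) y)] with p h
        rw [h, Pi.add_apply]
        ring
      hsmul := fun c y => by
        rw [jd_smul]
        filter_upwards [Lp.coeFn_smul c (jd Sy (PField.tr hT) y)] with p h
        rw [h, Pi.smul_apply, smul_eq_mul]
        ring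
      hH := fun y => by
        filter_upwards [jd_pw1 Sy (PField.tr hT) two N.toNet 1 y,
          Lp.coeFn_add (jd Sy (PField.tr hT) y) (jd Sy (PField.tr hT) (H y))] with p h1 h2
        rw [pow_one] at h1
        have e : jd Sy (PField.tr hT) (y + H y) p =
            (1 + (p 0 : ℂ)) * jd Sy (PField.tr hT) y p := h1
        rw [jd_add, h2, Pi.add_apply] at e
        linear_combination (H246.im p : ℂ) * e }
  have hpt : ∀ v, ∫ p, (H246.im p : ℂ) * jd Sy (PField.tr hT) (G (nu (-1)) v) p ∂μ = 0 := by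
    refine C.main N Gg (fun ρ hρ g θ B => ?_)
    obtain ⟨F, hF, hPC⟩ := exists_FP hρ B
    refine ⟨Tv Q T F, fun t y => L1 hT Sy two N.toNet hρ B hF t y, fun t => ?_⟩
    have h1 := hk _ (hPC (t • a0))
    rw [hvl, hval] at h1
    rw [U1_Tv hT]
    have h4 : (-(1 / 3 : ℂ)) ≠ 0 := by norm_num
    exact (mul_eq_zero.1 h1).resolve_left h4
  have hinv : ∀ s v, pt φ (pw1 H n) (S (nu (-1)) s v) = pt φ (pw1 H n) v := by
    intro s v
    refine inv_of_gen N Gg hB ha0 (fun v => ?_) s v
    rw [hval, hpt, mul_zero]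
  intro b s v c c' hb h1 h2
  rw [(hv _ _).1 h1, (hv _ _).1 h2]
  obtain ⟨θ', ψ', hrot'⟩ := exists_rot hb
  have hL' := isLor_Rt θ' ψ'
  have hr' : 0 < (b 0)⁻¹ := inv_pos.2 hb.2
  set w := Q.U 1 (linv (Rt θ' ψ')) 0 v with hw
  have hvw : Q.U 1 (Rt θ' ψ') 0 w = v := U_linv N hL' v
  have h3 := N.S_cov 1 (Rt θ' ψ') (nu (-1)) (s / (b 0)⁻¹) w one_pos hL' ha0
  rw [hrot', N.S_scale b _ _ _ hb hr', hvw, div_one, mul_div_cancel₀ _ hr'.ne'] at h3
  rw [← h3, hq 1 _ _ one_pos hL', hinv, ← hq 1 _ _ one_pos hL', hvw]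

end Vale.Agent.P352.H496

end
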