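import Vale.Agent.P352.H496.Gen9

set_option linter.all false

noncomputable section

open MeasureTheory SchwartzMap Complex Filter Topology
open scoped SchwartzMap ComplexConjugate ENNReal LineDeriv ContDiff FourierTransform

namespace Vale.Agent.P352.H496

open GF (Ix V Fn Sch ev pd bar sim bas o)
open H246
open UniformSpace (Completion)

variable {D : Type*} [NormedAddCommGroup D] [InnerProductSpace ℂ D]
variable {Q : GF.Theory D}
variable {H : D → D} {alg : Set V → Set (D → D)} {S : V → ℝ → D → D} {G : V → D → D}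

/-- the components of the vectors along a point like functional, in momentum space -/
structure Cmp (Q : GF.Theory D) (H : D → D) (μ : Measure Mink) (h : D → Mink → ℂ) : Prop where
  loc : IsLocallyFiniteMeasure μ
  cone : ∀ᵐ p ∂μ, p ∈ fwdCone
  int : ∀ y, Integrable (h y) μ
  zero : ∀ y, ∀ᵐ p ∂μ, mass2 p ≤ 0 → h y p = 0
  hU : ∀ a y, h (U1 Q a y) =ᵐ[μ] fun p => chr a p * h y p
  hadd : ∀ x y, h (x + y) =ᵐ[μ] fun p => h x p + h y p
  hsmul : ∀ (c : ℂ) y, h (c • y) =ᵐ[μ] fun p => c * h y p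
  hH : ∀ y, h (H y) =ᵐ[μ] fun p => (p 0 : ℂ) * h y p

section

variable {μ : Measure Mink} {h : D → Mink → ℂ} (K : Cmp Q H μ h)

include K in
lemma Cmp.dlp (w : Mink) (n : ℕ) (y : D) : h (dlp Q w n y) =ᵐ[μ]
    fun p => (chr w p - 1) ^ n * h y p := by
  induction n with
  | zero => exact Eventually.of_forall fun p => by simp [H496.dlp]
  | succ n ih =>
    have e : H496.dlp Q w (n + 1) y = U1 Q w (H496.dlp Q w n y) +
        (-1 : ℂ) • H496.dlp Q w n y := by
      rw [neg_one_smul, ← sub_eq_add_neg]; rfl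
    rw [e]
    filter_upwards [ih, K.hU w (H496.dlp Q w n y),
      K.hadd (U1 Q w (H496.dlp Q w n y)) ((-1 : ℂ) • H496.dlp Q w n y),
      K.hsmul (-1 : ℂ) (H496.dlp Q w n y)] with p h1 h2 h3 h4
    rw [h3, h2, h4, h1, pow_succ]
    ring

variable (N : CNet Q H alg S) (Gg : Gnr Q alg S G)

include K N Gg in
/-- the main step: the logarithmic cutoff -/
theorem Cmp.stepA {ρ : ℝ → ℂ} (hρ : Cut ρ) {g θ : ℝ → ℝ} (B : Bmp g θ) {u : D}
    (hu : ∀ (t : ℝ) y, (Integrable fun c => inner ℂ (Rn Q c (Wd Q t u)) y) ∧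
      ∫ c, inner ℂ (Rn Q c (Wd Q t u)) y =
        ∫ p, conj (ρ (pm p)) * ((θ (Real.exp t ^ 2 * mass2 p) : ℂ) * h y p) ∂μ)
    (hk : ∀ t : ℝ, ∫ p, h (G (nu (-1)) (U1 Q (t • a0) u)) p ∂μ = 0) (v : D)
    (hv : Integrable fun c => inner ℂ (Rn Q c v) (G (nu (-1)) v)) :
    ∫ p, conj (ρ (pm p)) * h (G (nu (-1)) v) p ∂μ = 0 := by
  have hloc := K.loc
  set W : ℤ → D := fun j => Wd Q (j * Real.log 2) u with hW
  have hL1 := fun (j : ℤ) (y : D) => hu (j * Real.log 2) (G (nu (-1)) y)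
  have hx : ∀ j y, Integrable fun c => inner ℂ (Rn Q c (W j)) (G (nu (-1)) y) :=
    fun j y => (hL1 j y).1
  have hL : ∀ j y, ∫ c, inner ℂ (Rn Q c (W j)) (G (nu (-1)) y) =
      ∫ p, conj (ρ (pm p)) * ((θ ((4 : ℝ) ^ j * mass2 p) : ℂ) * h (G (nu (-1)) y) p) ∂μ := by
    intro j y
    rw [(hL1 j y).2, exp_tj]
  set κ : ℤ → ℂ := fun k => ∫ c, inner ℂ (Rn Q c (W k)) (G (nu (-1)) u) with hκ
  have hWW : ∀ i j, ∫ c, inner ℂ (Rn Q c (W i)) (G (nu (-1)) (W j)) = κ (i - j) := by
    intro i j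
    simp only [hW, hκ]
    rw [E_W N Gg]
    have : (i : ℝ) * Real.log 2 - (j : ℝ) * Real.log 2 = ((i - j : ℤ) : ℝ) * Real.log 2 := by
      push_cast; ring
    rw [this]
  have hsymm : ∀ k, κ (-k) = conj (κ k) := by
    intro k
    have h1 := E_symm N Gg (W 0) (W k)
    rw [hWW, hWW, zero_sub, sub_zero] at h1
    exact h1
  have hiy := fun y => K.int (G (nu (-1)) y)
  -- decay
  have hdec : ∃ C : ℝ, ∀ k : ℤ, ‖κ k‖ ≤ C * (1 / 2 : ℝ) ^ k.natAbs := by
    obtain ⟨C, hC0, hC⟩ := decL hρ.conj B (hiy u) K.cone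
      (K.int (G (nu (-1)) u + H (G (nu (-1)) u))) (by
        filter_upwards [K.hadd (G (nu (-1)) u) (H (G (nu (-1)) u)), K.hH (G (nu (-1)) u)]
          with p h1 h2
        rw [h1, h2]
        ring)
    refine ⟨C, fun k => ?_⟩
    have h1 : ∀ n : ℕ, ‖κ (-(n : ℤ))‖ ≤ C * (1 / 2) ^ n := by
      intro n
      rw [hκ]
      simp only
      rw [hL]
      exact hC n
    rcases Int.eq_nat_or_neg k with ⟨n, hn | hn⟩
    · have h2 := h1 n
      rw [hsymm, RCLike.norm_conj] at h2
      rw [hn, Int.natAbs_natCast]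
      exact h2
    · rw [hn, Int.natAbs_neg, Int.natAbs_natCast]
      exact h1 n
  obtain ⟨C, hC⟩ := hdec
  -- vanishing of the sum
  have hs : ∑' k, κ k = 0 := by
    have h1 := (sumL hρ.conj B (hiy u) (K.zero _)).2
    have h2 := four_zero (hiy u) (fun t => by
      rw [← hk t, C_U1 N Gg]
      apply integral_congr_ae
      filter_upwards [K.hU (t • a0) (G (nu (-1)) u)] with p hp
      rw [hp]
      have : chr (t • a0) p = exp (I * ((t * pm p : ℝ) : ℂ)) := by
        unfold chr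
        rw [mdot_a0]
      rw [this]) hρ.conj
    have h3 : ∑' k, κ k = ∑' j : ℤ, ∫ p, conj (ρ (pm p)) * ((θ ((4 : ℝ) ^ j * mass2 p) : ℂ) *
        h (G (nu (-1)) u) p) ∂μ := by
      congr 1
      funext k
      exact hL k u
    rw [h3]
    exact h1.trans h2
  -- the values on `v`
  obtain ⟨h1, h2⟩ := sumL hρ.conj B (hiy v) (K.zero _)
  have h3 := seq_zero (κ := κ)
    (L := fun j => ∫ c, inner ℂ (Rn Q c (W j)) (G (nu (-1)) v))
    (e := (∫ c, inner ℂ (Rn Q c v) (G (nu (-1)) v)).re) hC hs (by simpa only [hL] using h1)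
    (fun s t => by
      have h4 := E_comb N Gg s t W v hx hv
      simpa only [hWW] using h4)
  simp only [hL] at h3
  rw [← h2]
  exact h3

include K N Gg in
/-- Theorem E for an abstract point like functional -/
theorem Cmp.main (hex : ∀ ρ : ℝ → ℂ, Cut ρ → ∀ g θ, Bmp g θ → ∃ u : D,
      (∀ (t : ℝ) y, (Integrable fun c => inner ℂ (Rn Q c (Wd Q t u)) y) ∧
      ∫ c, inner ℂ (Rn Q c (Wd Q t u)) y =
        ∫ p, conj (ρ (pm p)) * ((θ (Real.exp t ^ 2 * mass2 p) : ℂ) * h y p) ∂μ) ∧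
      ∀ t : ℝ, ∫ p, h (G (nu (-1)) (U1 Q (t • a0) u)) p ∂μ = 0) (v : D) :
    ∫ p, h (G (nu (-1)) v) p ∂μ = 0 := by
  set f : Mink → ℂ := h (G (nu (-1)) v) with hh
  have hi : Integrable f μ := K.int (G (nu (-1)) v)
  obtain ⟨g, θ, B⟩ := exists_bmp
  have key : ∀ k : ℕ, ∫ p, (chi k (pm p) : ℂ) * f p ∂μ = 0 := by
    intro k
    set u : ℝ := 1 / ((k : ℝ) + 2) with hu
    obtain ⟨u0, hu1, hu2⟩ := hex _ (cut_rhk k) g θ B
    have h1 := K.stepA N Gg (cut_rhk k) B hu1 hu2 (H496.dlp Q (u • a0) 3 v)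
      (int_decay N Gg u _ v)
    rw [← h1]
    apply integral_congr_ae
    have h2 := K.dlp (u • a0) 3 (G (nu (-1)) v)
    rw [← C_dlp N Gg] at h2
    filter_upwards [h2] with p hp
    rw [hp]
    have e : chr (u • a0) p = exp (I * ((u * pm p : ℝ) : ℂ)) := by
      unfold chr
      rw [mdot_a0]
    rw [e]
    unfold rhk
    rw [conj_conj]
    by_cases hc : chi k (pm p) = 0
    · rw [hc]; simp
    · obtain ⟨c1, c2⟩ := chi_ne hc
      have hp0 : 0 < pm p := lt_trans (by positivity) c1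
      have h3 := exp_ne hp0 c2.le
      rw [← hu] at h3 ⊢
      simp only [hh]
      field_simp
  have hlim : Tendsto (fun k : ℕ => ∫ p, (chi k (pm p) : ℂ) * f p ∂μ) atTop (𝓝 (∫ p, f p ∂μ)) := by
    refine tendsto_integral_of_dominated_convergence (fun p => ‖f p‖) (fun k => ?_) hi.norm
      (fun k => Eventually.of_forall fun p => ?_) ?_
    · exact ((Complex.continuous_ofReal.comp ((contDiff_chi k).continuous.comp
        continuous_pm)).aestronglyMeasurable).mul hi.aestronglyMeasurable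
    · rw [norm_mul, norm_real, Real.norm_of_nonneg (chi_nonneg _ _)]
      exact mul_le_of_le_one_left (norm_nonneg _) (chi_le_one _ _)
    · filter_upwards [K.cone, K.zero (G (nu (-1)) v)] with p hp h0
      by_cases hm : 0 < pm p
      · refine tendsto_const_nhds.congr' ?_
        filter_upwards [chi_tendsto hm] with k hk
        rw [hk, ofReal_one, one_mul]
      · have h1 : mass2 p ≤ 0 := by
          have h2 : 0 ≤ pm p := by
            have := abs_le_of_mem_fwdCone hp
            have := (abs_le.1 this).1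
            unfold pm
            linarith
          have h3 : pm p = 0 := le_antisymm (not_lt.1 hm) h2
          have h4 : mass2 p = (p 0 - p 1) * pm p - p 2 ^ 2 - p 3 ^ 2 := by
            unfold pm mass2 mdot; ring
          rw [h4, h3]
          nlinarith [sq_nonneg (p 2), sq_nonneg (p 3)]
        have h2 : f p = 0 := h0 h1
        rw [h2]
        simp
  simp only [key] at hlim
  exact (tendsto_nhds_unique hlim tendsto_const_nhds)

end

end Vale.Agent.P352.H496

end
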