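import Vale.Agent.P352.H496.Core
import Vale.Agent.P352.H746.Vjm
import Vale.Agent.P352.H246.Rc6

set_option linter.all false

noncomputable section

open MeasureTheory SchwartzMap Complex Filter Topology
open scoped SchwartzMap ComplexConjugate ENNReal LineDeriv ContDiff FourierTransform

namespace Vale.Agent.P352.H496

open GF (Ix V Fn Sch ev pd bar sim bas o)
open H246
open UniformSpace (Completion)

variable {D : Type*} [NormedAddCommGroup D] [InnerProductSpace ℂ D]
variable {Q : GF.Theory D}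
variable {H : D → D} {alg : Set V → Set (D → D)} {S : V → ℝ → D → D} {G : V → D → D}

/-! ### Similitudes and the spectral measure -/

lemma simS_tau0 {σ : ℝ} (hσ : 0 < σ) {L : Ix → V} (hL : GF.IsLor L) (a : Mink) (g : 𝓢(Mink, ℂ)) :
    simS σ hσ hL 0 (tauS a g) = tauS (σ⁻¹ • lam (linv L) a) (simS σ hσ hL 0 g) := by
  ext x
  rw [simS0_apply, tauS_apply, tauS_apply, simS0_apply]
  congr 1
  have h1 : lam L (x - σ⁻¹ • lam (linv L) a) = lam L x - σ⁻¹ • a := by
    have h2 := (lamL L).map_sub x (σ⁻¹ • lam (linv L) a)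
    have h3 := (lamL L).map_smul σ⁻¹ (lam (linv L) a)
    have h4 : lamL L (lam (linv L) a) = a := lam_linv hL a
    rw [h3, h4] at h2
    exact h2
  rw [h1, smul_sub, smul_smul, mul_inv_cancel₀ hσ.ne', one_smul]

lemma chr_sim {σ : ℝ} (hσ : 0 < σ) {L : Ix → V} (hL : GF.IsLor L) (a p : Mink) :
    chr (σ⁻¹ • lam (linv L) a) p = chr a (σ⁻¹ • lam L p) := by
  unfold chr
  rw [mdot_smul_right, mdot_comm (σ⁻¹ • lam L p) a, mdot_smul_right, mdot_comm a]
  have : mdot p (lam (linv L) a) = mdot (lam L p) a := by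
    rw [← mdot_lam hL, lam_linv hL]
  rw [this]

lemma meas_sim {σ : ℝ} (L : Ix → V) : Measurable fun p : Mink => σ⁻¹ • lam L p :=
  ((continuous_lam L).const_smul σ⁻¹).measurable

open H746 in
/-- a symmetry of the two point function gives a relation for the spectral measure -/
theorem map_rel {κ : 𝓢(Mink, ℂ) →L[ℂ] Completion D} {μ : Measure Mink} (K : Cvd Q κ μ)
    {σ : ℝ} (hσ : 0 < σ) {L : Ix → V} (hL : GF.IsLor L) {C : ℝ} (hC : 0 ≤ C)
    (h2 : ∀ f g, inner ℂ (κ f) (κ g) =
      (C : ℂ) * inner ℂ (κ (simS σ hσ hL 0 f)) (κ (simS σ hσ hL 0 g))) :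
    μ = ENNReal.ofReal (C * ((σ ^ 4)⁻¹) ^ 2) • μ.map (fun p => σ⁻¹ • lam L p) := by
  have hM := meas_sim (σ := σ) L
  apply measure_unique
  intro g
  set τ := simS σ hσ hL 0 g with hτ
  have h3 : ∀ p, mft τ p = (((σ ^ 4)⁻¹ : ℝ) : ℂ) * mft g (σ⁻¹ • lam L p) := by
    intro p
    have h1 := mft_simS σ hσ hL 0 g p
    have h0 : (-WithLp.toLp 2 (0 : V) : Mink) = 0 := by ext n; simp
    rw [h0, chr_zero', one_mul] at h1
    exact h1
  have hA : μ.withDensity (dens g) =
      ENNReal.ofReal C • (μ.withDensity (dens τ)).map (fun p => σ⁻¹ • lam L p) := by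
    have hf1 := finite_dens K.temp g
    have hf2 := finite_dens K.temp τ
    have hf3 : IsFiniteMeasure (ENNReal.ofReal C •
        (μ.withDensity (dens τ)).map (fun p => σ⁻¹ • lam L p)) := by
      apply Measure.smul_finite
      exact ENNReal.ofReal_ne_top
    apply measure_ext_chr
    intro a
    rw [int_dens, ← K.two, h2, integral_smul_measure, ENNReal.toReal_ofReal hC,
      integral_map hM.aemeasurable (continuous_chr a).aestronglyMeasurable, real_smul]
    congr 1
    have e : ∫ p, chr a (σ⁻¹ • lam L p) ∂(μ.withDensity (dens τ)) =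
        ∫ p, chr (σ⁻¹ • lam (linv L) a) p ∂(μ.withDensity (dens τ)) := by
      congr 1
      ext p
      rw [chr_sim hσ hL]
    rw [e, int_dens, ← K.two, simS_tau0]
  have hd : dens τ = fun p => ENNReal.ofReal (((σ ^ 4)⁻¹) ^ 2) * dens g (σ⁻¹ • lam L p) := by
    ext p
    unfold dens
    rw [h3, enorm_mul, mul_pow]
    congr 1
    rw [← ofReal_norm, norm_real, ← ENNReal.ofReal_pow (norm_nonneg _), Real.norm_eq_abs, sq_abs]
  rw [hA, hd]
  have e1 : (μ.withDensity fun p => ENNReal.ofReal (((σ ^ 4)⁻¹) ^ 2) * dens g (σ⁻¹ • lam L p)) =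
      ENNReal.ofReal (((σ ^ 4)⁻¹) ^ 2) • μ.withDensity fun p => dens g (σ⁻¹ • lam L p) := by
    have := withDensity_smul (μ := μ) (ENNReal.ofReal (((σ ^ 4)⁻¹) ^ 2))
      ((measurable_dens g).comp hM)
    exact this
  rw [e1, Measure.map_smul, map_withDensity_comp μ _ hM _ (measurable_dens g), smul_smul,
    ENNReal.ofReal_mul hC, withDensity_smul_measure]

/-! ### The light-like component of the current -/

/-- the covector of the component -/
def c0 (m : Ix) : ℝ := GF.eta m * nu (-1) m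

/-- the component applied to the vacuum -/
def Jv (Q : GF.Theory D) (J : Ix → GF.Fld D) (F : 𝓢(Mink, ℂ)) : D :=
  ∑ m, (c0 m : ℂ) • J m (fl F) Q.vac

lemma c0_cov {r : ℝ} (hr : 0 < r) {L : Ix → V} (hL : GF.IsLor L)
    (hab : sim 1 L 0 (nu (-1)) = r • nu (-1)) (k : Ix) : ∑ m, c0 m * L k m = r⁻¹ * c0 k := by
  have h1 : ∀ m, ∑ j, nu (-1) j * L j m = r * nu (-1) m := by
    intro m
    have h := congrFun hab m
    simp only [sim, Pi.zero_apply, zero_add, one_mul, Pi.smul_apply, smul_eq_mul] at h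
    exact h
  have h2 : ∀ j, ∑ m, GF.eta m * (L j m * L k m) = GF.bas j (GF.eta j) k := by
    intro j
    have h3 := hL.1 j k
    unfold GF.mdot at h3
    rw [← h3]
    refine Finset.sum_congr rfl fun m _ => by ring
  have h4 : ∑ m, c0 m * L k m = r⁻¹ * ∑ m, GF.eta m * (∑ j, nu (-1) j * L j m) * L k m := by
    rw [Finset.mul_sum]
    refine Finset.sum_congr rfl fun m _ => ?_
    rw [h1]
    unfold c0
    field_simp
  rw [h4]
  congr 1
  have h5 : ∀ m, GF.eta m * (∑ j, nu (-1) j * L j m) * L k m =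
      ∑ j, nu (-1) j * (GF.eta m * (L j m * L k m)) := by
    intro m
    rw [Finset.mul_sum, Finset.sum_mul]
    refine Finset.sum_congr rfl fun j _ => by ring
  simp only [h5]
  rw [Finset.sum_comm]
  simp only [← Finset.mul_sum, h2]
  unfold GF.bas c0
  simp only [mul_ite, mul_zero]
  rw [Finset.sum_ite_eq]
  simp only [Finset.mem_univ, if_true]
  ring

end Vale.Agent.P352.H496

end
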