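import Vale.Agent.P352.H496.CoreJ1

set_option linter.all false

noncomputable section

open MeasureTheory SchwartzMap Complex Filter Topology
open scoped SchwartzMap ComplexConjugate ENNReal LineDeriv ContDiff FourierTransform

namespace Vale.Agent.P352.H496

open GF (Ix V Fn Sch ev pd bar sim bas o)
open H246
open UniformSpace (Completion)

variable {D : Type*} [NormedAddCommGroup D] [InnerProductSpace ℂ D]
variable {Q : GF.Theory D}
variable {H : D → D} {alg : Set V → Set (D → D)} {S : V → ℝ → D → D} {G : V → D → D}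
variable {J : Ix → GF.Fld D}

/-! ### Covariance of the component -/

lemma Jv_U (hJ : VFld Q J) {σ r : ℝ} (hσ : 0 < σ) (hr : 0 < r) {L : Ix → V} (hL : GF.IsLor L)
    (hab : sim 1 L 0 (nu (-1)) = r • nu (-1)) (F : 𝓢(Mink, ℂ)) :
    Q.U σ L 0 (Jv Q J (simS σ hσ hL 0 F)) = ((r / σ : ℝ) : ℂ) • Jv Q J F := by
  set w : Ix → D := fun k => Q.U σ L 0 (J k (fl (simS σ hσ hL 0 F)) Q.vac) with hw
  have h1 : Q.U σ L 0 (Jv Q J (simS σ hσ hL 0 F)) = ∑ k, (c0 k : ℂ) • w k := by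
    unfold Jv
    rw [U_sum hσ hL]
    refine Finset.sum_congr rfl fun k _ => ?_
    rw [U_smul hσ hL]
  have h2 : Jv Q J F = ∑ m, ∑ k, ((c0 m * (σ * L k m) : ℝ) : ℂ) • w k := by
    unfold Jv
    refine Finset.sum_congr rfl fun m _ => ?_
    have h := hJ.cov m σ hσ L hL 0 F Q.vac
    rw [Q.U_vac σ L 0 hσ hL] at h
    rw [h, Finset.smul_sum]
    refine Finset.sum_congr rfl fun k _ => ?_
    rw [smul_smul, ← ofReal_mul]
  rw [h1, h2, Finset.sum_comm, Finset.smul_sum]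
  refine Finset.sum_congr rfl fun k _ => ?_
  rw [← Finset.sum_smul, smul_smul]
  congr 1
  rw [← ofReal_sum, ← ofReal_mul]
  congr 1
  have h3 : ∑ m, c0 m * (σ * L k m) = σ * ∑ m, c0 m * L k m := by
    rw [Finset.mul_sum]
    refine Finset.sum_congr rfl fun m _ => by ring
  rw [h3, c0_cov hr hL hab]
  field_simp

lemma U_Jv (hJ : VFld Q J) {σ r : ℝ} (hσ : 0 < σ) (hr : 0 < r) {L : Ix → V} (hL : GF.IsLor L)
    (hab : sim 1 L 0 (nu (-1)) = r • nu (-1)) (F : 𝓢(Mink, ℂ)) :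
    Q.U σ L 0 (Jv Q J F) = ((r / σ : ℝ) : ℂ) • Jv Q J (simJ hσ hL 0 F) := by
  have h := Jv_U hJ hσ hr hL hab (simJ hσ hL 0 F)
  rwa [simS_simJ] at h

lemma U1_Jv (hJ : VFld Q J) (a : Mink) (F : 𝓢(Mink, ℂ)) :
    U1 Q a (Jv Q J F) = Jv Q J (tauS a F) := by
  unfold Jv U1
  rw [U_sum one_pos isLor_one]
  refine Finset.sum_congr rfl fun k _ => ?_
  rw [U_smul one_pos isLor_one]
  congr 1
  have h := U_fld (Q.bose_fld _ (hJ.bose k)) F a Q.vac
  rw [Q.U_vac 1 GF.one a.ofLp one_pos isLor_one] at h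
  exact h

lemma kc_Jv (hf : ∀ m, Q.fld (J m)) (F : 𝓢(Mink, ℂ)) :
    H746.kc hf c0 F = ((Jv Q J F : D) : Completion D) := by
  rw [H746.kc_apply]
  have h3 := map_sum (UniformSpace.Completion.toComplL (𝕜 := ℂ) (E := D))
    (fun m => (c0 m : ℂ) • J m (fl F) Q.vac) Finset.univ
  have h4 : ((Jv Q J F : D) : Completion D) =
    ∑ m, (((c0 m : ℂ) • J m (fl F) Q.vac : D) : Completion D) := h3
  rw [h4]
  refine Finset.sum_congr rfl fun m _ => ?_
  rw [H746.kf_apply, Completion.coe_smul]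

lemma two_Jv (hJ : VFld Q J) (hf : ∀ m, Q.fld (J m)) {σ r : ℝ} (hσ : 0 < σ) (hr : 0 < r)
    {L : Ix → V} (hL : GF.IsLor L) (hab : sim 1 L 0 (nu (-1)) = r • nu (-1)) (f g : 𝓢(Mink, ℂ)) :
    inner ℂ (H746.kc hf c0 f) (H746.kc hf c0 g) = (((σ / r) ^ 2 : ℝ) : ℂ) *
      inner ℂ (H746.kc hf c0 (simS σ hσ hL 0 f)) (H746.kc hf c0 (simS σ hσ hL 0 g)) := by
  simp only [kc_Jv, Completion.inner_coe]
  rw [← Q.U_inner σ L 0 (Jv Q J (simS σ hσ hL 0 f)) _ hσ hL, Jv_U hJ hσ hr hL hab,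
    Jv_U hJ hσ hr hL hab, inner_smul_left, inner_smul_right, conj_ofReal]
  have hσ' : (σ : ℂ) ≠ 0 := by exact_mod_cast hσ.ne'
  have hr' : (r : ℂ) ≠ 0 := by exact_mod_cast hr.ne'
  push_cast
  field_simp

/-- the relations of the spectral measure of the component -/
theorem map_Jv (hJ : VFld Q J) (hf : ∀ m, Q.fld (J m)) {μ : Measure Mink}
    (K : H746.Cvd Q (H746.kc hf c0) μ) {σ r : ℝ} (hσ : 0 < σ) (hr : 0 < r)
    {L : Ix → V} (hL : GF.IsLor L) (hab : sim 1 L 0 (nu (-1)) = r • nu (-1)) :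
    μ.map (fun p => σ⁻¹ • lam L p) = ENNReal.ofReal (σ ^ 6 * r ^ 2) • μ := by
  have h := map_rel K hσ hL (by positivity) (two_Jv hJ hf hσ hr hL hab)
  conv_rhs => rw [h]
  rw [smul_smul, ← ENNReal.ofReal_mul (by positivity)]
  have e : σ ^ 6 * r ^ 2 * ((σ / r) ^ 2 * ((σ ^ 4)⁻¹) ^ 2) = 1 := by
    field_simp
  rw [e, ENNReal.ofReal_one, one_smul]

/-! ### The inner products with the smeared component -/

section

variable (hJ : VFld Q J) (hf : ∀ m, Q.fld (J m)) {μ : Measure Mink}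
variable (K : H746.Cvd Q (H746.kc hf c0) μ)

include K in
lemma inner_Jv (F : 𝓢(Mink, ℂ)) (y : D) :
    inner ℂ (Jv Q J F) y = ∫ p, conj (mft F p) * K.jd y p ∂μ := by
  rw [← Completion.inner_coe, ← kc_Jv hf, ← K.J_toL, K.inner_jd, inner_toL]

include hJ K in
lemma inner_RJ (c : ℝ × ℝ) (t : ℝ) (F : 𝓢(Mink, ℂ)) (y : D) :
    inner ℂ (Rn Q c (Wd Q t (Jv Q J F))) y =
      ∫ p, (Real.exp t ^ 2 : ℝ) * (conj (mft F (qm c t p)) * K.jd y p) ∂μ := by
  unfold Rn Wd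
  rw [U_Jv hJ (Real.exp_pos t) (Real.exp_pos (-t)) (isLor_boost t) (boost_nu t),
    U_smul one_pos (isLor_nr c), U_Jv hJ one_pos one_pos (isLor_nr c) (nr_nu c),
    inner_smul_left, inner_smul_left, inner_Jv hf K, conj_ofReal, conj_ofReal, div_one,
    ofReal_one, one_mul, ← integral_const_mul]
  congr 1
  ext p
  rw [mft_simJ one_pos (isLor_nr c) _ (p' := lam (nr (-c)) p)
      (by rw [inv_one, one_smul, lam_nr_neg]),
    mft_simJ (Real.exp_pos t) (isLor_boost t) _ (p' := qm c t p) (by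
      unfold qm
      have h1 : lam (mBoost t) (Real.exp t • lam (mBoost (-t)) (lam (nr (-c)) p)) =
          Real.exp t • lam (mBoost t) (lam (mBoost (-t)) (lam (nr (-c)) p)) := by
        exact (lamL (mBoost t)).map_smul _ _
      rw [h1, smul_smul, inv_mul_cancel₀ (Real.exp_pos t).ne', one_smul, lam_boost_neg])]
  rw [one_pow, ofReal_one, one_mul, map_mul, conj_ofReal]
  have e : Real.exp (-t) / Real.exp t * Real.exp t ^ 4 = Real.exp t ^ 2 := by
    rw [Real.exp_neg]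
    have := Real.exp_pos t
    field_simp
  rw [← e]
  push_cast
  ring

end

end Vale.Agent.P352.H496

end
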