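import Vale.Agent.P352.H496.CoreJ2

set_option linter.all false

noncomputable section

open MeasureTheory SchwartzMap Complex Filter Topology
open scoped SchwartzMap ComplexConjugate ENNReal LineDeriv ContDiff FourierTransform

namespace Vale.Agent.P352.H496

open GF (Ix V Fn Sch ev pd bar sim bas o)
open H246
open UniformSpace (Completion)

variable {D : Type*} [NormedAddCommGroup D] [InnerProductSpace ℂ D]
variable {Q : GF.Theory D}
variable {H : D → D} {alg : Set V → Set (D → D)} {S : V → ℝ → D → D} {G : V → D → D}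
variable {J : Ix → GF.Fld D} {μ : Measure Mink}

/-! ### The value of the component at the origin -/

lemma wt_cancel {p : Mink} (h5 : p ∈ fwdCone) (n : ℕ) :
    (wt0 n p : ℂ) * (1 + (p 0 : ℂ)) ^ n = 1 := by
  unfold wt0
  rw [abs_of_nonneg h5.1]
  have h7 : (1 + (p 0 : ℂ)) ≠ 0 := by
    have h8 : 0 < 1 + p 0 := by have := h5.1; linarith
    intro h9
    have h10 : ((1 + p 0 : ℝ) : ℂ) = 0 := by rw [ofReal_add, ofReal_one]; exact h9
    exact h8.ne' (Complex.ofReal_eq_zero.1 h10)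
  push_cast
  field_simp

section

variable {κ : 𝓢(Mink, ℂ) →L[ℂ] Completion D} (K : H746.Cvd Q κ μ)

/-- the components are integrable -/
lemma int_jd (N : Net Q H alg S) (v : D) : Integrable (fun p => K.jd v p) μ := by
  obtain ⟨n, hn⟩ := K.exists_wt0
  have h1 := hn.integrable_mul (Lp.memLp (K.jd (pw1 H n v)))
  refine h1.congr ?_
  filter_upwards [K.jd_pw1 N n v, K.cone] with p h3 h5
  simp only [Pi.mul_apply]
  rw [h3, ← mul_assoc, wt_cancel h5, one_mul]

/-- the value of a point like representation -/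
lemma pt_jd (N : Net Q H alg S) {φ : Completion D} {B : D → D} (hB : B ∈ alg Set.univ)
    (hr : H746.Rep Q κ φ B) (v : D) : pt φ B v = ∫ p, K.jd v p ∂μ := by
  obtain ⟨n, hn⟩ := K.exists_wt0
  set w := hn.toLp _ with hw
  have hval : ∀ v, pt (K.J w) (pw1 H n) v = ∫ p, K.jd v p ∂μ := by
    intro v
    have h1 := K.pt_eq N w n 0 v
    rw [U1_zero_all] at h1
    rw [h1]
    apply integral_congr_ae
    filter_upwards [hn.coeFn_toLp, K.cone] with p h4 h5
    rw [h4, chr_zero', one_mul, conj_ofReal, ← mul_assoc, wt_cancel h5, one_mul]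
  have hloc : IsFiniteMeasureOnCompacts μ := K.fin
  have hrep : H746.Rep Q κ (K.J w) (pw1 H n) := by
    intro F v
    have h1 : ∀ x : Mink, pt (K.J w) (pw1 H n) (U1 Q (-x) v) =
        ∫ p, conj (chr x p) * K.jd v p ∂μ := by
      intro x
      rw [hval]
      apply integral_congr_ae
      filter_upwards [K.jd_U1 (-x) v] with p hp
      rw [hp, chr_neg]
    have h2 : inner ℂ (κ F) (v : Completion D) = ∫ p, conj (mft F p) * K.jd v p ∂μ := by
      rw [← K.J_toL, K.inner_jd, inner_toL]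
    rw [h2]
    simp only [h1]
    have h3 : ∀ x : Mink, conj (F x) * ∫ p, conj (chr x p) * K.jd v p ∂μ =
        ∫ p, conj (F x) * (conj (chr x p) * K.jd v p) ∂μ := by
      intro x
      rw [integral_const_mul]
    simp only [h3]
    have hwu := int_jd K N v
    rw [integral_integral_swap]
    · congr 1
      ext p
      rw [mft, ← integral_conj, ← integral_mul_const]
      congr 1
      ext x
      rw [chr, map_mul]
      ring
    · have hint : Integrable (fun q : Mink × Mink => ‖F q.1‖ * ‖K.jd v q.2‖)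
          ((volume : Measure Mink).prod μ) :=
        ((F.integrable (μ := (volume : Measure Mink))).norm).mul_prod hwu.norm
      refine hint.mono' ?_ (Eventually.of_forall fun q => ?_)
      · apply AEStronglyMeasurable.mul
        · exact (Complex.continuous_conj.comp
            (F.continuous.comp continuous_fst)).aestronglyMeasurable
        · apply AEStronglyMeasurable.mul
          · exact (Complex.continuous_conj.comp continuous_chr2).aestronglyMeasurable
          · exact hwu.aestronglyMeasurable.comp_snd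
      · simp only [Function.uncurry]
        rw [norm_mul, norm_mul, RCLike.norm_conj, RCLike.norm_conj, norm_chr, one_mul]
  rw [H746.Rep.unique N hB (pw1_mem N n) hr hrep (fun F => rfl), hval]

end

/-! ### The profile -/

section

variable {ρ : ℝ → ℂ} {g θ : ℝ → ℝ}

lemma prof_ne (hρ : Cut ρ) (B : Bmp g θ) : ∃ a R : ℝ, 0 < a ∧ ∀ p : Mink, prof ρ g θ p ≠ 0 →
    a ≤ pm p ∧ 1 / 4 ≤ mass2 p ∧ ‖p‖ ≤ R := by
  obtain ⟨a, b, ha, hk⟩ := hρ.k
  obtain ⟨A, hA0, hA⟩ : ∃ A : ℝ, 0 ≤ A ∧ ∀ x, g x ≠ 0 → |x| ≤ A := by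
    obtain ⟨A, hA⟩ := B.kg.isCompact.isBounded.exists_norm_le
    refine ⟨max A 0, le_max_right _ _, fun x hx => ?_⟩
    exact (hA x (subset_tsupport _ hx)).trans (le_max_left _ _)
  refine ⟨a, b + (4 + 2 * A ^ 2) / a + A + A, ha, fun p hne => ?_⟩
  unfold prof at hne
  have h1 : ρ (pm p) ≠ 0 := left_ne_zero_of_mul hne
  have h2 := right_ne_zero_of_mul hne
  have h3 : pm p ^ 2 * g (p 2) * g (p 3) * (θ (mass2 p) / mass2 p) ≠ 0 := by
    intro h; apply h2; rw [h]; simp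
  have h4 := left_ne_zero_of_mul h3
  have h5 := right_ne_zero_of_mul h3
  have h6 : θ (mass2 p) ≠ 0 := by
    intro h; apply h5; rw [h, zero_div]
  have h7 := hA _ (right_ne_zero_of_mul h4)
  have h8 := hA _ (right_ne_zero_of_mul (left_ne_zero_of_mul h4))
  obtain ⟨k1, k2⟩ := hk _ h1
  obtain ⟨k3, k4⟩ := B.kt _ h6
  refine ⟨k1, k3, ?_⟩
  have hm : (p 0 - p 1) * pm p = mass2 p + p 2 ^ 2 + p 3 ^ 2 := by
    unfold pm mass2 mdot; ring
  have q2 : p 2 ^ 2 ≤ A ^ 2 := by rw [← sq_abs]; gcongr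
  have q3 : p 3 ^ 2 ≤ A ^ 2 := by rw [← sq_abs (p 3)]; gcongr
  have hpm : 0 < pm p := by linarith
  have h9 : 0 ≤ p 0 - p 1 := by
    by_contra hcon
    push Not at hcon
    nlinarith [sq_nonneg (p 2), sq_nonneg (p 3)]
  have h10 : p 0 - p 1 ≤ (4 + 2 * A ^ 2) / a := by
    rw [le_div_iff₀ ha]
    calc (p 0 - p 1) * a ≤ (p 0 - p 1) * pm p := by gcongr
      _ ≤ 4 + 2 * A ^ 2 := by rw [hm]; linarith
  have h11 : ‖p‖ ^ 2 ≤ (b + (4 + 2 * A ^ 2) / a + A + A) ^ 2 := by
    have hn := norm_sq_mink p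
    have e1 : p 0 ^ 2 + p 1 ^ 2 = (pm p ^ 2 + (p 0 - p 1) ^ 2) / 2 := by unfold pm; ring
    have hb : 0 ≤ b := by linarith
    have hR : 0 ≤ (4 + 2 * A ^ 2) / a := by positivity
    have e2 : pm p ^ 2 ≤ b ^ 2 := by gcongr
    have e3 : (p 0 - p 1) ^ 2 ≤ ((4 + 2 * A ^ 2) / a) ^ 2 := by gcongr
    set R := (4 + 2 * A ^ 2) / a with hRd
    calc ‖p‖ ^ 2 = (pm p ^ 2 + (p 0 - p 1) ^ 2) / 2 + p 2 ^ 2 + p 3 ^ 2 := by
          rw [hn, e1]
      _ ≤ b ^ 2 + R ^ 2 + A ^ 2 + A ^ 2 := by nlinarith [sq_nonneg b, sq_nonneg R]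
      _ ≤ (b + R + A + A) ^ 2 := by
          nlinarith [mul_nonneg hb hR, mul_nonneg hb hA0, mul_nonneg hR hA0,
            mul_nonneg hA0 hA0]
  have hb : 0 ≤ b := by linarith
  have hR : 0 ≤ (4 + 2 * A ^ 2) / a := by positivity
  exact le_of_sq_le_sq h11 (by positivity)

/-- the function with the profile multiplied by the mass -/
lemma exists_F2 (hρ : Cut ρ) (B : Bmp g θ) : ∃ F : 𝓢(Mink, ℂ),
    (∀ p, mft F p = (mass2 p : ℂ) * prof ρ g θ p) ∧
    ∀ a : Mink, H246R.PC (mftS (tauS a F)) := by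
  obtain ⟨F, hF⟩ := exists_F hρ B
  have h1 : ∀ p, mft ((-1 : ℂ) • boxS F) p = (mass2 p : ℂ) * prof ρ g θ p := by
    intro p
    rw [mft_smul, mft_boxS, hF]
    ring
  refine ⟨(-1 : ℂ) • boxS F, h1, fun a => ?_⟩
  obtain ⟨a', R, ha, hne⟩ := prof_ne hρ B
  have h2 : ∀ p, mftS (tauS a ((-1 : ℂ) • boxS F)) p ≠ 0 →
      a' ≤ pm p ∧ 1 / 4 ≤ mass2 p ∧ ‖p‖ ≤ R := by
    intro p hp
    rw [mftS_apply, mft_tauS, h1] at hp
    exact hne p (right_ne_zero_of_mul (right_ne_zero_of_mul hp))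
  have hcl : IsClosed {p : Mink | a' ≤ pm p ∧ 1 / 4 ≤ mass2 p ∧ ‖p‖ ≤ R} :=
    (isClosed_le continuous_const continuous_pm).inter
      ((isClosed_le continuous_const continuous_mass2).inter
        (isClosed_le continuous_norm continuous_const))
  have hts : tsupport (mftS (tauS a ((-1 : ℂ) • boxS F))) ⊆
      {p : Mink | a' ≤ pm p ∧ 1 / 4 ≤ mass2 p ∧ ‖p‖ ≤ R} :=
    closure_minimal (fun p hp => h2 p hp) hcl
  refine ⟨?_, fun p hp => ?_⟩
  · refine (isCompact_closedBall (0 : Mink) R).of_isClosed_subset (isClosed_tsupport _)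
      fun p hp => ?_
    rw [Metric.mem_closedBall, dist_zero_right]
    exact (hts hp).2.2
  · obtain ⟨k1, k2, -⟩ := hts hp
    exact ⟨lt_of_lt_of_le ha k1, lt_of_lt_of_le (by norm_num) k2⟩

/-! ### The fibre integral for a general integrand -/

lemma swap_g (hρ : Cut ρ) (B : Bmp g θ) (t : ℝ) [SFinite μ] (z : Mink → ℂ)
    (hz0 : AEStronglyMeasurable z μ) (hz : Integrable (fun p => conj (ρ (pm p)) *
      ((θ (Real.exp t ^ 2 * mass2 p) : ℂ) * ((H246.im p : ℂ) * z p))) μ) :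
    (Integrable fun c : ℝ × ℝ => ∫ p, ((Real.exp t ^ 4 : ℝ) : ℂ) *
      (conj (prof ρ g θ (qm c t p)) * z p) ∂μ) ∧
    ∫ c : ℝ × ℝ, ∫ p, ((Real.exp t ^ 4 : ℝ) : ℂ) *
      (conj (prof ρ g θ (qm c t p)) * z p) ∂μ = ∫ p, conj (ρ (pm p)) *
      ((θ (Real.exp t ^ 2 * mass2 p) : ℂ) * ((H246.im p : ℂ) * z p)) ∂μ := by
  have hm : AEStronglyMeasurable (fun q : (ℝ × ℝ) × Mink => ((Real.exp t ^ 4 : ℝ) : ℂ) *
      (conj (prof ρ g θ (qm q.1 t q.2)) * z q.2)) ((volume : Measure (ℝ × ℝ)).prod μ) := by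
    have h1 : Continuous fun q : (ℝ × ℝ) × Mink => conj (prof ρ g θ (qm q.1 t q.2)) :=
      Complex.continuous_conj.comp (cont_prof_qm hρ B t)
    have h2 : AEStronglyMeasurable (fun q : (ℝ × ℝ) × Mink => z q.2)
        ((volume : Measure (ℝ × ℝ)).prod μ) := hz0.comp_snd
    exact (h1.aestronglyMeasurable.mul h2).const_mul _
  have hi : Integrable (fun q : (ℝ × ℝ) × Mink => ((Real.exp t ^ 4 : ℝ) : ℂ) *
      (conj (prof ρ g θ (qm q.1 t q.2)) * z q.2)) ((volume : Measure (ℝ × ℝ)).prod μ) := by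
    rw [integrable_prod_iff' hm]
    refine ⟨Eventually.of_forall fun p => ?_, ?_⟩
    · have h := (fib hρ B t p (z p)).1
      exact h
    · refine hz.norm.congr (Eventually.of_forall fun p => ?_)
      have h := (fib hρ B t p (z p)).2.2
      exact h.symm
  refine ⟨hi.integral_prod_left, ?_⟩
  have h := integral_integral_swap (f := fun (c : ℝ × ℝ) (p : Mink) =>
    ((Real.exp t ^ 4 : ℝ) : ℂ) * (conj (prof ρ g θ (qm c t p)) * z p)) hi
  rw [h]
  congr 1
  ext p
  exact (fib hρ B t p (z p)).2.1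

end

/-! ### Vanishing of the component on the range of the generator -/

section

variable (hJ : VFld Q J) (hf : ∀ m, Q.fld (J m))
variable (K : H746.Cvd Q (H746.kc hf c0) μ) (hpos : ∀ᵐ p ∂μ, 0 < mass2 p)

include hJ hpos in
/-- the integral over the null rotations -/
theorem L2J (N : Net Q H alg S) {ρ : ℝ → ℂ} {g θ : ℝ → ℝ} (hρ : Cut ρ) (B : Bmp g θ)
    {F : 𝓢(Mink, ℂ)} (hF : ∀ p, mft F p = (mass2 p : ℂ) * prof ρ g θ p) (t : ℝ) (y : D) :
    (Integrable fun c => inner ℂ (Rn Q c (Wd Q t (Jv Q J F))) y) ∧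
    ∫ c, inner ℂ (Rn Q c (Wd Q t (Jv Q J F))) y =
      ∫ p, conj (ρ (pm p)) * ((θ (Real.exp t ^ 2 * mass2 p) : ℂ) * K.jd y p) ∂μ := by
  have hfin := K.fin
  have hloc : IsLocallyFiniteMeasure μ := by
    refine ⟨fun x => ⟨Metric.closedBall x 1, Metric.closedBall_mem_nhds x one_pos,
      (isCompact_closedBall x 1).measure_lt_top⟩⟩
  have hi := int_jd K N y
  have e0 : (fun p => conj (ρ (pm p)) * ((θ (Real.exp t ^ 2 * mass2 p) : ℂ) *
      ((H246.im p : ℂ) * ((mass2 p : ℂ) * K.jd y p)))) =ᵐ[μ]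
      fun p => conj (ρ (pm p)) * ((θ (Real.exp t ^ 2 * mass2 p) : ℂ) * K.jd y p) := by
    filter_upwards [hpos] with p hp
    have h1 : (H246.im p : ℂ) * (mass2 p : ℂ) = 1 := by
      rw [← ofReal_mul]
      unfold H246.im
      rw [inv_mul_cancel₀ hp.ne', ofReal_one]
    rw [← mul_assoc (H246.im p : ℂ), h1, one_mul]
  have h := swap_g hρ B t (fun p => (mass2 p : ℂ) * K.jd y p)
    ((Complex.continuous_ofReal.comp continuous_mass2).aestronglyMeasurable.mul
      hi.aestronglyMeasurable)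
    ((int_Lh hρ.conj B hi (Real.exp t ^ 2)).congr e0.symm)
  rw [integral_congr_ae e0] at h
  have e : ∀ c, inner ℂ (Rn Q c (Wd Q t (Jv Q J F))) y =
      ∫ p, ((Real.exp t ^ 4 : ℝ) : ℂ) * (conj (prof ρ g θ (qm c t p)) *
        ((mass2 p : ℂ) * K.jd y p)) ∂μ := by
    intro c
    rw [inner_RJ hJ hf K]
    congr 1
    ext p
    rw [hF, qm_mass, map_mul, conj_ofReal]
    push_cast
    ring
  simp only [e]
  exact h

end

end Vale.Agent.P352.H496

end
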