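import Vale.Agent.P352.H496.SimC
import Vale.Agent.P352.H731.Top2
import Vale.Agent.P352.H755.ChJ

set_option linter.all false

noncomputable section

open Filter Topology

namespace Vale.Agent.P352.H496

open GF (Ix V Fn Fld Theory)
open H15 H246 H246D

variable {D : Type*} [NormedAddCommGroup D] [InnerProductSpace ℂ D]
variable {Q : Theory D} {T : Ix → Ix → Fld D} {J : Ix → Fld D}

/-- **Conformal invariance of the theories with a curl free virial current.** For every choice
`Q₁` of the local fields. -/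
theorem curl_main (hT : Q.IsStress T) (hJ : IsVirial Q T J) (hc0 : Curl J Q.vac) {Q₁ : Theory D}
    (he : IsEnl Q Q₁) : ∃ Q₂ : Theory D, IsEnl Q₁ Q₂ ∧ Q₂.IsStress (improveJ T J) ∧
      IsImpr Q₂ T (improveJ T J) ∧ H755.ConfAct Q₂ (improveJ T J) ∧
      (SimGen Q₁ T J → SimGen Q₁ (improveJ T J) fun _ _ _ => 0) := by
  have hT₁ : Q₁.IsStress T := H746.isStress_enl he hT
  have hJ₁ : IsVirial Q₁ T J := H731.enl_virial he hJ
  have hc₁ : Curl J Q₁.vac := by rw [he.vac]; exact hc0
  obtain ⟨Q₂, h2, hb, -⟩ := exists_enl_impr (impr_of_curl hT₁ hJ₁ hc₁)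
  have hT₂ : Q₂.IsStress T := H746.isStress_enl h2 hT₁
  have hJ₂ : IsVirial Q₂ T J := H731.enl_virial h2 hJ₁
  have hc₂ : Curl J Q₂.vac := by rw [h2.vac]; exact hc₁
  have hi := impr_of_curl hT₂ hJ₂ hc₂
  exact ⟨Q₂, h2, isStress_of_impr hi hT₂ hb, hi, H755.conf_act (isT_of_impr hi hT₂),
    fun hs => simGen_curl hT₁ hJ₁ hc₁ hs⟩

/-- **Every traceless improvement makes the theory conformally invariant.** -/
theorem impr_conf {t : Ix → Ix → Fld D} (hT : Q.IsStress T) (h : IsImpr Q T t) :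
    H755.ConfAct Q t :=
  H755.conf_act (isT_of_impr h hT)

end Vale.Agent.P352.H496

end
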