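import Vale.Agent.P352.H755.ChB
import Vale.Agent.P352.H846.Lfw
import Vale.Agent.P352.H846.Sm
import Vale.Agent.P352.H755.R7g

set_option linter.all false

noncomputable section

open MeasureTheory Filter Topology
open scoped ContDiff

namespace Vale.Agent.P352.H496

open GF (Ix V Fn bas eta o)
open H755

/-- partial derivatives and the Fréchet derivative -/
lemma dr_fderiv {f : V → ℝ} (hf : ContDiff ℝ ∞ f) (m : Ix) :
    dr m f = fun x => fderiv ℝ f x (bas m 1) := by
  funext x
  exact dr_eq (hf.differentiable (by simp)) m x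

lemma cd_dr {f : V → ℝ} (hf : ContDiff ℝ ∞ f) (m : Ix) : ContDiff ℝ ∞ (dr m f) := by
  rw [dr_fderiv hf]
  exact (hf.fderiv_right (m := ∞) (by simp)).clm_apply contDiff_const

lemma dr_mul' {f g : V → ℝ} (hf : ContDiff ℝ ∞ f) (hg : ContDiff ℝ ∞ g) (m : Ix) :
    dr m (fun x => f x * g x) = fun x => dr m f x * g x + f x * dr m g x := by
  rw [dr_fderiv (hf.mul hg), dr_fderiv hf, dr_fderiv hg]
  funext x
  have h1 := (hf.differentiable (by simp)).differentiableAt (x := x)
  have h2 := (hg.differentiable (by simp)).differentiableAt (x := x)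
  have h3 := (h1.hasFDerivAt.mul h2.hasFDerivAt).fderiv
  have h4 : fderiv ℝ (fun x => f x * g x) x = f x • fderiv ℝ g x + g x • fderiv ℝ f x := h3
  show fderiv ℝ (fun x => f x * g x) x (bas m 1) = _
  rw [h4]
  simp
  ring

lemma dr_add' {f g : V → ℝ} (hf : ContDiff ℝ ∞ f) (hg : ContDiff ℝ ∞ g) (m : Ix) :
    dr m (fun x => f x + g x) = fun x => dr m f x + dr m g x := by
  rw [dr_fderiv (hf.add hg), dr_fderiv hf, dr_fderiv hg]
  funext x
  have h1 := (hf.differentiable (by simp)).differentiableAt (x := x)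
  have h2 := (hg.differentiable (by simp)).differentiableAt (x := x)
  have h3 := (h1.hasFDerivAt.add h2.hasFDerivAt).fderiv
  have h4 : fderiv ℝ (fun x => f x + g x) x = fderiv ℝ f x + fderiv ℝ g x := h3
  show fderiv ℝ (fun x => f x + g x) x (bas m 1) = _
  rw [h4]
  simp

lemma dr_const' (c : ℝ) (m : Ix) : dr m (fun _ => c) = fun _ => 0 := by
  rw [dr_fderiv contDiff_const]
  funext x
  simp

lemma dr_cmul' (c : ℝ) {f : V → ℝ} (hf : ContDiff ℝ ∞ f) (m : Ix) :
    dr m (fun x => c * f x) = fun x => c * dr m f x := by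
  rw [dr_mul' contDiff_const hf, dr_const']
  simp

lemma dr_symm' {f : V → ℝ} (hf : ContDiff ℝ ∞ f) (m n : Ix) : dr m (dr n f) = dr n (dr m f) := by
  have key : ∀ u v : V, ∀ x, fderiv ℝ (fun x => fderiv ℝ f x v) x u =
      fderiv ℝ (fderiv ℝ f) x u v := by
    intro u v x
    have h1 : DifferentiableAt ℝ (fderiv ℝ f) x :=
      ((hf.fderiv_right (m := ∞) (by simp)).differentiable (by simp)).differentiableAt
    rw [fderiv_clm_apply h1 (differentiableAt_const _)]
    simp
  rw [dr_fderiv (cd_dr hf n), dr_fderiv (cd_dr hf m), dr_fderiv hf, dr_fderiv hf]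
  funext x
  rw [key, key]
  have h2 : IsSymmSndFDerivAt ℝ f x := by
    apply ContDiffAt.isSymmSndFDerivAt (n := ∞) hf.contDiffAt
    simp only [minSmoothness_of_isRCLikeNormedField]
    exact WithTop.coe_le_coe.2 (le_top : (2 : ℕ∞) ≤ ⊤)
  exact h2 _ _

/-- the second derivatives of a product -/
lemma dr_dr_mul' {f g : V → ℝ} (hf : ContDiff ℝ ∞ f) (hg : ContDiff ℝ ∞ g) (m n : Ix) (x : V) :
    dr m (dr n fun x => f x * g x) x = dr m (dr n f) x * g x + dr n f x * dr m g x +
      dr m f x * dr n g x + f x * dr m (dr n g) x := by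
  rw [dr_mul' hf hg, dr_add' ((cd_dr hf n).mul hg) (hf.mul (cd_dr hg n)), dr_mul' (cd_dr hf n) hg,
    dr_mul' hf (cd_dr hg n)]
  ring

variable {X : Ix → V → ℝ} {k0 a : V} {r : ℝ} {w : Ix → V}

/-- the first derivatives of a conformal Killing vector field -/
def P1 (r : ℝ) (w : Ix → V) (k0 : V) (m n : Ix) (x : V) : ℝ :=
  r * (if n = m then 1 else 0) + w m n + 2 * (eta m * k0 m) * x n +
    2 * GF.mdot k0 x * (if n = m then 1 else 0) - 2 * (eta m * x m) * k0 n

/-- the second derivatives of a conformal Killing vector field -/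
def P2 (k0 : V) (k m n : Ix) : ℝ :=
  2 * (eta m * k0 m) * (if n = k then 1 else 0) + 2 * (eta k * k0 k) * (if n = m then 1 else 0) -
    2 * (eta m * (if m = k then 1 else 0)) * k0 n

lemma cd_kil (h : ∀ n x, X n x = a n + r * x n + ∑ m, x m * w m n +
    2 * GF.mdot k0 x * x n - GF.mdot x x * k0 n) (n : Ix) : ContDiff ℝ ∞ (X n) := by
  have e : X n = fun x => a n + r * x n + ∑ m, x m * w m n + 2 * GF.mdot k0 x * x n -
      GF.mdot x x * k0 n := funext fun x => h n x
  rw [e]
  unfold GF.mdot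
  fun_prop

lemma dr_kil (h : ∀ n x, X n x = a n + r * x n + ∑ m, x m * w m n +
    2 * GF.mdot k0 x * x n - GF.mdot x x * k0 n) (m n : Ix) :
    dr m (X n) = P1 r w k0 m n := by
  funext x
  exact (kil_dr h m n x).deriv

lemma dr_P1 (k m n : Ix) : dr k (P1 r w k0 m n) = fun _ => P2 k0 k m n := by
  have hc : ∀ i : Ix, ContDiff ℝ ∞ fun x : V => x i := fun i => contDiff_apply ℝ ℝ i
  have hm : ContDiff ℝ ∞ fun x : V => GF.mdot k0 x := by unfold GF.mdot; fun_prop
  have hP : ContDiff ℝ ∞ (P1 r w k0 m n) := by unfold P1 GF.mdot; fun_prop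
  rw [dr_fderiv hP]
  funext x
  have h1 : HasDerivAt (fun s : ℝ => P1 r w k0 m n (x + s • bas k 1)) (P2 k0 k m n) 0 := by
    have e : ∀ s : ℝ, P1 r w k0 m n (x + s • bas k 1) = P1 r w k0 m n x + s * P2 k0 k m n := by
      intro s
      unfold P1 P2
      simp only [md_add, md_smul, md_bas, Pi.add_apply, Pi.smul_apply, smul_eq_mul]
      have h2 : ∀ i, (bas k 1 : V) i = if i = k then 1 else 0 := fun i => rfl
      rw [h2, h2]
      ring
    simp only [e]
    have := ((hasDerivAt_id (0:ℝ)).mul_const (P2 k0 k m n)).const_add (P1 r w k0 m n x)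
    simpa using this
  have h3 := ((hP.differentiable (by simp)).differentiableAt (x := x + (0:ℝ) • (bas k 1 : V))).hasFDerivAt
  have h4 : HasDerivAt (fun s : ℝ => x + s • (bas k 1 : V)) (bas k 1) 0 := by
    have := ((hasDerivAt_id (0:ℝ)).smul_const (bas k 1 : V)).const_add x
    simpa using this
  have h5 := h3.comp_hasDerivAt (0:ℝ) h4
  have h6 := h5.unique h1
  rw [zero_smul, add_zero] at h6
  exact h6

/-- **The double divergence of the cutoff currents.** -/
theorem ddiv (hw : ∀ m n, eta n * w m n = -(eta m * w n m))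
    (h : ∀ n x, X n x = a n + r * x n + ∑ m, x m * w m n +
      2 * GF.mdot k0 x * x n - GF.mdot x x * k0 n) {θ : V → ℝ} (hθ : ContDiff ℝ ∞ θ) (x : V) :
    ∑ m, ∑ n, eta m * eta n * dr m (dr n fun x => eta n * X n x * dr m θ x) x -
      ∑ m, ∑ k, eta m * eta k * dr k (dr k fun x => eta m * X m x * dr m θ x) x =
    3 * ((r + 2 * GF.mdot k0 x) * ∑ m, eta m * dr m (dr m θ) x + 4 * ∑ m, k0 m * dr m θ x) := by
  have hX : ∀ n, ContDiff ℝ ∞ fun x => eta n * X n x := fun n => contDiff_const.mul (cd_kil h n)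
  have hT : ∀ m, ContDiff ℝ ∞ (dr m θ) := fun m => cd_dr hθ m
  have e1 : ∀ m n, dr m (fun x => eta n * X n x) = fun x => eta n * P1 r w k0 m n x := by
    intro m n
    rw [dr_cmul' _ (cd_kil h n), dr_kil h]
  have hP : ∀ m n, ContDiff ℝ ∞ (P1 r w k0 m n) := fun m n => by unfold P1 GF.mdot; fun_prop
  have e2 : ∀ k m n, dr k (dr m (fun x => eta n * X n x)) = fun x => eta n * P2 k0 k m n := by
    intro k m n
    rw [e1, dr_cmul' _ (hP m n), dr_P1]
  have s2 : ∀ m n, dr m (dr n θ) x = dr n (dr m θ) x := fun m n => by rw [dr_symm' hθ]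
  have s3 : ∀ m n, dr m (dr n (dr m θ)) x = dr m (dr m (dr n θ)) x := fun m n => by
    rw [dr_symm' hθ n m]
  have hq : ∀ m, eta m * eta m = 1 := fun m => by unfold eta; split_ifs <;> norm_num
  have t1 : ∀ m n, eta m * eta n * dr m (dr n fun x => eta n * X n x * dr m θ x) x =
      eta m * (P2 k0 m n n * dr m θ x + P1 r w k0 n n x * dr m (dr m θ) x +
        P1 r w k0 m n x * dr m (dr n θ) x) + eta m * X n x * dr m (dr m (dr n θ)) x := by
    intro m n
    rw [dr_dr_mul' (hX n) (hT m) m n x, e2, e1, e1, s3, s2 n m]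
    linear_combination (eta m * (P2 k0 m n n * dr m θ x + P1 r w k0 n n x * dr m (dr m θ) x +
        P1 r w k0 m n x * dr m (dr n θ) x) + eta m * X n x * dr m (dr m (dr n θ)) x) * hq n
  have t2 : ∀ m k, eta m * eta k * dr k (dr k fun x => eta m * X m x * dr m θ x) x =
      eta k * (P2 k0 k k m * dr m θ x + 2 * P1 r w k0 k m x * dr k (dr m θ) x) +
        eta k * X m x * dr k (dr k (dr m θ)) x := by
    intro m k
    rw [dr_dr_mul' (hX m) (hT m) k k x, e2, e1]
    linear_combination (eta k * (P2 k0 k k m * dr m θ x + 2 * P1 r w k0 k m x * dr k (dr m θ) x) +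
        eta k * X m x * dr k (dr k (dr m θ)) x) * hq m
  simp only [t1, t2, Finset.sum_add_distrib]
  have c3 : ∑ m, ∑ n, eta m * X n x * dr m (dr m (dr n θ)) x =
      ∑ m, ∑ k, eta k * X m x * dr k (dr k (dr m θ)) x := Finset.sum_comm
  rw [c3, add_sub_add_right_eq_sub]
  have w00 := hw 0 0
  have w11 := hw 1 1
  have w22 := hw 2 2
  have w33 := hw 3 3
  have w01 := hw 0 1
  have w02 := hw 0 2
  have w03 := hw 0 3
  have w12 := hw 1 2
  have w13 := hw 1 3
  have w23 := hw 2 3
  have e0 : eta 0 = 1 := by simp [eta, o]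
  have e1' : eta 1 = -1 := by simp [eta, o]
  have e2' : eta 2 = -1 := by simp [eta, o]
  have e3' : eta 3 = -1 := by simp [eta, o]
  rw [e0] at w00 w01 w02 w03
  rw [e1'] at w11 w01 w12 w13
  rw [e2'] at w22 w02 w12 w23
  rw [e3'] at w33 w03 w13 w23
  have v00 : w 0 0 = 0 := by linarith
  have v11 : w 1 1 = 0 := by linarith
  have v22 : w 2 2 = 0 := by linarith
  have v33 : w 3 3 = 0 := by linarith
  have v01 : w 1 0 = w 0 1 := by linarith
  have v02 : w 2 0 = w 0 2 := by linarith
  have v03 : w 3 0 = w 0 3 := by linarith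
  have v12 : w 2 1 = -w 1 2 := by linarith
  have v13 : w 3 1 = -w 1 3 := by linarith
  have v23 : w 3 2 = -w 2 3 := by linarith
  simp only [Fin.sum_univ_four, P1, P2, GF.mdot, e0, e1', e2', e3', v00, v11, v22, v33, v01, v02,
    v03, v12, v13, v23, s2 1 0, s2 2 0, s2 3 0, s2 2 1, s2 3 1, s2 3 2, Fin.reduceEq, if_true,
    if_false]
  ring

lemma dr_sum' {ι : Type*} (s : Finset ι) {f : ι → V → ℝ} (hf : ∀ i, ContDiff ℝ ∞ (f i)) (m : Ix) :
    dr m (fun x => ∑ i ∈ s, f i x) = fun x => ∑ i ∈ s, dr m (f i) x := by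
  classical
  induction s using Finset.induction_on with
  | empty => simp only [Finset.sum_empty]; exact dr_const' 0 m
  | insert i s hi ih =>
    simp only [Finset.sum_insert hi]
    rw [dr_add' (hf i) (ContDiff.sum fun j _ => hf j), ih]

lemma tst_sum' {ι : Type*} (s : Finset ι) {f : ι → V → ℝ} (hf : ∀ i, Tst (f i)) :
    Tst fun x => ∑ i ∈ s, f i x := by
  classical
  induction s using Finset.induction_on with
  | empty => simp only [Finset.sum_empty]; exact tst_zero
  | insert i s hi ih =>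
    simp only [Finset.sum_insert hi]
    have := tst_add' (hf i) 1 ih
    simpa using this

/-- the double divergence of a tensor in the improvement term -/
def DD (F : Ix → Ix → V → ℝ) (x : V) : ℝ :=
  ∑ m, ∑ n, eta m * eta n * dr m (dr n (F m n)) x -
    ∑ k, eta k * dr k (dr k (fun y => ∑ m, eta m * F m m y)) x

lemma dr_ev {f g : V → ℝ} {x : V} (h : f =ᶠ[𝓝 x] g) (m : Ix) : dr m f =ᶠ[𝓝 x] dr m g := by
  filter_upwards [h.eventually_nhds] with y hy
  exact H846.dr_congr hy m

/-- (D1) -/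
theorem dd_congr {F G : Ix → Ix → V → ℝ} {x : V} (h : ∀ m n, F m n =ᶠ[𝓝 x] G m n) :
    DD F x = DD G x := by
  unfold DD
  congr 1
  · exact Finset.sum_congr rfl fun m _ => Finset.sum_congr rfl fun n _ => by
      rw [H846.dr_congr (dr_ev (h m n) n) m]
  · refine Finset.sum_congr rfl fun k _ => ?_
    have h1 : (fun y => ∑ m, eta m * F m m y) =ᶠ[𝓝 x] fun y => ∑ m, eta m * G m m y := by
      filter_upwards [h 0 0, h 1 1, h 2 2, h 3 3] with y h0 h1 h2 h3
      simp only [Fin.sum_univ_four, h0, h1, h2, h3]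
    rw [H846.dr_congr (dr_ev h1 k) k]

lemma dd_tr {F : Ix → Ix → V → ℝ} (hF : ∀ m, ContDiff ℝ ∞ (F m m)) (k : Ix) (x : V) :
    dr k (dr k (fun y => ∑ m, eta m * F m m y)) x = ∑ m, eta m * dr k (dr k (F m m)) x := by
  have h1 : dr k (fun y => ∑ m, eta m * F m m y) = fun x => ∑ m, eta m * dr k (F m m) x := by
    rw [dr_sum' _ fun m => contDiff_const.mul (hF m)]
    funext x
    exact Finset.sum_congr rfl fun m _ => by rw [dr_cmul' _ (hF m)]
  rw [h1, dr_sum' _ fun m => contDiff_const.mul (cd_dr (hF m) k)]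
  exact Finset.sum_congr rfl fun m _ => by rw [dr_cmul' _ (cd_dr (hF m) k)]

lemma dd_eq {F : Ix → Ix → V → ℝ} (hF : ∀ m, ContDiff ℝ ∞ (F m m)) (x : V) :
    DD F x = ∑ m, ∑ n, eta m * eta n * dr m (dr n (F m n)) x -
      ∑ m, ∑ k, eta m * eta k * dr k (dr k (F m m)) x := by
  unfold DD
  congr 1
  rw [Finset.sum_comm]
  refine Finset.sum_congr rfl fun k _ => ?_
  rw [dd_tr hF, Finset.mul_sum]
  exact Finset.sum_congr rfl fun m _ => by ring

/-- (D2) -/
theorem dd_grad {Xv : V → V} {c k : V} (hw : ∀ m n, eta n * w m n = -(eta m * w n m))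
    (hX : ∀ x n, Xv x n = c n + r * x n + ∑ m, x m * w m n + 2 * GF.mdot k x * x n -
      GF.mdot x x * k n) {θ : V → ℝ} (hθ : ContDiff ℝ ∞ θ) (x : V) :
    DD (fun m n x => eta n * Xv x n * dr m θ x) x =
      3 * ((r + 2 * GF.mdot k x) * ∑ m, eta m * dr m (dr m θ) x + 4 * ∑ m, k m * dr m θ x) := by
  have h : ∀ n x, (fun n x => Xv x n : Ix → V → ℝ) n x = c n + r * x n + ∑ m, x m * w m n +
      2 * GF.mdot k x * x n - GF.mdot x x * k n := fun n x => hX x n
  rw [dd_eq (fun m => (contDiff_const.mul (cd_kil h m)).mul (cd_dr hθ m))]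
  exact ddiv hw h hθ x

/-- (D3) -/
theorem tst_DD {F : Ix → Ix → V → ℝ} (hF : ∀ m n, Tst (F m n)) : Tst (DD F) := by
  have h1 : Tst fun x => ∑ m, ∑ n, eta m * eta n * dr m (dr n (F m n)) x :=
    tst_sum' _ fun m => tst_sum' _ fun n => tst_smul contDiff_const (tst_dr (tst_dr (hF m n) n) m)
  have h2 : Tst fun x => ∑ k, eta k * dr k (dr k (fun y => ∑ m, eta m * F m m y)) x :=
    tst_sum' _ fun k => tst_smul contDiff_const (tst_dr (tst_dr
      (tst_sum' _ fun m => tst_smul contDiff_const (hF m m)) k) k)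
  have h3 := tst_add' h1 (-1) h2
  have e : DD F = fun x => ∑ m, ∑ n, eta m * eta n * dr m (dr n (F m n)) x +
      (-1) * ∑ k, eta k * dr k (dr k (fun y => ∑ m, eta m * F m m y)) x := by
    funext x
    unfold DD
    ring
  rw [e]
  exact h3

section

variable {D : Type*} [NormedAddCommGroup D] [InnerProductSpace ℂ D] {Q Q' : GF.Theory D}
  {T : Ix → Ix → GF.Fld D} {L : GF.Fld D}

lemma fld_sum' (hL : Q'.fld L) {ι : Type*} (s : Finset ι) {f : ι → V → ℝ} (hf : ∀ i, Tst (f i))
    (v : D) : L (fun x => ((∑ i ∈ s, f i x : ℝ) : ℂ)) v = ∑ i ∈ s, L (fun x => (f i x : ℂ)) v := by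
  classical
  induction s using Finset.induction_on with
  | empty => simp only [Finset.sum_empty]; exact H846.fld_zero hL v
  | insert i s hi ih =>
    simp only [Finset.sum_insert hi]
    rw [H846.fld_add hL (hf i) (tst_sum' s hf), ih]

/-- (D4) -/
theorem smt_improve (hT : Q.IsStress T) (hL : Q'.fld L) {F : Ix → Ix → V → ℝ}
    (hF : ∀ m n, Tst (F m n)) (v : D) :
    smt (GF.improve T L) F v = H15.sm T F v + L (fun x => (DD F x : ℂ)) v := by
  have t2 : ∀ m n k l, Tst (dr m (dr n (F k l))) := fun m n k l => tst_dr (tst_dr (hF k l) n) m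
  have hpd : ∀ m n k l, GF.pd m (GF.pd n fun x => (F k l x : ℂ)) =
      fun x => (dr m (dr n (F k l)) x : ℂ) := by
    intro m n k l
    rw [pd_tst (hF k l).1, pd_tst (tst_dr (hF k l) n).1]
  have e1 : L (fun x => (DD F x : ℂ)) v =
      ∑ m, ∑ n, (eta m * eta n : ℂ) • L (fun x => (dr m (dr n (F m n)) x : ℂ)) v -
        ∑ m, ∑ k, (eta m * eta k : ℂ) • L (fun x => (dr k (dr k (F m m)) x : ℂ)) v := by
    have h1 : ∀ m, Tst fun x => ∑ n, eta m * eta n * dr m (dr n (F m n)) x := fun m =>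
      tst_sum' _ fun n => tst_smul contDiff_const (t2 m n m n)
    have h2 : ∀ m, Tst fun x => ∑ k, eta m * eta k * dr k (dr k (F m m)) x := fun m =>
      tst_sum' _ fun k => tst_smul contDiff_const (t2 k k m m)
    have e : (fun x => (DD F x : ℂ)) = fun x =>
        (((∑ m, ∑ n, eta m * eta n * dr m (dr n (F m n)) x) +
          (-1) * ∑ m, ∑ k, eta m * eta k * dr k (dr k (F m m)) x : ℝ) : ℂ) := by
      funext x
      rw [dd_eq (fun m => (hF m m).1)]
      congr 1
      ring
    rw [e, H846.fld_add hL (tst_sum' _ h1) (tst_smul contDiff_const (tst_sum' _ h2)),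
      H846.fld_cmul hL _ (tst_sum' _ h2), fld_sum' hL _ h1, fld_sum' hL _ h2]
    have e3 : ∀ m, L (fun x => ((∑ n, eta m * eta n * dr m (dr n (F m n)) x : ℝ) : ℂ)) v =
        ∑ n, (eta m * eta n : ℂ) • L (fun x => (dr m (dr n (F m n)) x : ℂ)) v := by
      intro m
      rw [fld_sum' hL _ fun n => tst_smul contDiff_const (t2 m n m n)]
      refine Finset.sum_congr rfl fun n _ => ?_
      rw [H846.fld_cmul hL _ (t2 m n m n)]
      push_cast
      rfl
    have e4 : ∀ m, L (fun x => ((∑ k, eta m * eta k * dr k (dr k (F m m)) x : ℝ) : ℂ)) v =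
        ∑ k, (eta m * eta k : ℂ) • L (fun x => (dr k (dr k (F m m)) x : ℂ)) v := by
      intro m
      rw [fld_sum' hL _ fun k => tst_smul contDiff_const (t2 k k m m)]
      refine Finset.sum_congr rfl fun k _ => ?_
      rw [H846.fld_cmul hL _ (t2 k k m m)]
      push_cast
      rfl
    simp only [e3, e4]
    push_cast
    module
  rw [e1]
  unfold smt H15.sm GF.improve
  simp only [hpd, Finset.sum_sub_distrib, Finset.sum_add_distrib]
  rw [add_sub_assoc]
  congr 2
  refine Finset.sum_congr rfl fun m _ => ?_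
  rw [Finset.sum_eq_single m]
  · rw [Finset.smul_sum]
    refine Finset.sum_congr rfl fun k _ => ?_
    rw [smul_smul]
    simp [bas]
  · intro n _ hn
    simp [bas, hn]
  · simp

end

end Vale.Agent.P352.H496

end
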