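import Vale.Agent.P352.H246.Defs

open MeasureTheory Filter Topology
open scoped ComplexConjugate

namespace Vale.Agent.P352.H496

open GF H246
open UniformSpace (Completion)

noncomputable section

/-- Future directed null vectors. -/
def IsNull (a : V) : Prop := mdot a a = 0 ∧ 0 < a o

/-- The wedge with edge through `v` that is bounded by the null hyperplanes through `v`
orthogonal to the null vectors `a` and `b`. -/
def Wdg (a b v : V) : Set V := {x | mdot a (x - v) < 0 ∧ 0 < mdot b (x - v)}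

/-- The null deformation `z ↦ z - s (z·z) a` of the null hyperplane `a·z = 0`. -/
def shf (a : V) (s : ℝ) (z : V) : V := z - (s * mdot z z) • a

variable {D : Type*} [NormedAddCommGroup D] [InnerProductSpace ℂ D]

/-- Local algebras `alg O` of operators on `D` that contain the fields smeared in `O` and the
energy operator `H`, and unitary one parameter groups `S a`, `a` null, with positive generators
and with `S a s Ω = Ω`, that act geometrically on the null hyperplane `a·z = 0`. -/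
structure Net (Q : Theory D) (H : D → D) (alg : Set V → Set (D → D)) (S : V → ℝ → D → D) :
    Prop where
  adj : ∀ O, ∀ X ∈ alg O, ∃ Y ∈ alg O, ∀ v w, inner ℂ (X v) w = inner ℂ v (Y w)
  one : ∀ O, (fun v => v) ∈ alg O
  add : ∀ O, ∀ X ∈ alg O, ∀ Y ∈ alg O, (fun v => X v + Y v) ∈ alg O
  smul : ∀ O (c : ℂ), ∀ X ∈ alg O, (fun v => c • X v) ∈ alg O
  mul : ∀ O, ∀ X ∈ alg O, ∀ Y ∈ alg O, (fun v => X (Y v)) ∈ alg O
  mono : ∀ O O', O ⊆ O' → alg O ⊆ alg O'
  fld : ∀ O A f, Q.fld A → In O f → A f ∈ alg O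
  transl : ∀ O x, ∀ X ∈ alg O,
    (fun v => Q.U 1 GF.one x (X (Q.U 1 GF.one (-x) v))) ∈ alg ((fun y => y + x) '' O)
  loc : ∀ a b v, IsNull a → IsNull b → 0 < mdot a b → ∀ X ∈ alg (Wdg a b v),
    ∀ Y ∈ alg (Wdg b a v), ∀ w, X (Y w) = Y (X w)
  energy : ∀ v, HasDerivAt (fun t : ℝ => Q.U 1 GF.one (bas o t) v) (Complex.I • H v) 0
  energy_mem : H ∈ alg Set.univ
  transl_bdd : ∀ X ∈ alg Set.univ, ∀ v, ∃ (C : ℝ) (m : ℕ), ∀ x,
    ‖X (Q.U 1 GF.one x v)‖ ≤ C * (1 + ‖x‖) ^ m
  S_inner : ∀ a s v w, IsNull a → inner ℂ (S a s v) (S a s w) = inner ℂ v w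
  S_add : ∀ a s t v, IsNull a → S a s (S a t v) = S a (s + t) v
  S_vac : ∀ a s, IsNull a → S a s Q.vac = Q.vac
  S_spec : ∀ a v, IsNull a → ∃ ν : Measure ℝ, IsFiniteMeasure ν ∧ (∀ᵐ c ∂ν, 0 ≤ c) ∧
    ∀ s : ℝ, inner ℂ v (S a s v) = ∫ c, Complex.exp (Complex.I * s * c) ∂ν
  S_bdd : ∀ a, IsNull a → ∀ X ∈ alg Set.univ, ∀ v, ∃ (C : ℝ) (m : ℕ), ∀ s,
    ‖X (S a s v)‖ ≤ C * (1 + |s|) ^ m
  S_right : ∀ a b c v w s, IsNull a → IsNull b → IsNull c → 0 < mdot a b → 0 < mdot a c →
    mdot a v = 0 → mdot a w = 0 →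
    (∀ z, mdot a z = 0 → 0 < mdot b (z - v) → 0 < mdot c (shf a s z - w)) →
    ∀ X ∈ alg (Wdg a b v), (fun u => S a s (X (S a (-s) u))) ∈ alg (Wdg a c w)
  S_left : ∀ a b c v w s, IsNull a → IsNull b → IsNull c → 0 < mdot a b → 0 < mdot a c →
    mdot a v = 0 → mdot a w = 0 →
    (∀ z, mdot a z = 0 → mdot b (z - v) < 0 → mdot c (shf a s z - w) < 0) →
    ∀ X ∈ alg (Wdg b a v), (fun u => S a s (X (S a (-s) u))) ∈ alg (Wdg c a w)

/-- The function `x ↦ ⟨l(x), v⟩` is continuous and its value at the origin is `c`. -/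
def Val (l : Fn → Completion D) (v : D) (c : ℂ) : Prop := ∃ F : V → ℂ, Continuous F ∧ F 0 = c ∧
  ∀ f, In Set.univ f → inner ℂ (l f) (v : Completion D) = ∫ x, star (f x) * F x

/-- The points that are spacelike to all points of `K`. -/
def cc (K : Set V) : Set V := {y | ∀ x ∈ K, mdot (x - y) (x - y) < 0}

/-- `Λ` extends the potential `l` to a hermitian scalar field of dimension two in the sense of
sesquilinear forms: for a test function `f` with compact support, `Λ f v w` (which stands for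
`⟨v, Λ(f) w⟩`) is defined for the vectors `v`, `w` generated from the vacuum by the fields in the
causal complement of the support of `f`, it is local relative to all fields, and
`T + (∂∂ - η □) Λ` is traceless. -/
structure IsForm (Q : Theory D) (T : Ix → Ix → Fld D) (l : Fn → Completion D)
    (Λ : Fn → D → D → ℂ) : Prop where
  vac : ∀ f v, In Set.univ f → Gen Q (cc (tsupport f)) v →
    Λ f v Q.vac = inner ℂ (v : Completion D) (l f)
  linf : ∀ (f g : Fn) (c : ℂ) v w, In Set.univ f → In Set.univ g →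
    Gen Q (cc (tsupport f ∪ tsupport g)) v → Gen Q (cc (tsupport f ∪ tsupport g)) w →
    Λ (fun x => f x + c * g x) v w = Λ f v w + c * Λ g v w
  linv : ∀ f (c : ℂ) u v w, In Set.univ f → Gen Q (cc (tsupport f)) u →
    Gen Q (cc (tsupport f)) v → Gen Q (cc (tsupport f)) w →
    Λ f u (v + c • w) = Λ f u v + c * Λ f u w
  cont : ∀ (K : Set V) v w, IsCompact K → Gen Q (cc K) v → Gen Q (cc K) w →
    ContinuousOn (fun g => Λ (ev g) v w) {g | tsupport (ev g) ⊆ K}
  herm : ∀ f v w, In Set.univ f → Gen Q (cc (tsupport f)) v → Gen Q (cc (tsupport f)) w →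
    Λ f v w = star (Λ (bar f) w v)
  loc : ∀ (A B : Fld D) f g v w, Q.fld A → Q.fld B →
    (∀ f v w, IsTest f → inner ℂ (A f v) w = inner ℂ v (B (bar f) w)) →
    In Set.univ f → In (cc (tsupport f)) g → Gen Q (cc (tsupport f)) v →
    Gen Q (cc (tsupport f)) w → Λ f (B (bar g) v) w = Λ f v (A g w)
  cov : ∀ s L a f v w, 0 < s → IsLor L → (Cov Q s L a ∨ s = 1 ∧ L = GF.one) →
    In Set.univ f → Gen Q (cc (tsupport fun x => f (sim s L a x))) v →
    Gen Q (cc (tsupport fun x => f (sim s L a x))) w →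
    Λ f (Q.U s L a v) (Q.U s L a w) = (s ^ 2 : ℝ) * Λ (fun x => f (sim s L a x)) v w
  trace : ∀ f v w, In Set.univ f → Gen Q (cc (tsupport f)) v → Gen Q (cc (tsupport f)) w →
    3 * Λ (box f) v w = inner ℂ v (tr T f w)

end

end Vale.Agent.P352.H496
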