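import Vale.Agent.P352.H496.Defs

open MeasureTheory Filter Topology
open scoped ComplexConjugate

namespace Vale.Agent.P352.H496

open GF H246
open UniformSpace (Completion)

noncomputable section

variable {D : Type*} [NormedAddCommGroup D] [InnerProductSpace ℂ D]

/-- Covariance of the null deformations: `U` is a representation of the group of similitudes, it
transforms the null deformations like their action `shf` on the null hyperplanes, and the null
deformations belong to the global algebra. -/
structure Cvt (Q : Theory D) (alg : Set V → Set (D → D)) (S : V → ℝ → D → D) : Prop where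
  S_mem : ∀ a s, IsNull a → S a s ∈ alg Set.univ
  S_scale : ∀ a r s v, IsNull a → 0 < r → S (r • a) s v = S a (r * s) v
  U_mul : ∀ s L a s' L' a' v, 0 < s → 0 < s' → IsLor L → IsLor L' →
    Q.U s L a (Q.U s' L' a' v) = Q.U (s * s') (fun m => sim 1 L 0 (L' m)) (sim s L a a') v
  S_cov : ∀ σ L a s v, 0 < σ → IsLor L → IsNull a →
    Q.U σ L 0 (S a s v) = S (sim 1 L 0 a) (s / σ) (Q.U σ L 0 v)

/-- A net with covariant null deformations. -/
structure CNet (Q : Theory D) (H : D → D) (alg : Set V → Set (D → D)) (S : V → ℝ → D → D) :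
    Prop extends Net Q H alg S, Cvt Q alg S

/-- `c` is the response `∫ f(x)^* ⟨(S a s - 1) l(0), U(-x) v⟩ dx`, the inner product of the
smeared response of the potential to a null deformation with the vector `v`. -/
def Rsp (Q : Theory D) (S : V → ℝ → D → D) (l : Fn → Completion D) (a : V) (s : ℝ) (f : Fn)
    (v : D) (c : ℂ) : Prop := ∃ F G : V → ℂ, (∀ x, Val l (Q.U 1 GF.one (-x) v) (F x)) ∧
  (∀ x, Val l (S a (-s) (Q.U 1 GF.one (-x) v)) (G x)) ∧ c = ∫ x, star (f x) * (G x - F x)

/-- The response of the potential to the null deformation `S a s` is small: for one `s > 0` the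
smeared responses are vectors of the Hilbert space, and for one test function `f`, whose Fourier
transform does not vanish at some null vector `p`, the square of the norm of the smeared response
is not bounded below by a constant times `s` as `s > 0` goes to zero. -/
def Small (Q : Theory D) (S : V → ℝ → D → D) (l : Fn → Completion D) (a : V) : Prop :=
  (∃ s > 0, ∀ f, IsTest f → ∃ C, ∀ v c, Rsp Q S l a s f v c → ‖c‖ ≤ C * ‖v‖) ∧
  ∃ f p, IsTest f ∧ IsNull p ∧ ∫ x, Complex.exp (Complex.I * mdot p x) * f x ≠ 0 ∧
    ∀ ε > 0, ∃ᶠ s in 𝓝[>] 0, ∀ v c, Rsp Q S l a s f v c → ‖c‖ ^ 2 ≤ ε * s * ‖v‖ ^ 2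

end

end Vale.Agent.P352.H496
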