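import Vale.Agent.P352.H496.Defs2

open MeasureTheory Filter Topology
open scoped ComplexConjugate

namespace Vale.Agent.P352.H496

open GF H246
open UniformSpace (Completion)

noncomputable section

variable {D : Type*} [NormedAddCommGroup D] [InnerProductSpace ℂ D]

/-- `G a` is the generator of the null deformations `S a` and belongs to the global algebra. The
null deformations `S a` transform under the translations along the null hyperplane `a·z = 0` like
their action `shf a` on this null hyperplane (`L` is a null rotation that fixes `a`), and the
Lorentz transformations depend continuously on the matrix. -/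
structure Gnr (Q : Theory D) (alg : Set V → Set (D → D)) (S : V → ℝ → D → D) (G : V → D → D) :
    Prop where
  mem : ∀ a, IsNull a → G a ∈ alg Set.univ
  der : ∀ a v, IsNull a → HasDerivAt (fun s : ℝ => S a s v) (Complex.I • G a v) 0
  ptr : ∀ (a : V) (s : ℝ) (w : V) (L : Ix → V) v, IsNull a → mdot a w = 0 → IsLor L →
    (∀ z, sim 1 L 0 z = z - (2 * s * mdot w z) • a + (2 * s * mdot a z) • w -
      (2 * s ^ 2 * mdot w w * mdot a z) • a) →
    S a s (Q.U 1 GF.one w v) = Q.U 1 GF.one w (S a s (Q.U 1 L (-(s * mdot w w) • a) v))
  cont : ∀ v, ContinuousOn (fun L => Q.U 1 L 0 v) {L | IsLor L}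

end

end Vale.Agent.P352.H496
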