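import Vale.Agent.P352.H755.TP

open MeasureTheory Filter Topology
open scoped ComplexConjugate

namespace Vale.Agent.P352.H496

open GF H246 H755
open UniformSpace (Completion)

noncomputable section

variable {D : Type*} [NormedAddCommGroup D] [InnerProductSpace ℂ D]

/-- The Fourier transform of `g` has compact support in the open forward cone. -/
def Fwd (g : Fn) : Prop := ∃ K : Set V, IsCompact K ∧ (∀ p ∈ K, 0 < p o ∧ 0 < mdot p p) ∧
  ∀ p ∉ K, ∫ x, Complex.exp (Complex.I * mdot p x) * g x = 0

/-- The amplitude `⟨T{J(dφ) J(h)} Ω, v⟩ = -⟨T{Θ(φ) J(h)} Ω, v⟩`, `Θ` the trace of the stress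
tensor, with the on-shell dilaton source `φ = Φ'(a·x)`, `a` null, and of the current `J` with the
compactly supported source `h`, in the form given by the light front Ward identity: the null
moments `G_a(u) = U(u b) G_a U(-u b)` of the stress tensor on the null hyperplanes `a·x = u` act
after the current `J(y)`, `a·y < u`, and the remaining term is the action of the vector field
`Yf a b Φ` on the current. -/
def Amp (Q : Theory D) (J : Ix → Fld D) (G : V → D → D) (a b : V) (Φ : ℝ → ℝ) (h : Ix → V → ℝ)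
    (v : D) : ℂ :=
  (∫ u, (deriv (deriv (deriv Φ)) u / 2 : ℂ) * ∫ y in {y | mdot a y < u}, ∑ i, (h i y : ℂ) *
    vj Q J i (Q.U 1 GF.one (-y) (Q.U 1 GF.one (u • b) (G a (Q.U 1 GF.one (-(u • b)) v))))) +
  Complex.I * inner ℂ (∑ i, J i (fun x => (act (Yf a b Φ) (fun x => deriv Φ (mdot a x))
    h i x : ℂ)) Q.vac) v

/-- Crossing symmetry of the on-shell two dilaton amplitudes `⟨T{Θ(φ(a·x)) Θ(ψ(b·x))} Ω, v⟩`,
`v = J^m(g) Ω`: the limit of the amplitudes with the on-shell source `φ(a·x)`, `φ = Φ'`, and the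
source `ψ(b·x)`, `ψ = Ψ'`, when the cutoff of the second source is removed, and the same limit
with the roles of the two sources exchanged, are equal. -/
def Crossing (Q : Theory D) (J : Ix → Fld D) (G : V → D → D) (κ : V → ℝ) : Prop :=
  ∀ a b Φ Ψ m g, IsNull a → IsNull b → mdot a b = 1 → Tst Φ → Tst Ψ → IsTest g → Fwd g →
    ∃ c, Tendsto (fun R => Amp Q J G a b Φ
      (fun i => dr i fun x => cut b a κ R x * deriv Ψ (mdot b x)) (J m g Q.vac)) atTop (𝓝 c) ∧
    Tendsto (fun R => Amp Q J G b a Ψ
      (fun i => dr i fun x => cut a b κ R x * deriv Φ (mdot a x)) (J m g Q.vac)) atTop (𝓝 c)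

end

end Vale.Agent.P352.H496
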