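import Vale.Agent.P352.H496.Word
import Vale.Agent.P352.H246.Part

set_option linter.all false

noncomputable section

open MeasureTheory SchwartzMap Complex Filter Topology
open scoped SchwartzMap ComplexConjugate ENNReal LineDeriv

namespace Vale.Agent.P352.H496

open GF (Ix V Fn Sch ev pd bar sim bas o)
open H246
open UniformSpace (Completion)

variable {D : Type*} [NormedAddCommGroup D] [InnerProductSpace ℂ D]
variable {Q : GF.Theory D}
variable {H : D → D} {alg : Set V → Set (D → D)} {S : V → ℝ → D → D}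

/-- the points that are spacelike to the origin -/
def Sp0 : Set V := {x | GF.mdot x x < 0}

lemma exists_pair {x : V} (hx : x ∈ Sp0) : ∃ a b, IsNull a ∧ IsNull b ∧ 0 < GF.mdot a b ∧
    x ∈ Wdg a b 0 := by
  have h1 : GF.mdot x x < 0 := hx
  rw [gm] at h1
  set r : ℝ := √(x 1 ^ 2 + x 2 ^ 2 + x 3 ^ 2) with hr
  have hs : x 0 ^ 2 < x 1 ^ 2 + x 2 ^ 2 + x 3 ^ 2 := by linarith
  have h0 : 0 < x 1 ^ 2 + x 2 ^ 2 + x 3 ^ 2 := lt_of_le_of_lt (sq_nonneg _) hs
  have hr0 : 0 < r := Real.sqrt_pos.2 h0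
  have hr2 : r ^ 2 = x 1 ^ 2 + x 2 ^ 2 + x 3 ^ 2 := Real.sq_sqrt h0.le
  have habs : |x 0| < r := by
    apply Real.lt_sqrt_of_sq_lt
    rwa [sq_abs]
  rw [abs_lt] at habs
  refine ⟨![r, x 1, x 2, x 3], ![r, -x 1, -x 2, -x 3], ⟨?_, ?_⟩, ⟨?_, ?_⟩, ?_, ?_, ?_⟩
  · rw [gm]; simp; nlinarith
  · simpa [o] using hr0
  · rw [gm]; simp; nlinarith
  · simpa [o] using hr0
  · rw [gm]; simp; nlinarith
  · show GF.mdot _ (x - 0) < 0
    rw [sub_zero, gm]; simp; nlinarith
  · show 0 < GF.mdot _ (x - 0)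
    rw [sub_zero, gm]; simp; nlinarith

lemma isOpen_MW_Wdg (a b v : V) : IsOpen (MW (Wdg a b v)) := by
  have : MW (Wdg a b v) = {x : Mink | GF.mdot a (x.ofLp - v) < 0} ∩
      {x : Mink | 0 < GF.mdot b (x.ofLp - v)} := rfl
  rw [this]
  apply IsOpen.inter
  · apply isOpen_lt _ continuous_const
    simp only [gm, Pi.sub_apply]
    fun_prop
  · apply isOpen_lt continuous_const
    simp only [gm, Pi.sub_apply]
    fun_prop

/-- the reflected relation for `Y` on all wedges with edge through the origin -/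
def Rel0 (Q : GF.Theory D) (alg : Set V → Set (D → D)) (φ : Completion D) (B Y Y' : D → D) :
    Prop := ∀ a b, IsNull a → IsNull b → 0 < GF.mdot a b → Rel Q alg φ B Y Y' a b

section

variable (N : Net Q H alg S) {φ : Completion D} {B : D → D} (hB : B ∈ alg Set.univ)
include N hB

lemma pt_add (v w : D) : pt φ B (v + w) = pt φ B v + pt φ B w := by
  obtain ⟨B', _, hadj⟩ := N.adj _ B hB
  unfold pt
  rw [Adj.add hadj, Completion.coe_add, inner_add_right]

lemma pt_smul (c : ℂ) (v : D) : pt φ B (c • v) = c * pt φ B v := by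
  obtain ⟨B', _, hadj⟩ := N.adj _ B hB
  unfold pt
  rw [Adj.smul hadj, Completion.coe_smul, inner_smul_right]

lemma Rel0.add {Y Y' Z Z' : D → D} (h : Rel0 Q alg φ B Y Y') (h' : Rel0 Q alg φ B Z Z') :
    Rel0 Q alg φ B (fun v => Y v + Z v) (fun v => Y' v + Z' v) := by
  intro a b ha hb hab X hX X' hXX'
  have h1 := h a b ha hb hab X hX X' hXX'
  have h2 := h' a b ha hb hab X hX X' hXX'
  show pt φ B (Y (X Q.vac) + Z (X Q.vac)) = conj (pt φ B (X' (Y' Q.vac + Z' Q.vac)))
  rw [pt_add N hB, h1, h2, hXX'.symm.add, pt_add N hB, map_add]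

lemma Rel0.smul {Y Y' : D → D} (h : Rel0 Q alg φ B Y Y') (c : ℂ) :
    Rel0 Q alg φ B (fun v => c • Y v) (fun v => conj c • Y' v) := by
  intro a b ha hb hab X hX X' hXX'
  have h1 := h a b ha hb hab X hX X' hXX'
  show pt φ B (c • Y (X Q.vac)) = conj (pt φ B (X' (conj c • Y' Q.vac)))
  rw [pt_smul N hB, h1, hXX'.symm.smul, pt_smul N hB, map_mul, conj_conj]

omit hB in
lemma Rel0.congr {Y Y' Z Z' : D → D} (h : Rel0 Q alg φ B Y Y') (e : ∀ v, Y v = Z v)
    (e' : ∀ v, Y' v = Z' v) : Rel0 Q alg φ B Z Z' := by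
  have h1 : Y = Z := funext e
  have h2 : Y' = Z' := funext e'
  rwa [h1, h2] at h

variable (hBU : ∀ (x : V) v, B (Q.U 1 GF.one x v) = Q.U 1 GF.one x (B v))
  (inv : ∀ a, IsNull a → ∀ s v, pt φ B (S a s v) = pt φ B v)
include hBU inv

lemma Rel0.mul {Y Y' : D → D} (h : Rel0 Q alg φ B Y Y') (hY : Y ∈ alg Set.univ)
    (hYY : Adj Y Y') {a b : V} (ha : IsNull a) (hb : IsNull b) (hab : 0 < GF.mdot a b)
    {Z Z' : D → D} (hZ : Z ∈ alg (Wdg a b 0)) (hZZ : Adj Z Z') :
    Rel0 Q alg φ B (fun v => Y (Z v)) (fun v => Z' (Y' v)) := by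
  intro a' b' ha' hb' hab'
  have hZ' := adj_mem N hB hZ hZZ
  have hY' := adj_mem N hB hY hYY
  have m1 := N.mul _ Y hY Z (mem_univ N hB hZ)
  have m2 := N.mul _ Z' (mem_univ N hB hZ') Y' hY'
  have h2 : Rel Q alg φ B (fun v => Y (Z v)) (fun v => Z' (Y' v)) a b := by
    intro X hX X' hXX'
    have m3 := N.mul _ Z hZ X hX
    have h3 := h a b ha hb hab (fun v => Z (X v)) m3 (fun v => X' (Z' v)) (hZZ.comp hXX')
    exact h3
  exact rel_all N hB hBU inv m1 m2 ha hb ha' hb' hab hab' h2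

/-- multiplication by a field smeared with a test function supported in the causal complement
of the origin -/
lemma Rel0.fld {Y Y' : D → D} (h : Rel0 Q alg φ B Y Y') (hY : Y ∈ alg Set.univ)
    (hYY : Adj Y Y') {A A' : GF.Fld D} (hA : Q.fld A) (hA' : Q.fld A')
    (hadj : ∀ f v w, GF.IsTest f → inner ℂ (A f v) w = inner ℂ v (A' (bar f) w)) {g : Fn}
    (hg : In Sp0 g) :
    Rel0 Q alg φ B (fun v => Y (A g v)) (fun v => A' (bar g) (Y' v)) := by
  obtain ⟨G, rfl, hG⟩ := exists_In hg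
  have step := part_induct (P := fun F : 𝓢(Mink, ℂ) => IsTest Set.univ F ∧
    Rel0 Q alg φ B (fun v => Y (A (fl F) v)) (fun v => A' (bar (fl F)) (Y' v)))
    (by
      refine ⟨isTest_zero _, ?_⟩
      intro a b ha hb hab X hX X' hXX'
      show pt φ B (Y (A (fl 0) (X Q.vac))) = conj (pt φ B (X' (A' (bar (fl 0)) (Y' Q.vac))))
      rw [fld_zero hA, bar_fl, conjS_zero, fld_zero hA']
      have z1 : Y 0 = 0 := by
        have := hYY.smul 0 0
        rwa [zero_smul, zero_smul] at this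
      have z2 : X' 0 = 0 := by
        have := hXX'.symm.smul 0 0
        rwa [zero_smul, zero_smul] at this
      have z3 : pt φ B 0 = 0 := by
        have := pt_smul N hB (φ := φ) 0 (0 : D)
        rwa [zero_smul, zero_mul] at this
      rw [z1, z2, z3, map_zero])
    (by
      rintro F1 F2 _ _ ⟨h1, e1⟩ ⟨h2, e2⟩
      refine ⟨h1.add h2, ?_⟩
      refine (Rel0.add N hB e1 e2).congr N (fun v => ?_) (fun v => ?_)
      · rw [fld_addf hA, hYY.add]
      · rw [bar_fl, bar_fl, bar_fl, conjS_add, fld_addf hA'])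
    hG.1.isCompact
    (by
      intro x hx
      obtain ⟨a, b, ha, hb, hab, hxab⟩ := exists_pair (hG.2 hx : x.ofLp ∈ Sp0)
      refine ⟨_, isOpen_MW_Wdg a b 0, hxab, fun F hF => ⟨isTest_univ hF, ?_⟩⟩
      have hin : In (Wdg a b 0) (fl F) := In_fl.2 hF
      exact h.mul N hB hBU inv hY hYY ha hb hab (N.fld _ A _ hA hin)
        (fun v w => hadj _ _ _ (isTest_fl F)))
  obtain ⟨U, _, hKU, hall⟩ := step
  exact (hall G ⟨hG.1, hKU⟩).2

omit hBU inv in
lemma Al_mem {W : Set V} {X X' : D → D} (h : Al Q W X X') : X ∈ alg Set.univ := by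
  induction h with
  | one => exact N.one _
  | add X X' Y Y' _ _ ih1 ih2 => exact N.add _ _ ih1 _ ih2
  | smul c X X' _ ih => exact N.smul _ c _ ih
  | fld A B' g X X' hA hB' h hg _ ih =>
    exact N.mul _ _ (N.fld _ A g hA ⟨hg.1, hg.2.1, Set.subset_univ _⟩) _ ih

/-- the reflected relation for field polynomials in the causal complement of the origin -/
theorem Rel0.al {X X' : D → D} (hX : Al Q Sp0 X X') : ∀ {Y Y' : D → D},
    Rel0 Q alg φ B Y Y' → Y ∈ alg Set.univ → Adj Y Y' →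
    Rel0 Q alg φ B (fun v => Y (X v)) (fun v => X' (Y' v)) := by
  induction hX with
  | one => intro Y Y' h _ _; exact h
  | add X X' Z Z' hX hZ ih1 ih2 =>
    intro Y Y' h hY hYY
    refine (Rel0.add N hB (ih1 h hY hYY) (ih2 h hY hYY)).congr N (fun v => ?_) (fun v => rfl)
    rw [hYY.add]
  | smul c X X' hX ih =>
    intro Y Y' h hY hYY
    refine (Rel0.smul N hB (ih h hY hYY) c).congr N (fun v => ?_) (fun v => rfl)
    rw [hYY.smul]
  | fld A A' g X X' hA hA' hadj hg hX ih =>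
    intro Y Y' h hY hYY
    have hgu : In Set.univ g := ⟨hg.1, hg.2.1, Set.subset_univ _⟩
    have hAa : Adj (A g) (A' (bar g)) := fun v w => hadj g v w hg.1
    have h1 := h.fld N hB hBU inv hY hYY hA hA' hadj hg
    have m1 := N.mul _ Y hY _ (N.fld _ A g hA hgu)
    have m2 := hYY.comp hAa
    exact ih (Y := fun v => Y (A g v)) (Y' := fun v => A' (bar g) (Y' v)) h1 m1 m2

/-- hermiticity of the point like functional on the causal complement of the origin -/
theorem herm_point (base : Rel0 Q alg φ B (fun v => v) (fun v => v)) {X X' : D → D}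
    (hX : Al Q Sp0 X X') : pt φ B (X Q.vac) = conj (pt φ B (X' Q.vac)) := by
  have h := Rel0.al N hB hBU inv hX base (N.one _) (fun v w => rfl)
  obtain ⟨a, b, ha, hb, hab, _⟩ := exists_pair (x := ![0, 1, 0, 0])
    (by show GF.mdot _ _ < 0; simp [gm])
  exact h a b ha hb hab (fun v => v) (N.one _) (fun v => v) (fun v w => rfl)

end

end Vale.Agent.P352.H496

end
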