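import Vale.Agent.P352.H496.Defs4
import Vale.Agent.P352.H246.Rc8

set_option linter.all false

noncomputable section

open MeasureTheory SchwartzMap Complex Filter Topology
open scoped SchwartzMap ComplexConjugate ENNReal LineDeriv ContDiff FourierTransform

namespace Vale.Agent.P352.H496

open GF (Ix V Fn Sch ev pd bar sim bas o)
open H246
open UniformSpace (Completion)

lemma four_fl (g : 𝓢(Mink, ℂ)) (p : V) :
    ∫ x : V, Complex.exp (Complex.I * GF.mdot p x) * fl g x = mftS g (WithLp.toLp 2 p) := by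
  rw [mftS_apply, mft, integral_V]
  congr 1
  funext x
  rw [mdot_eq]
  rfl

/-- the condition on the test function -/
lemma fwd_iff {g : 𝓢(Mink, ℂ)} : Fwd (fl g) ↔ H246R.PC (mftS g) := by
  constructor
  · rintro ⟨K, hK, h1, h2⟩
    set K' : Set Mink := (fun p : V => (WithLp.toLp 2 p : Mink)) '' K with hK'
    have hcK : IsCompact K' := hK.image (by fun_prop)
    have hz : ∀ p ∉ K', mftS g p = 0 := by
      intro p hp
      have h3 := h2 p.ofLp (fun h => hp ⟨p.ofLp, h, rfl⟩)
      rw [four_fl] at h3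
      exact h3
    have hts : tsupport (mftS g) ⊆ K' := closure_minimal (fun p hp => by
      by_contra h
      exact hp (hz p h)) hcK.isClosed
    refine ⟨HasCompactSupport.intro hcK hz, fun p hp => ?_⟩
    obtain ⟨q, hq, rfl⟩ := hts hp
    obtain ⟨h3, h4⟩ := h1 q hq
    exact (H246R.Vp_iff _).2 ⟨h3, by
      show 0 < mdot _ _
      rw [mdot_eq]; exact h4⟩
  · rintro ⟨h1, h2⟩
    refine ⟨(fun p : Mink => p.ofLp) '' tsupport (mftS g),
      h1.isCompact.image (by fun_prop), ?_, fun p hp => ?_⟩
    · rintro _ ⟨p, hp, rfl⟩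
      obtain ⟨h3, h4⟩ := (H246R.Vp_iff _).1 (h2 hp)
      refine ⟨h3, ?_⟩
      have h5 : mdot p p = GF.mdot p.ofLp p.ofLp := mdot_eq p p
      rw [← h5]
      exact h4
    · rw [four_fl]
      by_contra h
      exact hp ⟨WithLp.toLp 2 p, subset_tsupport _ h, rfl⟩

end Vale.Agent.P352.H496

end
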