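import Vale.Agent.P352.H731.SeqZero
import Vale.Agent.P352.H731.Bumps
import Vale.Agent.P352.H467.PosInt
import Vale.Agent.P352.H467.FatouSq
import Vale.Agent.P352.MathlibUsed

set_option linter.all false

open MeasureTheory Filter Topology
open scoped ComplexConjugate ContDiff

namespace Vale.Agent.P352.H496

theorem seq_zero {κ L : ℤ → ℂ} {e C : ℝ} (hκ : ∀ k, ‖κ k‖ ≤ C * (1/2:ℝ) ^ k.natAbs)
    (hs : ∑' k, κ k = 0) (hL : Summable fun k => ‖L k‖)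
    (hpos : ∀ (s : Finset ℤ) (t : ℤ → ℂ),
      0 ≤ (∑ i ∈ s, ∑ j ∈ s, conj (t i) * t j * κ (i - j)).re +
        2 * (∑ i ∈ s, conj (t i) * L i).re + e) : ∑' k, L k = 0 :=
  H731.seq_zero hκ hs hL hpos

theorem pos_int {D : Type*} [NormedAddCommGroup D] [InnerProductSpace ℂ D]
    (R : ℝ × ℝ → D → D) (C : D → D)
    (radd : ∀ c c' v, R c (R c' v) = R (c + c') v)
    (rinn : ∀ c v w, inner ℂ (R c v) (R c w) = inner ℂ v w)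
    (rcont : ∀ v, Continuous fun c => R c v)
    (cadd : ∀ v w, C (v + w) = C v + C w) (csmul : ∀ (a : ℂ) v, C (a • v) = a • C v)
    (ccomm : ∀ c v, C (R c v) = R c (C v)) (cpos : ∀ v, 0 ≤ (inner ℂ v (C v)).re)
    (z : D) (hz : Integrable fun c => inner ℂ (R c z) (C z)) :
    0 ≤ (∫ c, inner ℂ (R c z) (C z)).re :=
  H467.pos_int R C radd rinn rcont cadd csmul ccomm cpos z hz

theorem fatou_sq {X : Type*} [MeasurableSpace X] (ν : Measure X) [IsFiniteMeasure ν] (f : X → ℝ)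
    (hf : Measurable f) (M : ℝ) (t : ℕ → ℝ) (t0 : ∀ n, 0 < t n) (tt : Tendsto t atTop (𝓝 0))
    (m : ℕ → ℝ) (hm : Tendsto m atTop (𝓝 M))
    (h : ∀ n, ∫ x, 2 * (1 - Real.cos (t n * f x)) ∂ν ≤ m n * (t n)^2) :
    Integrable (fun x => f x ^ 2) ν ∧ ∫ x, f x ^ 2 ∂ν ≤ M :=
  H467.fatou_sq ν f hf M t t0 tt m hm h

theorem exists_bumps : ∃ g θ : ℝ → ℝ, ContDiff ℝ ∞ g ∧ HasCompactSupport g ∧ (∀ x, 0 ≤ g x) ∧
    ∫ x, g x = 1 ∧ ContDiff ℝ ∞ θ ∧ (∀ x, θ x ≠ 0 → 1/4 ≤ x ∧ x ≤ 4) ∧ (∀ x, 0 ≤ θ x) ∧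
    ContDiff ℝ ∞ (fun x => θ x / x) ∧ ∀ m, 0 < m → HasSum (fun j : ℤ => θ ((4:ℝ) ^ j * m)) 1 :=
  H731.exists_bumps

end Vale.Agent.P352.H496
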