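import Vale.Agent.P352.H496.Gen1
import Vale.Agent.P352.H496.GenAux

set_option linter.all false

noncomputable section

open MeasureTheory SchwartzMap Complex Filter Topology
open scoped SchwartzMap ComplexConjugate ENNReal LineDeriv

namespace Vale.Agent.P352.H496

open GF (Ix V Fn Sch ev pd bar sim bas o)
open H246
open UniformSpace (Completion)

variable {D : Type*} [NormedAddCommGroup D] [InnerProductSpace ℂ D]
variable {Q : GF.Theory D}
variable {H : D → D} {alg : Set V → Set (D → D)} {S : V → ℝ → D → D} {G : V → D → D}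

/-! ### Finite differences of translates -/

/-- the difference of a translate -/
lemma norm_diff_sq {v : D} {ν : Measure Mink} [IsFiniteMeasure ν]
    (hν : ∀ a : Mink, inner ℂ v (U1 Q a v) = ∫ p, chr a p ∂ν) (a : Mink) :
    ‖U1 Q a v - v‖ ^ 2 = ∫ p, 2 * (1 - Real.cos (mdot p a)) ∂ν := by
  have h4 : ‖U1 Q a v - v‖ ^ 2 = 2 * ‖v‖ ^ 2 - 2 * (inner ℂ v (U1 Q a v)).re := by
    rw [@norm_sub_sq ℂ, U1_norm]
    have : RCLike.re (inner ℂ (U1 Q a v) v) = (inner ℂ v (U1 Q a v)).re := by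
      rw [← inner_conj_symm]
      exact conj_re _
    rw [this]
    ring
  have hi : ∀ a : Mink, Integrable (fun p => chr a p) ν := fun a =>
    (integrable_const (1 : ℝ)).mono' (continuous_chr a).aestronglyMeasurable
      (Eventually.of_forall fun p => by rw [norm_chr])
  have hre : ∀ a : Mink, (inner ℂ v (U1 Q a v)).re = ∫ p, Real.cos (mdot p a) ∂ν := by
    intro a
    rw [hν a]
    have h1 := integral_re (𝕜 := ℂ) (hi a)
    have h2 : (∫ p, chr a p ∂ν).re = ∫ p, (chr a p).re ∂ν := h1.symm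
    rw [h2]
    congr 1
    ext p
    unfold chr
    rw [mul_comm, Complex.exp_ofReal_mul_I_re]
  have h5 : ‖v‖ ^ 2 = ∫ p : Mink, (1 : ℝ) ∂ν := by
    have h6 := hre 0
    rw [U1_zero_all, inner_self_eq_norm_sq_to_K] at h6
    have h7 : ∀ p : Mink, Real.cos (mdot p 0) = 1 := by
      intro p
      have : mdot p (0 : Mink) = 0 := by simp [mdot]
      rw [this, Real.cos_zero]
    simp only [h7] at h6
    rw [← h6]
    norm_cast
  have hci : Integrable (fun p => Real.cos (mdot p a)) ν :=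
    (integrable_const (1 : ℝ)).mono' (Real.continuous_cos.comp
      (continuous_mdot_left a)).aestronglyMeasurable
      (Eventually.of_forall fun p => by
        rw [Real.norm_eq_abs]; exact Real.abs_cos_le_one _)
  rw [h4, hre, h5, integral_const_mul, integral_sub (integrable_const _) hci]
  ring

/-- translates differ by at most the energy -/
lemma diff_le (N : Net Q H alg S) (w : Mink) (v : D) :
    ‖U1 Q w v - v‖ ≤ 2 * ‖w‖ * ‖H v‖ := by
  obtain ⟨ν, hfin, hcone, hν⟩ := spec_meas Q v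
  set t : ℕ → ℝ := fun n => 1 / ((n : ℝ) + 1) with ht
  have ht0 : ∀ n, 0 < t n := fun n => by simp only [ht]; positivity
  have htt : Tendsto t atTop (𝓝 0) := tendsto_one_div_add_atTop_nhds_zero_nat
  have htn : Tendsto t atTop (𝓝[≠] 0) := tendsto_nhdsWithin_iff.2
    ⟨htt, Eventually.of_forall fun n => (ht0 n).ne'⟩
  have h1 := (hasDerivAt_iff_tendsto_slope.1 (hasDeriv_H N v)).comp htn
  have h2 : Tendsto (fun n => (‖U1 Q (t n • eb 0) v - v‖ / t n) ^ 2) atTop (𝓝 (‖H v‖ ^ 2)) := by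
    have h3 := h1.norm
    rw [norm_smul, norm_I, one_mul] at h3
    refine (h3.pow 2).congr fun n => ?_
    simp only [Function.comp_apply, slope_def_module, sub_zero, zero_smul, U1_zero_all]
    rw [norm_smul, norm_inv, Real.norm_of_nonneg (ht0 n).le]
    rw [div_eq_inv_mul]
  obtain ⟨hi, hle⟩ := fatou_sq ν (fun p : Mink => p 0) (by fun_prop) (‖H v‖ ^ 2) t ht0 htt _ h2
    (fun n => by
      rw [div_pow, div_mul_cancel₀ _ (pow_ne_zero 2 (ht0 n).ne'), norm_diff_sq hν]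
      apply le_of_eq
      simp only [mdot_eb0])
  have hb : ‖U1 Q w v - v‖ ^ 2 ≤ (2 * ‖w‖ * ‖H v‖) ^ 2 := by
    rw [norm_diff_sq hν]
    have hi2 : Integrable (fun p : Mink => 2 * ‖w‖ ^ 2 * (p 0) ^ 2) ν := hi.const_mul _
    calc ∫ p, 2 * (1 - Real.cos (mdot p w)) ∂ν ≤ ∫ p : Mink, 2 * ‖w‖ ^ 2 * (p 0) ^ 2 ∂ν := by
          apply integral_mono_of_nonneg
          · exact Eventually.of_forall fun p => by
              have := Real.cos_le_one (mdot p w)
              show 0 ≤ 2 * (1 - Real.cos (mdot p w))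
              linarith
          · exact hi2
          · filter_upwards [hcone] with p hp
            have h3 := Real.one_sub_sq_div_two_le_cos (x := mdot p w)
            have h4 : ‖p‖ ^ 2 ≤ 2 * (p 0) ^ 2 := by
              rw [norm_sq_mink]
              have h2 : 0 ≤ mdot p p := hp.2
              unfold mdot at h2
              nlinarith
            have h5 : (mdot p w) ^ 2 ≤ (‖p‖ * ‖w‖) ^ 2 := by
              rw [← sq_abs]
              have := abs_mdot_le p w
              gcongr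
            have h6 : (‖p‖ * ‖w‖) ^ 2 ≤ 2 * ‖w‖ ^ 2 * (p 0) ^ 2 := by
              rw [mul_pow]
              nlinarith [sq_nonneg ‖w‖]
            show 2 * (1 - Real.cos (mdot p w)) ≤ _
            linarith
      _ = 2 * ‖w‖ ^ 2 * ∫ p : Mink, (p 0) ^ 2 ∂ν := integral_const_mul _ _
      _ ≤ 2 * ‖w‖ ^ 2 * ‖H v‖ ^ 2 := by gcongr
      _ ≤ (2 * ‖w‖ * ‖H v‖) ^ 2 := by nlinarith [sq_nonneg (‖w‖ * ‖H v‖)]
  exact le_of_sq_le_sq hb (by positivity)

/-! ### Graph norms of the energy -/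

/-- graph norms of the energy -/
def nh (H : D → D) : ℕ → D → ℝ
  | 0, v => ‖v‖
  | n + 1, v => nh H n v + nh H n (H v)

lemma nh_nonneg (n : ℕ) (v : D) : 0 ≤ nh H n v := by
  induction n generalizing v with
  | zero => exact norm_nonneg v
  | succ n ih => exact add_nonneg (ih v) (ih _)

lemma nh_le_succ (n : ℕ) (v : D) : nh H n v ≤ nh H (n + 1) v :=
  le_add_of_nonneg_right (nh_nonneg n _)

lemma nh_H_le (n : ℕ) (v : D) : nh H n (H v) ≤ nh H (n + 1) v :=
  le_add_of_nonneg_left (nh_nonneg n _)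

/-- difference of a translate -/
def dl (Q : GF.Theory D) (w : Mink) (v : D) : D := U1 Q w v - v

section

variable (N : Net Q H alg S)
include N

lemma H_add (v w : D) : H (v + w) = H v + H w := by
  obtain ⟨Y, -, h⟩ := N.adj _ H N.energy_mem
  exact Adj.add h v w

lemma H_smul (c : ℂ) (v : D) : H (c • v) = c • H v := by
  obtain ⟨Y, -, h⟩ := N.adj _ H N.energy_mem
  exact Adj.smul h c v

lemma H_sub (v w : D) : H (v - w) = H v - H w := by
  have h1 : v - w = v + (-1 : ℂ) • w := by rw [neg_one_smul, sub_eq_add_neg]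
  rw [h1, H_add N, H_smul N, neg_one_smul, ← sub_eq_add_neg]

lemma nh_U1 (n : ℕ) (w : Mink) (v : D) : nh H n (U1 Q w v) = nh H n v := by
  induction n generalizing v with
  | zero => exact U1_norm w v
  | succ n ih =>
    show nh H n (U1 Q w v) + nh H n (H (U1 Q w v)) = nh H n v + nh H n (H v)
    rw [H_comm N, ih, ih]

lemma nh_dl (n : ℕ) (w : Mink) (v : D) : nh H n (dl Q w v) ≤ 2 * ‖w‖ * nh H n (H v) := by
  induction n generalizing v with
  | zero => exact diff_le N w v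
  | succ n ih =>
    have e : H (dl Q w v) = dl Q w (H v) := by
      unfold dl
      rw [H_sub N, H_comm N]
    show nh H n (dl Q w v) + nh H n (H (dl Q w v)) ≤ 2 * ‖w‖ * (nh H n (H v) + nh H n (H (H v)))
    rw [e]
    have h1 := ih v
    have h2 := ih (H v)
    linarith

end

/-- iterated differences -/
def dlp (Q : GF.Theory D) (w : Mink) : ℕ → D → D
  | 0, v => v
  | n + 1, v => dl Q w (dlp Q w n v)

lemma dl_add (w : Mink) (x y : D) : dl Q w (x + y) = dl Q w x + dl Q w y := by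
  unfold dl; rw [U1_add]; abel

lemma dl_sub (w : Mink) (x y : D) : dl Q w (x - y) = dl Q w x - dl Q w y := by
  unfold dl; rw [U1_sub]; abel

lemma dl_U1 (w b : Mink) (x : D) : dl Q w (U1 Q b x) = U1 Q b (dl Q w x) := by
  unfold dl; rw [U1_sub, U1_U1_all, U1_U1_all, add_comm]

lemma dlp_sub (w : Mink) (n : ℕ) (x y : D) : dlp Q w n (x - y) = dlp Q w n x - dlp Q w n y := by
  induction n with
  | zero => rfl
  | succ n ih =>
    show dl Q w (dlp Q w n (x - y)) = dl Q w (dlp Q w n x) - dl Q w (dlp Q w n y)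
    rw [ih, dl_sub]

lemma dlp_U1 (w b : Mink) (n : ℕ) (x : D) : dlp Q w n (U1 Q b x) = U1 Q b (dlp Q w n x) := by
  induction n with
  | zero => rfl
  | succ n ih =>
    show dl Q w (dlp Q w n (U1 Q b x)) = U1 Q b (dl Q w (dlp Q w n x))
    rw [ih, dl_U1]

/-- the null direction as a vector -/
def a0 : Mink := WithLp.toLp 2 (nu (-1))

lemma lam_nr_a0 (c : ℝ × ℝ) (u : ℝ) : lam (nr c) (u • a0) = u • a0 := by
  ext n
  fin_cases n <;> simp [lam_apply, a0, nu, nr, Fin.sum_univ_four] <;> ring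

/-- transversal vectors -/
def tv (x y : ℝ) : Mink := WithLp.toLp 2 ![0, 0, x, y]

lemma lam_nr_tv (c : ℝ × ℝ) (x y : ℝ) : lam (nr c) (tv x y) = tv x y + (c.1 * x + c.2 * y) • a0 := by
  ext n
  fin_cases n <;> simp [lam_apply, a0, tv, nu, nr, Fin.sum_univ_four] <;> ring

/-- the transversal translation moving the null rotation -/
def wv (u : ℝ) (c : ℝ × ℝ) : Mink :=
  tv (u / (c.1 ^ 2 + c.2 ^ 2) * c.1) (u / (c.1 ^ 2 + c.2 ^ 2) * c.2)

lemma norm_wv (u : ℝ) {c : ℝ × ℝ} (hc : 0 < ‖c‖) : ‖wv u c‖ ≤ |u| / ‖c‖ := by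
  have hq : ‖c‖ ^ 2 ≤ c.1 ^ 2 + c.2 ^ 2 := by
    rcases le_total ‖c.1‖ ‖c.2‖ with h | h
    · have : ‖c‖ = ‖c.2‖ := by rw [Prod.norm_def, max_eq_right h]
      rw [this, Real.norm_eq_abs, sq_abs]
      nlinarith [sq_nonneg c.1]
    · have : ‖c‖ = ‖c.1‖ := by rw [Prod.norm_def, max_eq_left h]
      rw [this, Real.norm_eq_abs, sq_abs]
      nlinarith [sq_nonneg c.2]
  set q := c.1 ^ 2 + c.2 ^ 2 with hqd
  have hq0 : 0 < q := lt_of_lt_of_le (by positivity) hq
  have h1 : ‖wv u c‖ ^ 2 = u ^ 2 / q := by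
    rw [norm_sq_mink]
    simp only [wv, tv, Fin.isValue, Matrix.cons_val_zero, Matrix.cons_val_one, Matrix.cons_val,
      ← hqd]
    field_simp
    rw [hqd]
    ring
  apply le_of_sq_le_sq _ (by positivity)
  rw [h1, div_pow, sq_abs]
  gcongr

section

variable (N : CNet Q H alg S)
include N

lemma Rn_shift {u : ℝ} {c : ℝ × ℝ} (hc : 0 < ‖c‖) (v : D) :
    Rn Q c (U1 Q (u • a0) v) = U1 Q (-wv u c) (Rn Q c (U1 Q (wv u c) v)) := by
  have hq0 : c.1 ^ 2 + c.2 ^ 2 ≠ 0 := by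
    intro h
    have h1 : c.1 = 0 := by nlinarith [sq_nonneg c.1, sq_nonneg c.2]
    have h2 : c.2 = 0 := by nlinarith [sq_nonneg c.1, sq_nonneg c.2]
    have : c = 0 := Prod.ext h1 h2
    rw [this, norm_zero] at hc
    exact lt_irrefl _ hc
  rw [Rn_U1 N, Rn_U1 N, U1_U1_all, lam_nr_a0]
  congr 1
  have h1 : lam (nr c) (wv u c) = wv u c + u • a0 := by
    unfold wv
    rw [lam_nr_tv]
    congr 2
    field_simp
  rw [h1]
  abel

lemma decay_aux {u : ℝ} {c : ℝ × ℝ} (hc : 0 < ‖c‖) (n : ℕ) (x y : D) :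
    ‖inner ℂ x (Rn Q c (dlp Q (u • a0) n y))‖ ≤ (4 * ‖wv u c‖) ^ n * (nh H n x * nh H n y) := by
  induction n generalizing x y with
  | zero =>
    rw [pow_zero, one_mul]
    refine (norm_inner_le_norm _ _).trans (le_of_eq ?_)
    rw [Rn_norm]
    rfl
  | succ n ih =>
    set w := wv u c with hw
    have h1 : inner ℂ x (Rn Q c (dlp Q (u • a0) (n + 1) y)) =
        inner ℂ (dl Q w x) (Rn Q c (dlp Q (u • a0) n (U1 Q w y))) +
        inner ℂ x (Rn Q c (dlp Q (u • a0) n (dl Q w y))) := by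
      have e1 : dlp Q (u • a0) (n + 1) y = U1 Q (u • a0) (dlp Q (u • a0) n y) +
          (-1 : ℂ) • dlp Q (u • a0) n y := by
        rw [neg_one_smul, ← sub_eq_add_neg]; rfl
      have e2 : Rn Q c (dlp Q (u • a0) (n + 1) y) = U1 Q (-w) (Rn Q c (dlp Q (u • a0) n
          (U1 Q w y))) - Rn Q c (dlp Q (u • a0) n y) := by
        rw [e1, Rn_add, Rn_smul, neg_one_smul, ← sub_eq_add_neg, Rn_shift N hc, dlp_U1]
      have e3 : Rn Q c (dlp Q (u • a0) n (dl Q w y)) = Rn Q c (dlp Q (u • a0) n (U1 Q w y)) -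
          Rn Q c (dlp Q (u • a0) n y) := by
        have e4 : dlp Q (u • a0) n (dl Q w y) = dlp Q (u • a0) n (U1 Q w y) +
            (-1 : ℂ) • dlp Q (u • a0) n y := by
          rw [neg_one_smul, ← sub_eq_add_neg]; exact dlp_sub _ _ _ _
        rw [e4, Rn_add, Rn_smul, neg_one_smul, ← sub_eq_add_neg]
      have e5 : dl Q w x = U1 Q w x - x := rfl
      rw [e2, e3, e5, inner_sub_right, inner_sub_right, inner_sub_left, U1_move, neg_neg]
      ring
    have h2 := ih (dl Q w x) (U1 Q w y)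
    have h3 := ih x (dl Q w y)
    rw [nh_U1 N.toNet] at h2
    have k1 := nh_dl N.toNet n w x
    have k2 := nh_dl N.toNet n w y
    have k3 := nh_nonneg (H := H) n x
    have k4 := nh_nonneg (H := H) n y
    have k5 := nh_nonneg (H := H) n (H x)
    have k6 := nh_nonneg (H := H) n (H y)
    have hw0 := norm_nonneg w
    rw [h1]
    refine (norm_add_le _ _).trans ((add_le_add h2 h3).trans ?_)
    calc (4 * ‖w‖) ^ n * (nh H n (dl Q w x) * nh H n y) +
          (4 * ‖w‖) ^ n * (nh H n x * nh H n (dl Q w y))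
        ≤ (4 * ‖w‖) ^ n * ((2 * ‖w‖ * nh H n (H x)) * nh H n y) +
          (4 * ‖w‖) ^ n * (nh H n x * (2 * ‖w‖ * nh H n (H y))) := by gcongr
      _ = (4 * ‖w‖) ^ n * (2 * ‖w‖) * (nh H n (H x) * nh H n y + nh H n x * nh H n (H y)) := by
          ring
      _ ≤ (4 * ‖w‖) ^ n * (2 * ‖w‖) * (2 * ((nh H n x + nh H n (H x)) *
          (nh H n y + nh H n (H y)))) := by
          apply mul_le_mul_of_nonneg_left _ (by positivity)
          nlinarith [mul_nonneg k3 k4, mul_nonneg k5 k6, mul_nonneg k3 k6, mul_nonneg k5 k4]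
      _ = (4 * ‖w‖) ^ (n + 1) * (nh H (n + 1) x * nh H (n + 1) y) := by
          rw [pow_succ]
          show _ = (4 * ‖w‖) ^ n * (4 * ‖w‖) * ((nh H n x + nh H n (H x)) *
            (nh H n y + nh H n (H y)))
          ring

/-- decay in the null rotations -/
theorem decay (u : ℝ) (x y : D) : ∃ C : ℝ, ∀ c : ℝ × ℝ,
    ‖inner ℂ x (Rn Q c (dlp Q (u • a0) 3 y))‖ ≤ C * (1 + ‖c‖) ^ (-(3 : ℝ)) := by
  set C1 := ‖x‖ * ‖dlp Q (u • a0) 3 y‖ with hC1
  set C2 := (4 * |u|) ^ 3 * (nh H 3 x * nh H 3 y) with hC2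
  have h1 : 0 ≤ C1 := by positivity
  have h2 : 0 ≤ C2 := mul_nonneg (by positivity) (mul_nonneg (nh_nonneg _ _) (nh_nonneg _ _))
  refine ⟨8 * (C1 + C2), fun c => ?_⟩
  have hc0 := norm_nonneg c
  have e : (1 + ‖c‖) ^ (-(3 : ℝ)) = ((1 + ‖c‖) ^ 3)⁻¹ := by
    rw [Real.rpow_neg (by positivity)]
    norm_cast
  rw [e, ← div_eq_mul_inv, le_div_iff₀ (by positivity)]
  by_cases hc : ‖c‖ ≤ 1
  · have h3 : ‖inner ℂ x (Rn Q c (dlp Q (u • a0) 3 y))‖ ≤ C1 := by
      refine (norm_inner_le_norm _ _).trans (le_of_eq ?_)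
      rw [Rn_norm]
    have h4 : (1 + ‖c‖) ^ 3 ≤ 8 := by
      calc (1 + ‖c‖) ^ 3 ≤ (1 + 1) ^ 3 := by gcongr
        _ = 8 := by norm_num
    calc _ ≤ C1 * 8 := by gcongr
      _ ≤ _ := by linarith
  · push Not at hc
    have hc1 : 0 < ‖c‖ := by linarith
    have h3 := decay_aux N (u := u) hc1 3 x y
    have h4 := norm_wv u hc1
    have h5 : (4 * ‖wv u c‖) ^ 3 * (nh H 3 x * nh H 3 y) ≤ C2 / ‖c‖ ^ 3 := by
      have h6 : (4 * ‖wv u c‖) ^ 3 ≤ (4 * (|u| / ‖c‖)) ^ 3 := by gcongr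
      calc (4 * ‖wv u c‖) ^ 3 * (nh H 3 x * nh H 3 y)
          ≤ (4 * (|u| / ‖c‖)) ^ 3 * (nh H 3 x * nh H 3 y) := by
            apply mul_le_mul_of_nonneg_right h6
            exact mul_nonneg (nh_nonneg _ _) (nh_nonneg _ _)
        _ = C2 / ‖c‖ ^ 3 := by rw [hC2]; field_simp
    have h6 : (1 + ‖c‖) ^ 3 ≤ 8 * ‖c‖ ^ 3 := by
      calc (1 + ‖c‖) ^ 3 ≤ (‖c‖ + ‖c‖) ^ 3 := by gcongr
        _ = 8 * ‖c‖ ^ 3 := by ring
    calc _ ≤ C2 / ‖c‖ ^ 3 * (8 * ‖c‖ ^ 3) := by
          apply mul_le_mul (h3.trans h5) h6 (by positivity) (by positivity)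
      _ = 8 * C2 := by field_simp
      _ ≤ _ := by linarith

/-- integrability -/
theorem int_decay (Gg : Gnr Q alg S G) (u : ℝ) (x y : D) :
    Integrable fun c => inner ℂ (Rn Q c (dlp Q (u • a0) 3 y)) x := by
  obtain ⟨C, hC⟩ := decay N u x y
  have h0 : Integrable (fun c : ℝ × ℝ => (1 + ‖c‖) ^ (-(3 : ℝ))) :=
    integrable_one_add_norm (by simp; norm_num)
  refine (h0.const_mul C).mono' ?_ (Eventually.of_forall fun c => ?_)
  · exact ((Rn_cont N Gg _).inner continuous_const).aestronglyMeasurable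
  · rw [norm_inner_symm]
    exact hC c

end

end Vale.Agent.P352.H496

end
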