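import Vale.Agent.P352.H496.Gen2

set_option linter.all false

noncomputable section

open MeasureTheory SchwartzMap Complex Filter Topology
open scoped SchwartzMap ComplexConjugate ENNReal LineDeriv

namespace Vale.Agent.P352.H496

open GF (Ix V Fn Sch ev pd bar sim bas o)
open H246
open UniformSpace (Completion)

variable {D : Type*} [NormedAddCommGroup D] [InnerProductSpace ℂ D]
variable {Q : GF.Theory D}
variable {H : D → D} {alg : Set V → Set (D → D)} {S : V → ℝ → D → D} {G : V → D → D}

lemma tendsto_sin_quot (y : ℝ) {t : ℕ → ℝ} (ht : Tendsto t atTop (𝓝[≠] 0)) :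
    Tendsto (fun n => (t n)⁻¹ * Real.sin (t n * y)) atTop (𝓝 y) := by
  have h1 : HasDerivAt (fun s : ℝ => Real.sin (s * y)) y 0 := by
    have := ((hasDerivAt_id (0 : ℝ)).mul_const y).sin
    simpa using this
  have h2 := (hasDerivAt_iff_tendsto_slope.1 h1).comp ht
  refine h2.congr fun n => ?_
  simp [slope_def_module]

/-- positivity of the generator -/
lemma G_pos (N : CNet Q H alg S) (Gg : Gnr Q alg S G) {a : V} (ha : IsNull a) (v : D) :
    0 ≤ (inner ℂ v (G a v)).re := by
  obtain ⟨ν, hfin, hpos, hν⟩ := N.S_spec a v ha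
  have hint : ∀ s : ℝ, Integrable (fun c : ℝ => exp (I * s * c)) ν := fun s =>
    (integrable_const (1 : ℝ)).mono' (by fun_prop)
      (Eventually.of_forall fun c => by
        have : I * s * c = ((s * c : ℝ) : ℂ) * I := by push_cast; ring
        rw [this, norm_exp_ofReal_mul_I])
  have hex : ∀ s c : ℝ, exp (I * s * c) = Real.cos (s * c) + Real.sin (s * c) * I := by
    intro s c
    have : I * s * c = ((s * c : ℝ) : ℂ) * I := by push_cast; ring
    rw [this, exp_mul_I, ofReal_cos, ofReal_sin]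
  have hre : ∀ s : ℝ, (inner ℂ v (S a s v)).re = ∫ c, Real.cos (s * c) ∂ν := by
    intro s
    rw [hν s]
    have h1 := integral_re (𝕜 := ℂ) (hint s)
    have h2 : (∫ c : ℝ, exp (I * s * c) ∂ν).re = ∫ c : ℝ, (exp (I * s * c)).re ∂ν := h1.symm
    rw [h2]
    congr 1
    ext c
    rw [hex, add_re, re_ofReal_mul, I_re, mul_zero, add_zero, ofReal_re]
  have him : ∀ s : ℝ, (inner ℂ v (S a s v)).im = ∫ c, Real.sin (s * c) ∂ν := by
    intro s
    rw [hν s]
    have h1 := integral_im (𝕜 := ℂ) (hint s)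
    have h2 : (∫ c : ℝ, exp (I * s * c) ∂ν).im = ∫ c : ℝ, (exp (I * s * c)).im ∂ν := h1.symm
    rw [h2]
    congr 1
    ext c
    rw [hex, add_im, im_ofReal_mul, I_im, mul_one, ofReal_im, zero_add]
  have hv : ‖v‖ ^ 2 = ∫ c : ℝ, (1 : ℝ) ∂ν := by
    have h6 := hre 0
    rw [S_zero N.toNet ha, inner_self_eq_norm_sq_to_K] at h6
    simp only [zero_mul, Real.cos_zero] at h6
    rw [← h6]
    norm_cast
  have hd : ∀ s : ℝ, ‖S a s v - v‖ ^ 2 = ∫ c, 2 * (1 - Real.cos (s * c)) ∂ν := by
    intro s
    have h4 : ‖S a s v - v‖ ^ 2 = 2 * ‖v‖ ^ 2 - 2 * (inner ℂ v (S a s v)).re := by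
      rw [@norm_sub_sq ℂ, S_norm N.toNet ha]
      have : RCLike.re (inner ℂ (S a s v) v) = (inner ℂ v (S a s v)).re := by
        rw [← inner_conj_symm]
        exact conj_re _
      rw [this]
      ring
    have hci : Integrable (fun c => Real.cos (s * c)) ν :=
      (integrable_const (1 : ℝ)).mono' (by fun_prop)
        (Eventually.of_forall fun p => by
          rw [Real.norm_eq_abs]; exact Real.abs_cos_le_one _)
    rw [h4, hre, hv, integral_const_mul, integral_sub (integrable_const _) hci]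
    ring
  set t : ℕ → ℝ := fun n => 1 / ((n : ℝ) + 1) with ht
  have ht0 : ∀ n, 0 < t n := fun n => by simp only [ht]; positivity
  have htt : Tendsto t atTop (𝓝 0) := tendsto_one_div_add_atTop_nhds_zero_nat
  have htn : Tendsto t atTop (𝓝[≠] 0) := tendsto_nhdsWithin_iff.2
    ⟨htt, Eventually.of_forall fun n => (ht0 n).ne'⟩
  have h1 := (hasDerivAt_iff_tendsto_slope.1 (Gg.der a v ha)).comp htn
  have h2 : Tendsto (fun n => (‖S a (t n) v - v‖ / t n) ^ 2) atTop (𝓝 (‖G a v‖ ^ 2)) := by
    have h3 := h1.norm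
    rw [norm_smul, norm_I, one_mul] at h3
    refine (h3.pow 2).congr fun n => ?_
    simp only [Function.comp_apply, slope_def_module, sub_zero, S_zero N.toNet ha]
    rw [norm_smul, norm_inv, Real.norm_of_nonneg (ht0 n).le]
    rw [div_eq_inv_mul]
  obtain ⟨hi, -⟩ := fatou_sq ν (fun c : ℝ => c) measurable_id (‖G a v‖ ^ 2) t ht0 htt _ h2
    (fun n => by
      rw [div_pow, div_mul_cancel₀ _ (pow_ne_zero 2 (ht0 n).ne'), hd])
  have hi1 : Integrable (fun c : ℝ => |c|) ν := by
    refine ((integrable_const (1 : ℝ)).add hi).mono' (by fun_prop)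
      (Eventually.of_forall fun c => ?_)
    rw [Real.norm_eq_abs, abs_abs]
    show |c| ≤ 1 + c ^ 2
    nlinarith [sq_abs c, sq_nonneg (|c| - 1)]
  have h3 : Tendsto (fun n => ∫ c, (t n)⁻¹ * Real.sin (t n * c) ∂ν) atTop (𝓝 (∫ c, c ∂ν)) := by
    refine tendsto_integral_of_dominated_convergence (fun c => |c|) (fun n => by fun_prop) hi1
      (fun n => Eventually.of_forall fun c => ?_)
      (Eventually.of_forall fun c => tendsto_sin_quot c htn)
    rw [norm_mul, norm_inv, Real.norm_of_nonneg (ht0 n).le, Real.norm_eq_abs]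
    have := Real.abs_sin_le_abs (x := t n * c)
    rw [abs_mul, abs_of_pos (ht0 n)] at this
    calc (t n)⁻¹ * |Real.sin (t n * c)| ≤ (t n)⁻¹ * (t n * |c|) := by
          have := inv_pos.2 (ht0 n)
          gcongr
      _ = |c| := by rw [← mul_assoc, inv_mul_cancel₀ (ht0 n).ne', one_mul]
  have h4 : Tendsto (fun n => ∫ c, (t n)⁻¹ * Real.sin (t n * c) ∂ν) atTop
      (𝓝 (inner ℂ v (G a v)).re) := by
    have h5 : Tendsto (fun n => (inner ℂ v (slope (fun s => S a s v) 0 (t n))).im) atTop
        (𝓝 (inner ℂ v (I • G a v)).im) := by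
      have hc : Continuous fun w : D => (inner ℂ v w).im := by fun_prop
      exact (hc.tendsto _).comp h1
    have h6 : (inner ℂ v (I • G a v)).im = (inner ℂ v (G a v)).re := by
      rw [inner_smul_right]; simp
    rw [h6] at h5
    refine h5.congr fun n => ?_
    have e : slope (fun s => S a s v) 0 (t n) = ((t n : ℂ))⁻¹ • (S a (t n) v - v) := by
      rw [slope_def_module, sub_zero, S_zero N.toNet ha, ← ofReal_inv]
      rfl
    have hvv : (inner ℂ v v).im = 0 := by
      have := inner_self_im (𝕜 := ℂ) v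
      exact this
    rw [e, inner_smul_right, inner_sub_right, integral_const_mul, ← him, ← ofReal_inv,
      im_ofReal_mul, sub_im, hvv, sub_zero]
  rw [tendsto_nhds_unique h4 h3]
  exact integral_nonneg_of_ae (hpos.mono fun c hc => hc)

end Vale.Agent.P352.H496

end
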