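import Vale.Agent.P352.H496.Gen3

set_option linter.all false

noncomputable section

open MeasureTheory SchwartzMap Complex Filter Topology
open scoped SchwartzMap ComplexConjugate ENNReal LineDeriv ContDiff FourierTransform

namespace Vale.Agent.P352.H496

open GF (Ix V Fn Sch ev pd bar sim bas o)
open H246
open UniformSpace (Completion)

/-! ### The profile in momentum space -/

/-- surjectivity of the Fourier transform -/
lemma exists_mft (φ : 𝓢(Mink, ℂ)) : ∃ F : 𝓢(Mink, ℂ), ∀ p, mft F p = φ p := by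
  refine ⟨(FourierTransform.fourierCLE ℂ 𝓢(Mink, ℂ)).symm
    (SchwartzMap.compCLMOfContinuousLinearEquiv ℂ mftEquiv.symm φ), fun p => ?_⟩
  rw [← mftS_apply]
  simp only [mftS, ContinuousLinearMap.comp_apply, FourierTransform.fourierCLM_apply,
    SchwartzMap.compCLMOfContinuousLinearEquiv_apply, Function.comp_apply]
  rw [← FourierTransform.fourierCLE_apply (R := ℂ), ContinuousLinearEquiv.apply_symm_apply]
  simp

/-- the sum of the first two components -/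
def pm (p : Mink) : ℝ := p 0 + p 1

lemma continuous_pm : Continuous pm := by
  unfold pm
  exact (continuous_coord 0).add (continuous_coord 1)

/-- the profile -/
def prof (ρ : ℝ → ℂ) (g θ : ℝ → ℝ) (p : Mink) : ℂ :=
  ρ (pm p) * ((pm p ^ 2 * g (p 2) * g (p 3) * (θ (mass2 p) / mass2 p) : ℝ) : ℂ)

/-- bump data -/
structure Bmp (g θ : ℝ → ℝ) : Prop where
  cg : ContDiff ℝ ∞ g
  kg : HasCompactSupport g
  g0 : ∀ x, 0 ≤ g x
  ig : ∫ x, g x = 1
  ct : ContDiff ℝ ∞ θ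
  kt : ∀ x, θ x ≠ 0 → 1 / 4 ≤ x ∧ x ≤ 4
  t0 : ∀ x, 0 ≤ θ x
  ctd : ContDiff ℝ ∞ (fun x => θ x / x)
  st : ∀ m, 0 < m → HasSum (fun j : ℤ => θ ((4 : ℝ) ^ j * m)) 1

lemma exists_bmp : ∃ g θ, Bmp g θ := by
  obtain ⟨g, θ, h1, h2, h3, h4, h5, h6, h7, h8, h9⟩ := exists_bumps
  exact ⟨g, θ, h1, h2, h3, h4, h5, h6, h7, h8, h9⟩

/-- cutoff in the light cone momentum -/
structure Cut (ρ : ℝ → ℂ) : Prop where
  c : ContDiff ℝ ∞ ρ
  k : ∃ a b : ℝ, 0 < a ∧ ∀ x, ρ x ≠ 0 → a ≤ x ∧ x ≤ b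

lemma exists_F {ρ : ℝ → ℂ} (hρ : Cut ρ) {g θ : ℝ → ℝ} (B : Bmp g θ) :
    ∃ F : 𝓢(Mink, ℂ), ∀ p, mft F p = prof ρ g θ p := by
  obtain ⟨a, b, ha, hk⟩ := hρ.k
  have hc : ContDiff ℝ ((⊤ : ℕ∞) : WithTop ℕ∞) (prof ρ g θ) := by
    have c0 := contDiff_coord 0
    have c1 := contDiff_coord 1
    have c2 := contDiff_coord 2
    have c3 := contDiff_coord 3
    have cpm : ContDiff ℝ ∞ pm := c0.add c1
    have cm : ContDiff ℝ ∞ mass2 := by
      unfold mass2 mdot
      exact ((((c0.mul c0).sub (c1.mul c1)).sub (c2.mul c2)).sub (c3.mul c3))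
    unfold prof
    refine (hρ.c.comp cpm).mul (Complex.ofRealCLM.contDiff.comp ?_)
    exact (((cpm.pow 2).mul (B.cg.comp c2)).mul (B.cg.comp c3)).mul (B.ctd.comp cm)
  obtain ⟨A, hA0, hA⟩ : ∃ A : ℝ, 0 ≤ A ∧ ∀ x, g x ≠ 0 → |x| ≤ A := by
    obtain ⟨A, hA⟩ := B.kg.isCompact.isBounded.exists_norm_le
    refine ⟨max A 0, le_max_right _ _, fun x hx => ?_⟩
    exact (hA x (subset_tsupport _ hx)).trans (le_max_left _ _)
  have hs : HasCompactSupport (prof ρ g θ) := by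
    refine HasCompactSupport.intro (isCompact_closedBall (0 : Mink)
      (b + (4 + 2 * A ^ 2) / a + A + A)) fun p hp => ?_
    by_contra hne
    apply hp
    unfold prof at hne
    have h1 : ρ (pm p) ≠ 0 := left_ne_zero_of_mul hne
    have h2 := right_ne_zero_of_mul hne
    have h3 : pm p ^ 2 * g (p 2) * g (p 3) * (θ (mass2 p) / mass2 p) ≠ 0 := by
      intro h; apply h2; rw [h]; simp
    have h4 := left_ne_zero_of_mul h3
    have h5 := right_ne_zero_of_mul h3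
    have h6 : θ (mass2 p) ≠ 0 := by
      intro h; apply h5; rw [h, zero_div]
    have h7 := hA _ (right_ne_zero_of_mul h4)
    have h8 := hA _ (right_ne_zero_of_mul (left_ne_zero_of_mul h4))
    obtain ⟨k1, k2⟩ := hk _ h1
    obtain ⟨k3, k4⟩ := B.kt _ h6
    rw [Metric.mem_closedBall, dist_zero_right]
    have hm : (p 0 - p 1) * pm p = mass2 p + p 2 ^ 2 + p 3 ^ 2 := by
      unfold pm mass2 mdot; ring
    have q2 : p 2 ^ 2 ≤ A ^ 2 := by rw [← sq_abs]; gcongr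
    have q3 : p 3 ^ 2 ≤ A ^ 2 := by rw [← sq_abs (p 3)]; gcongr
    have hpm : 0 < pm p := by linarith
    have h9 : 0 ≤ p 0 - p 1 := by
      by_contra hcon
      push Not at hcon
      nlinarith [sq_nonneg (p 2), sq_nonneg (p 3)]
    have h10 : p 0 - p 1 ≤ (4 + 2 * A ^ 2) / a := by
      rw [le_div_iff₀ ha]
      calc (p 0 - p 1) * a ≤ (p 0 - p 1) * pm p := by gcongr
        _ ≤ 4 + 2 * A ^ 2 := by rw [hm]; linarith
    have h11 : ‖p‖ ^ 2 ≤ (b + (4 + 2 * A ^ 2) / a + A + A) ^ 2 := by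
      have hn := norm_sq_mink p
      have e1 : p 0 ^ 2 + p 1 ^ 2 = (pm p ^ 2 + (p 0 - p 1) ^ 2) / 2 := by unfold pm; ring
      have hb : 0 ≤ b := by linarith
      have hR : 0 ≤ (4 + 2 * A ^ 2) / a := by positivity
      have e2 : pm p ^ 2 ≤ b ^ 2 := by gcongr
      have e3 : (p 0 - p 1) ^ 2 ≤ ((4 + 2 * A ^ 2) / a) ^ 2 := by gcongr
      set R := (4 + 2 * A ^ 2) / a with hRd
      calc ‖p‖ ^ 2 = (pm p ^ 2 + (p 0 - p 1) ^ 2) / 2 + p 2 ^ 2 + p 3 ^ 2 := by
            rw [hn, e1]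
        _ ≤ b ^ 2 + R ^ 2 + A ^ 2 + A ^ 2 := by nlinarith [sq_nonneg b, sq_nonneg R]
        _ ≤ (b + R + A + A) ^ 2 := by
            nlinarith [mul_nonneg hb hR, mul_nonneg hb hA0, mul_nonneg hR hA0,
              mul_nonneg hA0 hA0]
    have hb : 0 ≤ b := by linarith
    have hR : 0 ≤ (4 + 2 * A ^ 2) / a := by positivity
    exact le_of_sq_le_sq h11 (by positivity)
  obtain ⟨F, hF⟩ := exists_mft (hs.toSchwartzMap hc)
  exact ⟨F, fun p => by rw [hF]; rfl⟩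

/-! ### Action of null rotations and of `Wd` in momentum space -/

lemma lam_nr_neg (c : ℝ × ℝ) (p : Mink) : lam (nr c) (lam (nr (-c)) p) = p := by
  ext n
  fin_cases n <;> simp [lam_apply, nr, Fin.sum_univ_four] <;> ring

lemma lam_boost_neg (t : ℝ) (p : Mink) : lam (mBoost t) (lam (mBoost (-t)) p) = p := by
  rw [lam_boost, lam_boost, boost_boost, add_neg_cancel]
  apply mink_ext <;> simp

/-- the substitution in momentum space -/
def qm (c : ℝ × ℝ) (t : ℝ) (p : Mink) : Mink := Real.exp t • lam (mBoost (-t)) (lam (nr (-c)) p)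

lemma qm_pm (c : ℝ × ℝ) (t : ℝ) (p : Mink) : pm (qm c t p) = pm p := by
  have h : Real.exp t * (Real.cosh t - Real.sinh t) = 1 := by
    rw [Real.cosh_sub_sinh, ← Real.exp_add]; simp
  unfold pm qm
  simp only [PiLp.smul_apply, lam_apply, smul_eq_mul, mBoost, nr, Fin.sum_univ_four,
    Real.cosh_neg, Real.sinh_neg, Matrix.cons_val', Matrix.cons_val_zero, Matrix.cons_val_one,
    Matrix.cons_val, Matrix.cons_val_fin_one, Prod.fst_neg, Prod.snd_neg, Fin.isValue]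
  linear_combination (p 0 + p 1) * h

lemma qm_2 (c : ℝ × ℝ) (t : ℝ) (p : Mink) : qm c t p 2 = Real.exp t * (p 2 - c.1 * pm p) := by
  unfold pm qm
  simp only [PiLp.smul_apply, lam_apply, smul_eq_mul, mBoost, nr, Fin.sum_univ_four,
    Real.cosh_neg, Real.sinh_neg, Matrix.cons_val', Matrix.cons_val_zero, Matrix.cons_val_one,
    Matrix.cons_val, Matrix.cons_val_fin_one, Prod.fst_neg, Prod.snd_neg, Fin.isValue]
  ring

lemma qm_3 (c : ℝ × ℝ) (t : ℝ) (p : Mink) : qm c t p 3 = Real.exp t * (p 3 - c.2 * pm p) := by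
  unfold pm qm
  simp only [PiLp.smul_apply, lam_apply, smul_eq_mul, mBoost, nr, Fin.sum_univ_four,
    Real.cosh_neg, Real.sinh_neg, Matrix.cons_val', Matrix.cons_val_zero, Matrix.cons_val_one,
    Matrix.cons_val, Matrix.cons_val_fin_one, Prod.fst_neg, Prod.snd_neg, Fin.isValue]
  ring

lemma qm_mass (c : ℝ × ℝ) (t : ℝ) (p : Mink) : mass2 (qm c t p) = Real.exp t ^ 2 * mass2 p := by
  unfold qm
  rw [mass2_smul]
  congr 1
  have h1 : mass2 (lam (mBoost (-t)) (lam (nr (-c)) p)) = mass2 (lam (nr (-c)) p) :=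
    mdot_lam (isLor_boost _) _ _
  have h2 : mass2 (lam (nr (-c)) p) = mass2 p := mdot_lam (isLor_nr _) _ _
  rw [h1, h2]

variable {D : Type*} [NormedAddCommGroup D] [InnerProductSpace ℂ D]
variable {Q : GF.Theory D}
variable {H : D → D} {alg : Set V → Set (D → D)} {S : V → ℝ → D → D} {G : V → D → D}
variable {μ : Measure Mink} {T : Ix → Ix → GF.Fld D}

/-- vectors generated by the trace -/
def Tv (Q : GF.Theory D) (T : Ix → Ix → GF.Fld D) (F : 𝓢(Mink, ℂ)) : D := GF.tr T (fl F) Q.vac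

section

variable (hT : Q.IsStress T)
include hT

lemma U_Tv {σ : ℝ} (hσ : 0 < σ) {L : Ix → V} (hL : GF.IsLor L) (F : 𝓢(Mink, ℂ)) :
    Q.U σ L 0 (Tv Q T F) = Tv Q T (simJ hσ hL 0 F) := by
  have h := (PField.tr hT).cov_vac σ hσ hL 0 (simJ hσ hL 0 F)
  rw [simS_simJ] at h
  simp only [sub_self, Real.rpow_zero, ofReal_one, one_smul] at h
  exact h.symm

omit hT in
lemma mft_simJ {σ : ℝ} (hσ : 0 < σ) {L : Ix → V} (hL : GF.IsLor L) (F : 𝓢(Mink, ℂ))
    {p p' : Mink} (h : σ⁻¹ • lam L p' = p) :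
    mft (simJ hσ hL 0 F) p = ((σ ^ 4 : ℝ) : ℂ) * mft F p' := by
  have h1 := mft_simS σ hσ hL 0 (simJ hσ hL 0 F) p'
  have h0 : (-WithLp.toLp 2 (0 : V) : Mink) = 0 := by
    ext n; simp
  rw [simS_simJ, h, h0, chr_zero', one_mul] at h1
  rw [h1, ← mul_assoc, ← ofReal_mul, mul_inv_cancel₀ (pow_ne_zero 4 hσ.ne'), ofReal_one, one_mul]

variable (Sy : SymMeasure μ 4) (two : Two Q (GF.tr T) μ)
include two

lemma inner_Tv (F : 𝓢(Mink, ℂ)) (y : D) :
    inner ℂ (Tv Q T F) y = ∫ p, conj (mft F p) * jd Sy (PField.tr hT) y p ∂μ := by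
  rw [← Completion.inner_coe]
  have h1 : ((Tv Q T F : D) : Completion D) = (PField.tr hT).kap F := rfl
  rw [h1, ← J_toL Sy (PField.tr hT) two, inner_jd, inner_toL]

lemma inner_RW (c : ℝ × ℝ) (t : ℝ) (F : 𝓢(Mink, ℂ)) (y : D) :
    inner ℂ (Rn Q c (Wd Q t (Tv Q T F))) y =
      ∫ p, (Real.exp t ^ 4 : ℝ) * (conj (mft F (qm c t p)) * jd Sy (PField.tr hT) y p) ∂μ := by
  unfold Rn Wd
  rw [U_Tv hT (Real.exp_pos t) (isLor_boost t), U_Tv hT one_pos (isLor_nr c),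
    inner_Tv hT Sy two]
  congr 1
  ext p
  rw [mft_simJ one_pos (isLor_nr c) _ (p' := lam (nr (-c)) p)
      (by rw [inv_one, one_smul, lam_nr_neg]),
    mft_simJ (Real.exp_pos t) (isLor_boost t) _ (p' := qm c t p) (by
      unfold qm
      have h1 : lam (mBoost t) (Real.exp t • lam (mBoost (-t)) (lam (nr (-c)) p)) =
          Real.exp t • lam (mBoost t) (lam (mBoost (-t)) (lam (nr (-c)) p)) := by
        exact (lamL (mBoost t)).map_smul _ _
      rw [h1, smul_smul, inv_mul_cancel₀ (Real.exp_pos t).ne', one_smul, lam_boost_neg])]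
  rw [one_pow, ofReal_one, one_mul, map_mul, conj_ofReal]
  ring

end

end Vale.Agent.P352.H496

end
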