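import Vale.Agent.P352.H496.Gen4

set_option linter.all false

noncomputable section

open MeasureTheory SchwartzMap Complex Filter Topology
open scoped SchwartzMap ComplexConjugate ENNReal LineDeriv ContDiff FourierTransform

namespace Vale.Agent.P352.H496

open GF (Ix V Fn Sch ev pd bar sim bas o)
open H246
open UniformSpace (Completion)

/-! ### Integration over the null rotations -/

section

variable {ρ : ℝ → ℂ} {g θ : ℝ → ℝ}

lemma prof_qm (c : ℝ × ℝ) (t : ℝ) (p : Mink) : prof ρ g θ (qm c t p) =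
    ρ (pm p) * ((pm p ^ 2 * g (Real.exp t * (p 2 - c.1 * pm p)) *
      g (Real.exp t * (p 3 - c.2 * pm p)) *
      (θ (Real.exp t ^ 2 * mass2 p) / (Real.exp t ^ 2 * mass2 p)) : ℝ) : ℂ) := by
  unfold prof
  rw [qm_pm, qm_2, qm_3, qm_mass]

lemma int_g1 (B : Bmp g θ) {σ m : ℝ} (hσ : 0 < σ) (hm : 0 < m) (x : ℝ) :
    (Integrable fun c : ℝ => g (σ * (x - c * m))) ∧ ∫ c : ℝ, g (σ * (x - c * m)) = (σ * m)⁻¹ := by
  have hi : Integrable g := B.cg.continuous.integrable_of_hasCompactSupport B.kg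
  have h1 : Integrable fun y : ℝ => g (σ * x - y) := hi.comp_sub_left (σ * x)
  have hne : σ * m ≠ 0 := by positivity
  have e : (fun c : ℝ => g (σ * (x - c * m))) = fun c : ℝ => (fun y => g (σ * x - y)) ((σ * m) * c) := by
    funext c
    show g _ = g _
    congr 1
    ring
  rw [e]
  refine ⟨h1.comp_mul_left' hne, ?_⟩
  rw [Measure.integral_comp_mul_left (fun y => g (σ * x - y)), integral_sub_left_eq_self g volume,
    B.ig, smul_eq_mul, mul_one, abs_of_pos (by positivity)]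

lemma int_g2 (B : Bmp g θ) {σ m : ℝ} (hσ : 0 < σ) (hm : 0 < m) (x y : ℝ) :
    (Integrable fun c : ℝ × ℝ => g (σ * (x - c.1 * m)) * g (σ * (y - c.2 * m))) ∧
    ∫ c : ℝ × ℝ, g (σ * (x - c.1 * m)) * g (σ * (y - c.2 * m)) = (σ * m)⁻¹ ^ 2 := by
  obtain ⟨i1, e1⟩ := int_g1 B hσ hm x
  obtain ⟨i2, e2⟩ := int_g1 B hσ hm y
  refine ⟨i1.mul_prod i2, ?_⟩
  have := integral_prod_mul (μ := (volume : Measure ℝ)) (ν := (volume : Measure ℝ))
    (fun c : ℝ => g (σ * (x - c * m))) (fun c : ℝ => g (σ * (y - c * m)))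
  rw [e1, e2] at this
  rw [Measure.volume_eq_prod]
  rw [this, sq]

/-- the fibre integral -/
lemma fib (hρ : Cut ρ) (B : Bmp g θ) (t : ℝ) (p : Mink) (z : ℂ) :
    (Integrable fun c : ℝ × ℝ => ((Real.exp t ^ 4 : ℝ) : ℂ) * (conj (prof ρ g θ (qm c t p)) * z)) ∧
    (∫ c : ℝ × ℝ, ((Real.exp t ^ 4 : ℝ) : ℂ) * (conj (prof ρ g θ (qm c t p)) * z) =
      conj (ρ (pm p)) * ((θ (Real.exp t ^ 2 * mass2 p) : ℂ) * ((H246.im p : ℂ) * z))) ∧
    (∫ c : ℝ × ℝ, ‖((Real.exp t ^ 4 : ℝ) : ℂ) * (conj (prof ρ g θ (qm c t p)) * z)‖ =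
      ‖conj (ρ (pm p)) * ((θ (Real.exp t ^ 2 * mass2 p) : ℂ) * ((H246.im p : ℂ) * z))‖) := by
  by_cases h0 : ρ (pm p) = 0
  · have : ∀ c, prof ρ g θ (qm c t p) = 0 := fun c => by rw [prof_qm, h0, zero_mul]
    simp only [this, h0, map_zero, zero_mul, mul_zero, norm_zero, integral_zero]
    exact ⟨integrable_zero _ _ _, trivial, trivial⟩
  obtain ⟨a, b, ha, hk⟩ := hρ.k
  have hm : 0 < pm p := ha.trans_le (hk _ h0).1
  set σ := Real.exp t with hσd
  have hσ : 0 < σ := Real.exp_pos t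
  obtain ⟨i1, e1⟩ := int_g2 B hσ hm (p 2) (p 3)
  set A : ℂ := ((σ ^ 4 : ℝ) : ℂ) * (conj (ρ (pm p)) *
    (((pm p ^ 2 * (θ (σ ^ 2 * mass2 p) / (σ ^ 2 * mass2 p))) : ℝ) : ℂ) * z) with hA
  have e2 : ∀ c : ℝ × ℝ, ((σ ^ 4 : ℝ) : ℂ) * (conj (prof ρ g θ (qm c t p)) * z) =
      A * ((g (σ * (p 2 - c.1 * pm p)) * g (σ * (p 3 - c.2 * pm p)) : ℝ) : ℂ) := by
    intro c
    rw [prof_qm, map_mul, conj_ofReal, hA, ← hσd]
    push_cast
    ring
  have e3 : A * (((σ * pm p)⁻¹ ^ 2 : ℝ) : ℂ) =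
      conj (ρ (pm p)) * ((θ (σ ^ 2 * mass2 p) : ℂ) * ((H246.im p : ℂ) * z)) := by
    rw [hA]
    unfold H246.im
    have hσ' : (σ : ℂ) ≠ 0 := by exact_mod_cast hσ.ne'
    have hm' : (pm p : ℂ) ≠ 0 := by exact_mod_cast hm.ne'
    by_cases hM : mass2 p = 0
    · rw [hM]; simp
    · have hM' : (mass2 p : ℂ) ≠ 0 := by exact_mod_cast hM
      push_cast
      field_simp
  have hg : ∀ c : ℝ × ℝ, 0 ≤ g (σ * (p 2 - c.1 * pm p)) * g (σ * (p 3 - c.2 * pm p)) :=
    fun c => mul_nonneg (B.g0 _) (B.g0 _)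
  refine ⟨?_, ?_, ?_⟩
  · simp only [e2]
    exact i1.ofReal.const_mul A
  · simp only [e2]
    rw [integral_const_mul, integral_complex_ofReal, e1, e3]
  · simp only [e2, norm_mul, norm_real]
    have e4 : ∀ c : ℝ × ℝ, ‖g (σ * (p 2 - c.1 * pm p))‖ * ‖g (σ * (p 3 - c.2 * pm p))‖ =
        g (σ * (p 2 - c.1 * pm p)) * g (σ * (p 3 - c.2 * pm p)) := by
      intro c
      rw [Real.norm_of_nonneg (B.g0 _), Real.norm_of_nonneg (B.g0 _)]
    simp only [e4]
    rw [integral_const_mul, e1]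
    have e5 := congrArg norm e3
    rw [norm_mul, norm_real, Real.norm_of_nonneg (by positivity)] at e5
    rw [e5]
    simp only [norm_mul, norm_real]

end

variable {D : Type*} [NormedAddCommGroup D] [InnerProductSpace ℂ D]
variable {Q : GF.Theory D}
variable {H : D → D} {alg : Set V → Set (D → D)} {S : V → ℝ → D → D} {G : V → D → D}
variable {μ : Measure Mink} {T : Ix → Ix → GF.Fld D}

section

variable (hT : Q.IsStress T) (Sy : SymMeasure μ 4) (two : Two Q (GF.tr T) μ)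
variable (N : Net Q H alg S)

include N two in
/-- the weighted component of a vector is integrable -/
lemma int_im (y : D) : Integrable (fun p => (H246.im p : ℂ) * jd Sy (PField.tr hT) y p) μ := by
  obtain ⟨n, hn⟩ := exists_wt0 Sy
  have h1 := hn.integrable_mul (Lp.memLp (jd Sy (PField.tr hT) (pw1 H n y)))
  refine h1.congr ?_
  filter_upwards [jd_pw1 Sy (PField.tr hT) two N n y, ae_cone Sy.good] with p h3 h5
  simp only [Pi.mul_apply]
  rw [h3]
  have h6 : (wt0 n p : ℂ) * (1 + (p 0 : ℂ)) ^ n = 1 := by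
    unfold wt0
    rw [abs_of_nonneg h5.1]
    have h7 : (1 + (p 0 : ℂ)) ≠ 0 := by
      have h8 : 0 < 1 + p 0 := by have := h5.1; linarith
      intro h9
      have h10 : ((1 + p 0 : ℝ) : ℂ) = 0 := by rw [ofReal_add, ofReal_one]; exact h9
      exact h8.ne' (Complex.ofReal_eq_zero.1 h10)
    push_cast
    field_simp
  linear_combination ((H246.im p : ℂ) * jd Sy (PField.tr hT) y p) * h6

lemma Cut.bdd {ρ : ℝ → ℂ} (hρ : Cut ρ) : ∃ C, 0 ≤ C ∧ ∀ x, ‖ρ x‖ ≤ C := by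
  obtain ⟨a, b, ha, hk⟩ := hρ.k
  obtain ⟨C, hC⟩ := (isCompact_Icc (a := a) (b := b)).exists_bound_of_continuousOn
    hρ.c.continuous.continuousOn
  refine ⟨max C 0, le_max_right _ _, fun x => ?_⟩
  by_cases hx : ρ x = 0
  · rw [hx, norm_zero]; exact le_max_right _ _
  · exact (hC x (hk x hx)).trans (le_max_left _ _)

lemma Bmp.le_one {g θ : ℝ → ℝ} (B : Bmp g θ) (x : ℝ) : θ x ≤ 1 := by
  by_cases hx : θ x = 0
  · rw [hx]; exact zero_le_one
  · have h0 : 0 < x := by have := (B.kt x hx).1; linarith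
    have h := (B.st x h0).summable
    have h2 := (B.st x h0).tsum_eq
    have h3 := h.le_tsum (0 : ℤ) (fun j _ => B.t0 _)
    rw [h2] at h3
    simpa using h3

include N two in
/-- integrability of the smeared component -/
lemma int_L {ρ : ℝ → ℂ} {g θ : ℝ → ℝ} (hρ : Cut ρ) (B : Bmp g θ) (s : ℝ) (y : D) :
    Integrable (fun p => conj (ρ (pm p)) * ((θ (s * mass2 p) : ℂ) *
      ((H246.im p : ℂ) * jd Sy (PField.tr hT) y p))) μ := by
  obtain ⟨C, hC0, hC⟩ := hρ.bdd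
  have h1 := int_im hT Sy two N y
  refine (h1.norm.const_mul C).mono' ?_ (Eventually.of_forall fun p => ?_)
  · refine AEStronglyMeasurable.mul ?_ (AEStronglyMeasurable.mul ?_ h1.aestronglyMeasurable)
    · exact (Complex.continuous_conj.comp
        (hρ.c.continuous.comp continuous_pm)).aestronglyMeasurable
    · exact (Complex.continuous_ofReal.comp (B.ct.continuous.comp
        (continuous_const.mul continuous_mass2))).aestronglyMeasurable
  · rw [norm_mul, norm_mul, RCLike.norm_conj, norm_real, Real.norm_of_nonneg (B.t0 _)]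
    have h2 := B.le_one (s * mass2 p)
    have h3 := B.t0 (s * mass2 p)
    have h4 := hC (pm p)
    have h5 := norm_nonneg ((H246.im p : ℂ) * jd Sy (PField.tr hT) y p)
    calc ‖ρ (pm p)‖ * (θ (s * mass2 p) * ‖(H246.im p : ℂ) * jd Sy (PField.tr hT) y p‖)
        ≤ C * (1 * ‖(H246.im p : ℂ) * jd Sy (PField.tr hT) y p‖) := by gcongr
      _ = _ := by rw [one_mul]

omit [NormedAddCommGroup D] [InnerProductSpace ℂ D] in
lemma cont_prof_qm {ρ : ℝ → ℂ} {g θ : ℝ → ℝ} (hρ : Cut ρ) (B : Bmp g θ) (t : ℝ) :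
    Continuous fun q : (ℝ × ℝ) × Mink => prof ρ g θ (qm q.1 t q.2) := by
  simp only [prof_qm]
  have c2 : Continuous fun q : (ℝ × ℝ) × Mink => q.2 2 := (continuous_coord 2).comp continuous_snd
  have c3 : Continuous fun q : (ℝ × ℝ) × Mink => q.2 3 := (continuous_coord 3).comp continuous_snd
  have cp : Continuous fun q : (ℝ × ℝ) × Mink => pm q.2 := continuous_pm.comp continuous_snd
  have cm : Continuous fun q : (ℝ × ℝ) × Mink => mass2 q.2 := continuous_mass2.comp continuous_snd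
  have c5 : Continuous fun q : (ℝ × ℝ) × Mink => q.1.1 := by fun_prop
  have c6 : Continuous fun q : (ℝ × ℝ) × Mink => q.1.2 := by fun_prop
  have k1 : Continuous fun q : (ℝ × ℝ) × Mink => g (Real.exp t * (q.2 2 - q.1.1 * pm q.2)) :=
    B.cg.continuous.comp (continuous_const.mul (c2.sub (c5.mul cp)))
  have k2 : Continuous fun q : (ℝ × ℝ) × Mink => g (Real.exp t * (q.2 3 - q.1.2 * pm q.2)) :=
    B.cg.continuous.comp (continuous_const.mul (c3.sub (c6.mul cp)))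
  have k3 : Continuous fun q : (ℝ × ℝ) × Mink =>
      θ (Real.exp t ^ 2 * mass2 q.2) / (Real.exp t ^ 2 * mass2 q.2) :=
    B.ctd.continuous.comp (continuous_const.mul cm)
  have k4 := (((cp.pow 2).mul k1).mul k2).mul k3
  exact (hρ.c.continuous.comp cp).mul (Complex.continuous_ofReal.comp k4)

lemma meas_f {ρ : ℝ → ℂ} {g θ : ℝ → ℝ} (hρ : Cut ρ) (B : Bmp g θ) (t : ℝ) [SFinite μ]
    (z : Lp ℂ 2 μ) : AEStronglyMeasurable (fun q : (ℝ × ℝ) × Mink => ((Real.exp t ^ 4 : ℝ) : ℂ) *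
      (conj (prof ρ g θ (qm q.1 t q.2)) * z q.2)) ((volume : Measure (ℝ × ℝ)).prod μ) := by
  have h1 : Continuous fun q : (ℝ × ℝ) × Mink => conj (prof ρ g θ (qm q.1 t q.2)) :=
    Complex.continuous_conj.comp (cont_prof_qm hρ B t)
  have h2 : AEStronglyMeasurable (fun q : (ℝ × ℝ) × Mink => z q.2)
      ((volume : Measure (ℝ × ℝ)).prod μ) := (Lp.aestronglyMeasurable z).comp_snd
  exact (h1.aestronglyMeasurable.mul h2).const_mul _

lemma int_f {ρ : ℝ → ℂ} {g θ : ℝ → ℝ} (hρ : Cut ρ) (B : Bmp g θ) (t : ℝ) [SFinite μ]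
    (z : Lp ℂ 2 μ) (hz : Integrable (fun p => conj (ρ (pm p)) *
      ((θ (Real.exp t ^ 2 * mass2 p) : ℂ) * ((H246.im p : ℂ) * z p))) μ) :
    Integrable (fun q : (ℝ × ℝ) × Mink => ((Real.exp t ^ 4 : ℝ) : ℂ) *
      (conj (prof ρ g θ (qm q.1 t q.2)) * z q.2)) ((volume : Measure (ℝ × ℝ)).prod μ) := by
  rw [integrable_prod_iff' (meas_f hρ B t z)]
  refine ⟨Eventually.of_forall fun p => ?_, ?_⟩
  · have h := (fib hρ B t p (z p)).1
    exact h
  · refine hz.norm.congr (Eventually.of_forall fun p => ?_)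
    have h := (fib hρ B t p (z p)).2.2
    exact h.symm

lemma swap_f {ρ : ℝ → ℂ} {g θ : ℝ → ℝ} (hρ : Cut ρ) (B : Bmp g θ) (t : ℝ) [SFinite μ]
    (z : Lp ℂ 2 μ) (hz : Integrable (fun p => conj (ρ (pm p)) *
      ((θ (Real.exp t ^ 2 * mass2 p) : ℂ) * ((H246.im p : ℂ) * z p))) μ) :
    (Integrable fun c : ℝ × ℝ => ∫ p, ((Real.exp t ^ 4 : ℝ) : ℂ) *
      (conj (prof ρ g θ (qm c t p)) * z p) ∂μ) ∧
    ∫ c : ℝ × ℝ, ∫ p, ((Real.exp t ^ 4 : ℝ) : ℂ) *
      (conj (prof ρ g θ (qm c t p)) * z p) ∂μ = ∫ p, conj (ρ (pm p)) *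
      ((θ (Real.exp t ^ 2 * mass2 p) : ℂ) * ((H246.im p : ℂ) * z p)) ∂μ := by
  have hi := int_f hρ B t z hz
  refine ⟨hi.integral_prod_left, ?_⟩
  have h := integral_integral_swap (f := fun (c : ℝ × ℝ) (p : Mink) =>
    ((Real.exp t ^ 4 : ℝ) : ℂ) * (conj (prof ρ g θ (qm c t p)) * z p)) hi
  rw [h]
  congr 1
  ext p
  exact (fib hρ B t p (z p)).2.1

include N two in
/-- the integral over the null rotations -/
theorem L1 {ρ : ℝ → ℂ} {g θ : ℝ → ℝ} (hρ : Cut ρ) (B : Bmp g θ) {F : 𝓢(Mink, ℂ)}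
    (hF : ∀ p, mft F p = prof ρ g θ p) (t : ℝ) (y : D) :
    (Integrable fun c => inner ℂ (Rn Q c (Wd Q t (Tv Q T F))) y) ∧
    ∫ c, inner ℂ (Rn Q c (Wd Q t (Tv Q T F))) y =
      ∫ p, conj (ρ (pm p)) * ((θ (Real.exp t ^ 2 * mass2 p) : ℂ) *
        ((H246.im p : ℂ) * jd Sy (PField.tr hT) y p)) ∂μ := by
  have hloc : IsLocallyFiniteMeasure μ := by
    refine ⟨fun x => ⟨Metric.closedBall 0 (‖x‖ + 1), ?_, Sy.fin _⟩⟩
    refine mem_of_superset (Metric.ball_mem_nhds x one_pos) fun y hy => ?_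
    rw [Metric.mem_closedBall, dist_zero_right]
    rw [Metric.mem_ball, dist_eq_norm] at hy
    calc ‖y‖ = ‖(y - x) + x‖ := by congr 1; abel
      _ ≤ ‖y - x‖ + ‖x‖ := norm_add_le _ _
      _ ≤ _ := by linarith
  have h := swap_f hρ B t (jd Sy (PField.tr hT) y)
    (int_L hT Sy two N hρ B (Real.exp t ^ 2) y)
  have e : ∀ c, inner ℂ (Rn Q c (Wd Q t (Tv Q T F))) y =
      ∫ p, ((Real.exp t ^ 4 : ℝ) : ℂ) * (conj (prof ρ g θ (qm c t p)) *
        jd Sy (PField.tr hT) y p) ∂μ := by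
    intro c
    rw [inner_RW hT Sy two]
    simp only [hF]
  simp only [e]
  exact h

end

end Vale.Agent.P352.H496

end
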