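import Vale.Agent.P352.H496.Gen5

set_option linter.all false

noncomputable section

open MeasureTheory SchwartzMap Complex Filter Topology
open scoped SchwartzMap ComplexConjugate ENNReal LineDeriv ContDiff FourierTransform

namespace Vale.Agent.P352.H496

open GF (Ix V Fn Sch ev pd bar sim bas o)
open H246
open UniformSpace (Completion)

variable {μ : Measure Mink}

/-- Fourier uniqueness along the light cone momentum -/
lemma four_zero [SFinite μ] {h : Mink → ℂ} (hi : Integrable h μ)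
    (h0 : ∀ t : ℝ, ∫ p, exp (I * ((t * pm p : ℝ) : ℂ)) * h p ∂μ = 0) {ρ : ℝ → ℂ}
    (hρ : Cut ρ) : ∫ p, ρ (pm p) * h p ∂μ = 0 := by
  obtain ⟨a, b, ha, hk⟩ := hρ.k
  have hcs : HasCompactSupport ρ := HasCompactSupport.intro (isCompact_Icc (a := a) (b := b))
    fun x hx => by
      by_contra hne
      exact hx (hk x hne)
  set R : 𝓢(ℝ, ℂ) := hcs.toSchwartzMap hρ.c with hR
  have hRρ : ∀ x, R x = ρ x := fun x => rfl
  have hinv : ∀ x, ρ x = ∫ v : ℝ, exp (((2 * Real.pi * (v * x) : ℝ) : ℂ) * I) * (𝓕 R) v := by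
    intro x
    have h1 : 𝓕⁻ (𝓕 R) = R := FourierTransform.fourierInv_fourier_eq R
    have h2 : (𝓕⁻ (𝓕 R)) x = ρ x := by rw [h1]; exact hRρ x
    rw [← h2, SchwartzMap.fourierInv_coe, Real.fourierInv_eq']
    congr 1
    ext v
    rw [smul_eq_mul]
    congr 3
    simp [mul_comm]
  have hint : Integrable (fun q : Mink × ℝ => exp (((2 * Real.pi * (q.2 * pm q.1) : ℝ) : ℂ) * I) *
      ((𝓕 R) q.2 * h q.1)) (μ.prod volume) := by
    have h1 : Integrable (fun q : Mink × ℝ => ‖h q.1‖ * ‖(𝓕 R) q.2‖) (μ.prod volume) :=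
      hi.norm.mul_prod ((𝓕 R).integrable (μ := (volume : Measure ℝ))).norm
    refine h1.mono' ?_ (Eventually.of_forall fun q => ?_)
    · have c1 : Continuous fun q : Mink × ℝ =>
          exp (((2 * Real.pi * (q.2 * pm q.1) : ℝ) : ℂ) * I) := by
        have cp : Continuous fun q : Mink × ℝ => pm q.1 := continuous_pm.comp continuous_fst
        fun_prop
      have c2 : AEStronglyMeasurable (fun q : Mink × ℝ => (𝓕 R) q.2) (μ.prod volume) :=
        ((𝓕 R).continuous.comp continuous_snd).aestronglyMeasurable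
      have c3 : AEStronglyMeasurable (fun q : Mink × ℝ => h q.1) (μ.prod volume) :=
        hi.aestronglyMeasurable.comp_fst
      exact c1.aestronglyMeasurable.mul (c2.mul c3)
    · rw [norm_mul, norm_exp_ofReal_mul_I, one_mul, norm_mul, mul_comm]
  have e1 : ∫ p, ρ (pm p) * h p ∂μ = ∫ p, (∫ v : ℝ,
      exp (((2 * Real.pi * (v * pm p) : ℝ) : ℂ) * I) * ((𝓕 R) v * h p)) ∂μ := by
    congr 1
    ext p
    rw [hinv, ← integral_mul_const]
    congr 1
    ext v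
    ring
  rw [e1, integral_integral_swap hint]
  have e2 : ∀ v : ℝ, ∫ p, exp (((2 * Real.pi * (v * pm p) : ℝ) : ℂ) * I) * ((𝓕 R) v * h p) ∂μ =
      0 := by
    intro v
    have h1 := h0 (2 * Real.pi * v)
    have h2 : ∀ p, exp (((2 * Real.pi * (v * pm p) : ℝ) : ℂ) * I) * ((𝓕 R) v * h p) =
        (𝓕 R) v * (exp (I * ((2 * Real.pi * v * pm p : ℝ) : ℂ)) * h p) := by
      intro p
      have : ((2 * Real.pi * (v * pm p) : ℝ) : ℂ) * I =
          I * ((2 * Real.pi * v * pm p : ℝ) : ℂ) := by push_cast; ring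
      rw [this]
      ring
    simp only [h2]
    rw [integral_const_mul, h1, mul_zero]
  simp only [e2, integral_zero]

lemma Cut.conj {ρ : ℝ → ℂ} (hρ : Cut ρ) : Cut fun x => conj (ρ x) := by
  obtain ⟨a, b, ha, hk⟩ := hρ.k
  refine ⟨Complex.conjCLE.contDiff.comp hρ.c, a, b, ha, fun x hx => hk x ?_⟩
  intro h
  apply hx
  rw [h, map_zero]

section

variable {ρ : ℝ → ℂ} {g θ : ℝ → ℝ} (hρ : Cut ρ) (B : Bmp g θ) {h : Mink → ℂ} (hi : Integrable h μ)

include hρ B hi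

lemma int_Lh (s : ℝ) : Integrable (fun p => ρ (pm p) * ((θ (s * mass2 p) : ℂ) * h p)) μ := by
  obtain ⟨C, hC0, hC⟩ := hρ.bdd
  refine (hi.norm.const_mul C).mono' ?_ (Eventually.of_forall fun p => ?_)
  · refine AEStronglyMeasurable.mul ?_ (AEStronglyMeasurable.mul ?_ hi.aestronglyMeasurable)
    · exact (hρ.c.continuous.comp continuous_pm).aestronglyMeasurable
    · exact (Complex.continuous_ofReal.comp (B.ct.continuous.comp
        (continuous_const.mul continuous_mass2))).aestronglyMeasurable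
  · rw [norm_mul, norm_mul, norm_real, Real.norm_of_nonneg (B.t0 _)]
    have h2 := B.le_one (s * mass2 p)
    have h3 := B.t0 (s * mass2 p)
    have h4 := hC (pm p)
    calc ‖ρ (pm p)‖ * (θ (s * mass2 p) * ‖h p‖) ≤ C * (1 * ‖h p‖) := by gcongr
      _ = _ := by rw [one_mul]

/-- the sum over the scales -/
lemma sumL (h0 : ∀ᵐ p ∂μ, mass2 p ≤ 0 → h p = 0) :
    (Summable fun j : ℤ => ‖∫ p, ρ (pm p) * ((θ ((4 : ℝ) ^ j * mass2 p) : ℂ) * h p) ∂μ‖) ∧
    ∑' j : ℤ, ∫ p, ρ (pm p) * ((θ ((4 : ℝ) ^ j * mass2 p) : ℂ) * h p) ∂μ =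
      ∫ p, ρ (pm p) * h p ∂μ := by
  obtain ⟨C, hC0, hC⟩ := hρ.bdd
  have hint := fun j : ℤ => int_Lh hρ B hi ((4 : ℝ) ^ j)
  have hsum : Summable fun j : ℤ => ∫ p, ‖ρ (pm p) * ((θ ((4 : ℝ) ^ j * mass2 p) : ℂ) * h p)‖ ∂μ := by
    refine summable_of_sum_le (c := ∫ p, C * ‖h p‖ ∂μ)
      (fun j => integral_nonneg fun p => norm_nonneg _) fun u => ?_
    rw [← integral_finsetSum _ fun j _ => (hint j).norm]
    refine integral_mono_ae (integrable_finsetSum _ fun j _ => (hint j).norm)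
      (hi.norm.const_mul C) ?_
    filter_upwards [h0] with p hp
    have e : ∀ j : ℤ, ‖ρ (pm p) * ((θ ((4 : ℝ) ^ j * mass2 p) : ℂ) * h p)‖ =
        ‖ρ (pm p)‖ * ‖h p‖ * θ ((4 : ℝ) ^ j * mass2 p) := by
      intro j
      rw [norm_mul, norm_mul, norm_real, Real.norm_of_nonneg (B.t0 _)]
      ring
    simp only [e]
    rw [← Finset.mul_sum]
    by_cases hM : mass2 p ≤ 0
    · rw [hp hM]; simp
    · push Not at hM
      have h1 := (B.st _ hM).summable.sum_le_tsum u (fun j _ => B.t0 _)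
      rw [(B.st _ hM).tsum_eq] at h1
      have h2 : 0 ≤ ∑ j ∈ u, θ ((4 : ℝ) ^ j * mass2 p) := Finset.sum_nonneg fun j _ => B.t0 _
      calc ‖ρ (pm p)‖ * ‖h p‖ * ∑ j ∈ u, θ ((4 : ℝ) ^ j * mass2 p)
          ≤ C * ‖h p‖ * 1 := by
            have := hC (pm p)
            gcongr
        _ = _ := by rw [mul_one]
  refine ⟨Summable.of_nonneg_of_le (fun j => norm_nonneg _)
    (fun j => norm_integral_le_integral_norm _) hsum, ?_⟩
  rw [(hasSum_integral_of_summable_integral_norm hint hsum).tsum_eq]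
  apply integral_congr_ae
  filter_upwards [h0] with p hp
  rw [tsum_mul_left]
  congr 1
  by_cases hM : mass2 p ≤ 0
  · rw [hp hM]; simp
  · push Not at hM
    rw [tsum_mul_right]
    have h1 : ∑' j : ℤ, (θ ((4 : ℝ) ^ j * mass2 p) : ℂ) = 1 := by
      rw [← ofReal_tsum, (B.st _ hM).tsum_eq, ofReal_one]
    rw [h1, one_mul]

/-- decay for large masses -/
lemma decL (hcone : ∀ᵐ p ∂μ, p ∈ fwdCone) {k : Mink → ℂ} (hk : Integrable k μ)
    (hkh : ∀ᵐ p ∂μ, k p = (1 + (p 0 : ℂ)) * h p) : ∃ C : ℝ, 0 ≤ C ∧ ∀ n : ℕ,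
    ‖∫ p, ρ (pm p) * ((θ ((4 : ℝ) ^ (-(n : ℤ)) * mass2 p) : ℂ) * h p) ∂μ‖ ≤ C * (1 / 2) ^ n := by
  obtain ⟨C, hC0, hC⟩ := hρ.bdd
  refine ⟨2 * C * ∫ p, ‖k p‖ ∂μ, by
    have : 0 ≤ ∫ p, ‖k p‖ ∂μ := integral_nonneg fun p => norm_nonneg _
    positivity, fun n => ?_⟩
  refine (norm_integral_le_integral_norm _).trans ?_
  have e : 2 * C * ∫ p, ‖k p‖ ∂μ = ∫ p, 2 * C * ‖k p‖ ∂μ := (integral_const_mul _ _).symm
  rw [e, ← integral_mul_const]
  refine integral_mono_ae (int_Lh hρ B hi _).norm ((hk.norm.const_mul _).mul_const _) ?_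
  filter_upwards [hcone, hkh] with p hp hkp
  show ‖ρ (pm p) * ((θ ((4 : ℝ) ^ (-(n : ℤ)) * mass2 p) : ℂ) * h p)‖ ≤ 2 * C * ‖k p‖ * (1 / 2) ^ n
  rw [hkp, norm_mul, norm_mul, norm_mul, norm_real, Real.norm_of_nonneg (B.t0 _)]
  have hp0 : 0 ≤ p 0 := hp.1
  have h1 : ‖(1 + (p 0 : ℂ))‖ = 1 + p 0 := by
    rw [← ofReal_one, ← ofReal_add, norm_real, Real.norm_of_nonneg (by positivity)]
  rw [h1]
  by_cases hθ : θ ((4 : ℝ) ^ (-(n : ℤ)) * mass2 p) = 0
  · rw [hθ, zero_mul, mul_zero]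
    positivity
  · have h2 := (B.kt _ hθ).1
    have h3 : (4 : ℝ) ^ n / 4 ≤ mass2 p := by
      rw [zpow_neg, zpow_natCast, ← div_eq_inv_mul, le_div_iff₀ (by positivity)] at h2
      linarith
    have h4 : mass2 p ≤ (p 0) ^ 2 := by
      unfold mass2 mdot
      nlinarith [sq_nonneg (p 1), sq_nonneg (p 2), sq_nonneg (p 3)]
    have h5 : (2 : ℝ) ^ n ≤ 2 * (1 + p 0) := by
      have h6 : ((2 : ℝ) ^ n) ^ 2 ≤ (2 * (1 + p 0)) ^ 2 := by
        have h7 : ((2 : ℝ) ^ n) ^ 2 = 4 ^ n := by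
          rw [← pow_mul, mul_comm, pow_mul]; norm_num
        rw [h7]
        nlinarith
      exact le_of_sq_le_sq h6 (by positivity)
    have h6 : 1 ≤ 2 * (1 + p 0) * (1 / 2) ^ n := by
      rw [one_div, inv_pow, ← div_eq_mul_inv, le_div_iff₀ (by positivity), one_mul]
      exact h5
    have h7 := B.le_one ((4 : ℝ) ^ (-(n : ℤ)) * mass2 p)
    have h8 := B.t0 ((4 : ℝ) ^ (-(n : ℤ)) * mass2 p)
    have h9 := hC (pm p)
    have h10 := norm_nonneg (h p)
    calc ‖ρ (pm p)‖ * (θ ((4 : ℝ) ^ (-(n : ℤ)) * mass2 p) * ‖h p‖) ≤ C * (1 * ‖h p‖) := by gcongr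
      _ = (C * ‖h p‖) * 1 := by ring
      _ ≤ (C * ‖h p‖) * (2 * (1 + p 0) * (1 / 2) ^ n) := by gcongr
      _ = 2 * C * ((1 + p 0) * ‖h p‖) * (1 / 2) ^ n := by ring

end

end Vale.Agent.P352.H496

end
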