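import Vale.Agent.P352.H496.Gen6

set_option linter.all false

noncomputable section

open MeasureTheory SchwartzMap Complex Filter Topology
open scoped SchwartzMap ComplexConjugate ENNReal LineDeriv ContDiff FourierTransform

namespace Vale.Agent.P352.H496

open GF (Ix V Fn Sch ev pd bar sim bas o)
open H246
open UniformSpace (Completion)

variable {D : Type*} [NormedAddCommGroup D] [InnerProductSpace ℂ D]
variable {Q : GF.Theory D}
variable {H : D → D} {alg : Set V → Set (D → D)} {S : V → ℝ → D → D} {G : V → D → D}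

lemma null_m : IsNull (nu (-1)) := isNull_nu (Or.inr rfl)

/-! ### The form of the generator integrated over the null rotations -/

section

variable (N : CNet Q H alg S) (Gg : Gnr Q alg S G)
include N Gg

lemma C_Rn (c : ℝ × ℝ) (v : D) : G (nu (-1)) (Rn Q c v) = Rn Q c (G (nu (-1)) v) := by
  have h := G_U N Gg null_m one_pos one_pos (isLor_nr c) (nr_nu c) v
  rw [div_one, ofReal_one, one_smul] at h
  exact h

lemma C_Wd (t : ℝ) (v : D) :
    G (nu (-1)) (Wd Q t v) = ((Real.exp t ^ 2 : ℝ) : ℂ) • Wd Q t (G (nu (-1)) v) := by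
  have h := G_U N Gg null_m (Real.exp_pos t) (Real.exp_pos (-t)) (isLor_boost t) (boost_nu t) v
  have e : Real.exp t / Real.exp (-t) = Real.exp t ^ 2 := by
    rw [Real.exp_neg, div_inv_eq_mul, sq]
  rw [e] at h
  exact h

lemma E_pt (c : ℝ × ℝ) (x y : D) : inner ℂ (Rn Q c x) (G (nu (-1)) y) =
    conj (inner ℂ (Rn Q (-c) y) (G (nu (-1)) x)) := by
  rw [inner_conj_symm, ← (G_adj N Gg null_m) (Rn Q c x) y, C_Rn N Gg, Rn_move N]

lemma E_int {x y : D} (h : Integrable fun c => inner ℂ (Rn Q c x) (G (nu (-1)) y)) :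
    Integrable fun c => inner ℂ (Rn Q c y) (G (nu (-1)) x) := by
  have h1 := (Complex.conjCLE.toContinuousLinearMap.integrable_comp h).comp_neg
  refine h1.congr (Eventually.of_forall fun c => ?_)
  show conj (inner ℂ (Rn Q (-c) x) (G (nu (-1)) y)) = _
  rw [← E_pt N Gg]

lemma E_symm (x y : D) : ∫ c, inner ℂ (Rn Q c x) (G (nu (-1)) y) =
    conj (∫ c, inner ℂ (Rn Q c y) (G (nu (-1)) x)) := by
  rw [← integral_conj, ← integral_neg_eq_self]
  congr 1
  ext c
  rw [E_pt N Gg, neg_neg]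

lemma E_W (i j : ℝ) (u : D) : ∫ c, inner ℂ (Rn Q c (Wd Q i u)) (G (nu (-1)) (Wd Q j u)) =
    ∫ c, inner ℂ (Rn Q c (Wd Q (i - j) u)) (G (nu (-1)) u) := by
  have e : ∀ c : ℝ × ℝ, inner ℂ (Rn Q c (Wd Q i u)) (G (nu (-1)) (Wd Q j u)) =
      ((Real.exp j ^ 2 : ℝ) : ℂ) * inner ℂ (Rn Q (Real.exp j • c) (Wd Q (i - j) u))
        (G (nu (-1)) u) := by
    intro c
    have e1 : Wd Q i u = Wd Q j (Wd Q (i - j) u) := by
      rw [Wd_Wd N]; congr 1; ring
    rw [C_Wd N Gg, inner_smul_right, e1, Rn_Wd N, Wd_inner]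
  simp only [e]
  rw [integral_const_mul]
  have h := Measure.integral_comp_smul (μ := (volume : Measure (ℝ × ℝ)))
    (fun c => inner ℂ (Rn Q c (Wd Q (i - j) u)) (G (nu (-1)) u)) (Real.exp j)
  rw [h]
  have hd : Module.finrank ℝ (ℝ × ℝ) = 2 := by simp
  rw [hd, abs_of_pos (by positivity), real_smul, ← mul_assoc, ← ofReal_mul,
    mul_inv_cancel₀ (by positivity), ofReal_one, one_mul]

/-- positivity -/
lemma E_pos (z : D) (hz : Integrable fun c => inner ℂ (Rn Q c z) (G (nu (-1)) z)) :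
    0 ≤ (∫ c, inner ℂ (Rn Q c z) (G (nu (-1)) z)).re :=
  pos_int (Rn Q) (G (nu (-1))) (Rn_Rn N) Rn_inner (Rn_cont N Gg) (G_add N Gg null_m)
    (G_smul N Gg null_m) (C_Rn N Gg) (G_pos N Gg null_m) z hz

/-- positivity for finite combinations -/
lemma E_comb {ι : Type*} (s : Finset ι) (t : ι → ℂ) (x : ι → D) (v : D)
    (hx : ∀ i y, Integrable fun c => inner ℂ (Rn Q c (x i)) (G (nu (-1)) y))
    (hv : Integrable fun c => inner ℂ (Rn Q c v) (G (nu (-1)) v)) :
    0 ≤ (∑ i ∈ s, ∑ j ∈ s, conj (t i) * t j *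
        ∫ c, inner ℂ (Rn Q c (x i)) (G (nu (-1)) (x j))).re +
      2 * (∑ i ∈ s, conj (t i) * ∫ c, inner ℂ (Rn Q c (x i)) (G (nu (-1)) v)).re +
      (∫ c, inner ℂ (Rn Q c v) (G (nu (-1)) v)).re := by
  set RL : ℝ × ℝ → D →ₗ[ℂ] D := fun c => ⟨⟨Rn Q c, Rn_add c⟩, Rn_smul c⟩ with hRL
  set CL : D →ₗ[ℂ] D := ⟨⟨G (nu (-1)), G_add N Gg null_m⟩, G_smul N Gg null_m⟩ with hCL
  have hR : ∀ c w, Rn Q c w = RL c w := fun c w => rfl
  have hC : ∀ w, G (nu (-1)) w = CL w := fun w => rfl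
  set z : D := ∑ i ∈ s, t i • x i + v with hz
  have hxv : ∀ j, Integrable fun c => inner ℂ (Rn Q c v) (G (nu (-1)) (x j)) := fun j =>
    E_int N Gg (hx j v)
  have key : ∀ c, inner ℂ (Rn Q c z) (G (nu (-1)) z) =
      (∑ i ∈ s, ∑ j ∈ s, conj (t i) * t j * inner ℂ (Rn Q c (x i)) (G (nu (-1)) (x j))) +
      (∑ i ∈ s, conj (t i) * inner ℂ (Rn Q c (x i)) (G (nu (-1)) v)) +
      (∑ j ∈ s, t j * inner ℂ (Rn Q c v) (G (nu (-1)) (x j))) +
      inner ℂ (Rn Q c v) (G (nu (-1)) v) := by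
    intro c
    have e1 : Rn Q c z = ∑ i ∈ s, t i • Rn Q c (x i) + Rn Q c v := by
      rw [hz, hR, map_add, map_sum]
      simp only [map_smul, hR]
    have e2 : G (nu (-1)) z = ∑ i ∈ s, t i • G (nu (-1)) (x i) + G (nu (-1)) v := by
      rw [hz, hC, map_add, map_sum]
      simp only [map_smul, hC]
    have e3 : inner ℂ (∑ i ∈ s, t i • Rn Q c (x i)) (∑ j ∈ s, t j • G (nu (-1)) (x j)) =
        ∑ i ∈ s, ∑ j ∈ s, conj (t i) * t j * inner ℂ (Rn Q c (x i)) (G (nu (-1)) (x j)) := by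
      rw [sum_inner]
      refine Finset.sum_congr rfl fun i _ => ?_
      rw [inner_sum]
      refine Finset.sum_congr rfl fun j _ => ?_
      rw [inner_smul_left, inner_smul_right]
      ring
    have e4 : inner ℂ (∑ i ∈ s, t i • Rn Q c (x i)) (G (nu (-1)) v) =
        ∑ i ∈ s, conj (t i) * inner ℂ (Rn Q c (x i)) (G (nu (-1)) v) := by
      rw [sum_inner]
      refine Finset.sum_congr rfl fun i _ => ?_
      rw [inner_smul_left]
    have e5 : inner ℂ (Rn Q c v) (∑ j ∈ s, t j • G (nu (-1)) (x j)) =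
        ∑ j ∈ s, t j * inner ℂ (Rn Q c v) (G (nu (-1)) (x j)) := by
      rw [inner_sum]
      refine Finset.sum_congr rfl fun i _ => ?_
      rw [inner_smul_right]
    rw [e1, e2, inner_add_left, inner_add_right, inner_add_right, e3, e4, e5]
    ring
  have i1 : ∀ i ∈ s, Integrable fun c => ∑ j ∈ s, conj (t i) * t j *
      inner ℂ (Rn Q c (x i)) (G (nu (-1)) (x j)) := fun i _ =>
    integrable_finsetSum _ fun j _ => (hx i (x j)).const_mul _
  have i2 : ∀ i ∈ s, Integrable fun c => conj (t i) * inner ℂ (Rn Q c (x i)) (G (nu (-1)) v) :=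
    fun i _ => (hx i v).const_mul _
  have i3 : ∀ j ∈ s, Integrable fun c => t j * inner ℂ (Rn Q c v) (G (nu (-1)) (x j)) :=
    fun j _ => (hxv j).const_mul _
  have j1 := integrable_finsetSum s i1
  have j2 := integrable_finsetSum s i2
  have j3 := integrable_finsetSum s i3
  have k12 : Integrable fun c =>
      (∑ i ∈ s, ∑ j ∈ s, conj (t i) * t j * inner ℂ (Rn Q c (x i)) (G (nu (-1)) (x j))) +
      (∑ i ∈ s, conj (t i) * inner ℂ (Rn Q c (x i)) (G (nu (-1)) v)) := j1.add j2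
  have k123 : Integrable fun c =>
      (∑ i ∈ s, ∑ j ∈ s, conj (t i) * t j * inner ℂ (Rn Q c (x i)) (G (nu (-1)) (x j))) +
      (∑ i ∈ s, conj (t i) * inner ℂ (Rn Q c (x i)) (G (nu (-1)) v)) +
      (∑ j ∈ s, t j * inner ℂ (Rn Q c v) (G (nu (-1)) (x j))) := k12.add j3
  have hzi : Integrable fun c => inner ℂ (Rn Q c z) (G (nu (-1)) z) := by
    simp only [key]
    exact k123.add hv
  have h := E_pos N Gg z hzi
  simp only [key] at h
  rw [integral_add k123 hv, integral_add k12 j3, integral_add j1 j2,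
    integral_finsetSum _ i1, integral_finsetSum _ i2, integral_finsetSum _ i3] at h
  have e1 : ∀ i ∈ s, ∫ c, ∑ j ∈ s, conj (t i) * t j *
      inner ℂ (Rn Q c (x i)) (G (nu (-1)) (x j)) = ∑ j ∈ s, conj (t i) * t j *
      ∫ c, inner ℂ (Rn Q c (x i)) (G (nu (-1)) (x j)) := by
    intro i _
    rw [integral_finsetSum _ fun j _ => (hx i (x j)).const_mul _]
    refine Finset.sum_congr rfl fun j _ => integral_const_mul _ _
  rw [Finset.sum_congr rfl e1] at h
  simp only [integral_const_mul] at h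
  have e2 : ∑ j ∈ s, t j * ∫ c, inner ℂ (Rn Q c v) (G (nu (-1)) (x j)) =
      conj (∑ i ∈ s, conj (t i) * ∫ c, inner ℂ (Rn Q c (x i)) (G (nu (-1)) v)) := by
    rw [map_sum]
    refine Finset.sum_congr rfl fun j _ => ?_
    rw [map_mul, conj_conj, E_symm N Gg]
  rw [e2, add_re, add_re, add_re, conj_re] at h
  linarith

end

end Vale.Agent.P352.H496

end
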