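import Vale.Agent.P352.H496.Gen7

set_option linter.all false

noncomputable section

open MeasureTheory SchwartzMap Complex Filter Topology
open scoped SchwartzMap ComplexConjugate ENNReal LineDeriv ContDiff FourierTransform

namespace Vale.Agent.P352.H496

open GF (Ix V Fn Sch ev pd bar sim bas o)
open H246
open UniformSpace (Completion)

variable {D : Type*} [NormedAddCommGroup D] [InnerProductSpace ℂ D]
variable {Q : GF.Theory D}
variable {H : D → D} {alg : Set V → Set (D → D)} {S : V → ℝ → D → D} {G : V → D → D}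

lemma exp_tj (j : ℤ) : Real.exp (j * Real.log 2) ^ 2 = (4 : ℝ) ^ j := by
  have h : Real.exp (j * Real.log 2) = (2 : ℝ) ^ j := by
    rw [mul_comm, ← Real.rpow_def_of_pos (by norm_num : (0 : ℝ) < 2), Real.rpow_intCast]
  rw [h, ← zpow_natCast, ← zpow_mul, mul_comm, zpow_mul]
  norm_num

lemma mdot_a0 (p : Mink) (t : ℝ) : mdot p (t • a0) = t * pm p := by
  rw [mdot_smul_right]
  congr 1
  simp [mdot, a0, nu, pm]

section

variable (N : CNet Q H alg S) (Gg : Gnr Q alg S G)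
include N Gg

lemma C_U1 (t : ℝ) (v : D) :
    G (nu (-1)) (U1 Q (t • a0) v) = U1 Q (t • a0) (G (nu (-1)) v) := G_tr N Gg null_m t v

lemma C_dlp (t : ℝ) (n : ℕ) (v : D) :
    G (nu (-1)) (dlp Q (t • a0) n v) = dlp Q (t • a0) n (G (nu (-1)) v) := by
  induction n with
  | zero => rfl
  | succ n ih =>
    show G (nu (-1)) (dl Q (t • a0) (dlp Q (t • a0) n v)) =
      dl Q (t • a0) (dlp Q (t • a0) n (G (nu (-1)) v))
    have e : dl Q (t • a0) (dlp Q (t • a0) n v) = U1 Q (t • a0) (dlp Q (t • a0) n v) +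
        (-1 : ℂ) • dlp Q (t • a0) n v := by
      rw [neg_one_smul, ← sub_eq_add_neg]; rfl
    rw [e, G_add N Gg null_m, G_smul N Gg null_m, C_U1 N Gg, ih, neg_one_smul, ← sub_eq_add_neg]
    rfl

end

section

variable {μ : Measure Mink} {T : Ix → Ix → GF.Fld D}
variable (hT : Q.IsStress T) (Sy : SymMeasure μ 4) (two : Two Q (GF.tr T) μ)

include hT in
lemma U1_Tv (a : Mink) (F : 𝓢(Mink, ℂ)) : U1 Q a (Tv Q T F) = Tv Q T (tauS a F) := by
  have h := (PField.tr hT).cov_vac 1 one_pos isLor_one a.ofLp (tauS a F)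
  rw [simS_tauS] at h
  simp only [sub_self, Real.rpow_zero, ofReal_one, one_smul] at h
  exact h.symm

include two in
lemma jd_dlp (w : Mink) (n : ℕ) (y : D) : jd Sy (PField.tr hT) (dlp Q w n y) =ᵐ[μ]
    fun p => (chr w p - 1) ^ n * jd Sy (PField.tr hT) y p := by
  induction n with
  | zero => exact Eventually.of_forall fun p => by simp [dlp]
  | succ n ih =>
    have e : dlp Q w (n + 1) y = U1 Q w (dlp Q w n y) + (-1 : ℂ) • dlp Q w n y := by
      rw [neg_one_smul, ← sub_eq_add_neg]; rfl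
    rw [e, jd_add, jd_smul]
    filter_upwards [ih, jd_U1 Sy (PField.tr hT) two w (dlp Q w n y),
      Lp.coeFn_add (jd Sy (PField.tr hT) (U1 Q w (dlp Q w n y)))
        ((-1 : ℂ) • jd Sy (PField.tr hT) (dlp Q w n y)),
      Lp.coeFn_smul (-1 : ℂ) (jd Sy (PField.tr hT) (dlp Q w n y))] with p h1 h2 h3 h4
    rw [h3, Pi.add_apply, h2, h4, Pi.smul_apply, h1, smul_eq_mul, pow_succ]
    ring

include Sy in
lemma im_zero (y : Mink → ℂ) : ∀ᵐ p ∂μ, mass2 p ≤ 0 → (H246.im p : ℂ) * y p = 0 := by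
  filter_upwards [ae_cone Sy.good] with p hp h
  have h1 : mass2 p = 0 := le_antisymm h hp.2
  unfold H246.im
  rw [h1]
  simp

variable (N : CNet Q H alg S) (Gg : Gnr Q alg S G)

include two N Gg in
lemma zero_tr {F : 𝓢(Mink, ℂ)} (hk : ∀ F : 𝓢(Mink, ℂ), ∫ p, (H246.im p : ℂ) *
      jd Sy (PField.tr hT) (G (nu (-1)) (Tv Q T F)) p ∂μ = 0) (t : ℝ) :
    ∫ p, exp (I * ((t * pm p : ℝ) : ℂ)) * ((H246.im p : ℂ) *
      jd Sy (PField.tr hT) (G (nu (-1)) (Tv Q T F)) p) ∂μ = 0 := by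
  have h := hk (tauS (t • a0) F)
  rw [← U1_Tv hT, C_U1 N Gg] at h
  rw [← h]
  apply integral_congr_ae
  filter_upwards [jd_U1 Sy (PField.tr hT) two (t • a0) (G (nu (-1)) (Tv Q T F))] with p hp
  rw [hp]
  have : chr (t • a0) p = exp (I * ((t * pm p : ℝ) : ℂ)) := by
    unfold chr
    rw [mdot_a0]
  rw [this]
  ring

include Sy in
lemma locfin : IsLocallyFiniteMeasure μ := by
  refine ⟨fun x => ⟨Metric.closedBall 0 (‖x‖ + 1), ?_, Sy.fin _⟩⟩
  refine mem_of_superset (Metric.ball_mem_nhds x one_pos) fun y hy => ?_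
  rw [Metric.mem_closedBall, dist_zero_right]
  rw [Metric.mem_ball, dist_eq_norm] at hy
  calc ‖y‖ = ‖(y - x) + x‖ := by congr 1; abel
    _ ≤ ‖y - x‖ + ‖x‖ := norm_add_le _ _
    _ ≤ _ := by linarith

include two N Gg in
/-- the main step: the logarithmic cutoff -/
theorem stepA (hk : ∀ F : 𝓢(Mink, ℂ), ∫ p, (H246.im p : ℂ) *
      jd Sy (PField.tr hT) (G (nu (-1)) (Tv Q T F)) p ∂μ = 0) {ρ : ℝ → ℂ} (hρ : Cut ρ) (v : D)
    (hv : Integrable fun c => inner ℂ (Rn Q c v) (G (nu (-1)) v)) :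
    ∫ p, conj (ρ (pm p)) * ((H246.im p : ℂ) *
      jd Sy (PField.tr hT) (G (nu (-1)) v) p) ∂μ = 0 := by
  have hloc := locfin Sy
  obtain ⟨g, θ, B⟩ := exists_bmp
  obtain ⟨F, hF⟩ := exists_F hρ B
  set u := Tv Q T F with hu
  set W : ℤ → D := fun j => Wd Q (j * Real.log 2) u with hW
  have hL1 := fun (j : ℤ) (y : D) => L1 hT Sy two N.toNet hρ B hF (j * Real.log 2) (G (nu (-1)) y)
  have hx : ∀ j y, Integrable fun c => inner ℂ (Rn Q c (W j)) (G (nu (-1)) y) :=
    fun j y => (hL1 j y).1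
  have hL : ∀ j y, ∫ c, inner ℂ (Rn Q c (W j)) (G (nu (-1)) y) =
      ∫ p, conj (ρ (pm p)) * ((θ ((4 : ℝ) ^ j * mass2 p) : ℂ) *
        ((H246.im p : ℂ) * jd Sy (PField.tr hT) (G (nu (-1)) y) p)) ∂μ := by
    intro j y
    rw [(hL1 j y).2, exp_tj]
  set κ : ℤ → ℂ := fun k => ∫ c, inner ℂ (Rn Q c (W k)) (G (nu (-1)) u) with hκ
  have hWW : ∀ i j, ∫ c, inner ℂ (Rn Q c (W i)) (G (nu (-1)) (W j)) = κ (i - j) := by
    intro i j
    simp only [hW, hκ]
    rw [E_W N Gg]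
    have : (i : ℝ) * Real.log 2 - (j : ℝ) * Real.log 2 = ((i - j : ℤ) : ℝ) * Real.log 2 := by
      push_cast; ring
    rw [this]
  have hsymm : ∀ k, κ (-k) = conj (κ k) := by
    intro k
    have h1 := E_symm N Gg (W 0) (W k)
    rw [hWW, hWW, zero_sub, sub_zero] at h1
    exact h1
  have hiy := fun y => int_im hT Sy two N.toNet (G (nu (-1)) y)
  have hcone := ae_cone Sy.good
  -- decay
  have hdec : ∃ C : ℝ, ∀ k : ℤ, ‖κ k‖ ≤ C * (1 / 2 : ℝ) ^ k.natAbs := by
    obtain ⟨C, hC0, hC⟩ := decL hρ.conj B (hiy u) hcone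
      (int_im hT Sy two N.toNet (G (nu (-1)) u + H (G (nu (-1)) u))) (by
        filter_upwards [jd_pw1 Sy (PField.tr hT) two N.toNet 1 (G (nu (-1)) u)] with p hp
        rw [pow_one] at hp
        have e : jd Sy (PField.tr hT) (G (nu (-1)) u + H (G (nu (-1)) u)) p =
            (1 + (p 0 : ℂ)) * jd Sy (PField.tr hT) (G (nu (-1)) u) p := hp
        rw [e]
        ring)
    refine ⟨C, fun k => ?_⟩
    have h1 : ∀ n : ℕ, ‖κ (-(n : ℤ))‖ ≤ C * (1 / 2) ^ n := by
      intro n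
      rw [hκ]
      simp only
      rw [hL]
      exact hC n
    rcases Int.eq_nat_or_neg k with ⟨n, hn | hn⟩
    · have h2 := h1 n
      rw [hsymm, RCLike.norm_conj] at h2
      rw [hn, Int.natAbs_natCast]
      exact h2
    · rw [hn, Int.natAbs_neg, Int.natAbs_natCast]
      exact h1 n
  obtain ⟨C, hC⟩ := hdec
  -- vanishing of the sum
  have hs : ∑' k, κ k = 0 := by
    have h1 := (sumL hρ.conj B (hiy u) (im_zero Sy _)).2
    have h2 := four_zero (hiy u) (zero_tr hT Sy two N Gg hk) hρ.conj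
    have h3 : ∑' k, κ k = ∑' j : ℤ, ∫ p, conj (ρ (pm p)) * ((θ ((4 : ℝ) ^ j * mass2 p) : ℂ) *
        ((H246.im p : ℂ) * jd Sy (PField.tr hT) (G (nu (-1)) u) p)) ∂μ := by
      congr 1
      funext k
      exact hL k u
    rw [h3]
    exact h1.trans h2
  -- the values on `v`
  obtain ⟨h1, h2⟩ := sumL hρ.conj B (hiy v) (im_zero Sy _)
  have h3 := seq_zero (κ := κ)
    (L := fun j => ∫ c, inner ℂ (Rn Q c (W j)) (G (nu (-1)) v))
    (e := (∫ c, inner ℂ (Rn Q c v) (G (nu (-1)) v)).re) hC hs (by simpa only [hL] using h1)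
    (fun s t => by
      have h4 := E_comb N Gg s t W v hx hv
      simpa only [hWW] using h4)
  simp only [hL] at h3
  rw [← h2]
  exact h3

end

end Vale.Agent.P352.H496

end
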