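import Vale.Agent.P352.H496.Gen8

set_option linter.all false

noncomputable section

open MeasureTheory SchwartzMap Complex Filter Topology
open scoped SchwartzMap ComplexConjugate ENNReal LineDeriv ContDiff FourierTransform

namespace Vale.Agent.P352.H496

open GF (Ix V Fn Sch ev pd bar sim bas o)
open H246
open UniformSpace (Completion)

/-! ### Removing the cutoff -/

/-- cutoff functions -/
def chi (k : ℕ) (x : ℝ) : ℝ :=
  Real.smoothTransition (((k : ℝ) + 2) * x - 1) * Real.smoothTransition ((k : ℝ) + 2 - x)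

lemma chi_nonneg (k : ℕ) (x : ℝ) : 0 ≤ chi k x :=
  mul_nonneg (Real.smoothTransition.nonneg _) (Real.smoothTransition.nonneg _)

lemma chi_le_one (k : ℕ) (x : ℝ) : chi k x ≤ 1 :=
  mul_le_one₀ (Real.smoothTransition.le_one _) (Real.smoothTransition.nonneg _)
    (Real.smoothTransition.le_one _)

lemma chi_ne {k : ℕ} {x : ℝ} (h : chi k x ≠ 0) : 1 / ((k : ℝ) + 2) < x ∧ x < (k : ℝ) + 2 := by
  have hk : (0 : ℝ) < (k : ℝ) + 2 := by positivity
  constructor
  · by_contra hcon
    push Not at hcon
    apply h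
    unfold chi
    rw [Real.smoothTransition.zero_of_nonpos, zero_mul]
    rw [le_div_iff₀ hk] at hcon
    linarith
  · by_contra hcon
    push Not at hcon
    apply h
    unfold chi
    rw [Real.smoothTransition.zero_of_nonpos (x := (k : ℝ) + 2 - x), mul_zero]
    linarith

lemma chi_tendsto {x : ℝ} (hx : 0 < x) : ∀ᶠ k : ℕ in atTop, chi k x = 1 := by
  have h1 : Tendsto (fun k : ℕ => (k : ℝ)) atTop atTop := tendsto_natCast_atTop_atTop
  filter_upwards [h1.eventually_ge_atTop (2 / x), h1.eventually_ge_atTop x] with k h2 h3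
  rw [div_le_iff₀ hx] at h2
  unfold chi
  rw [Real.smoothTransition.one_of_one_le, Real.smoothTransition.one_of_one_le, one_mul]
  · linarith
  · nlinarith

lemma contDiff_chi (k : ℕ) : ContDiff ℝ ∞ (chi k) := by
  unfold chi
  exact (Real.smoothTransition.contDiff.comp (by fun_prop)).mul
    (Real.smoothTransition.contDiff.comp (by fun_prop))

lemma exp_ne {k : ℕ} {x : ℝ} (h1 : 0 < x) (h2 : x ≤ (k : ℝ) + 2) :
    exp (I * ((1 / ((k : ℝ) + 2) * x : ℝ) : ℂ)) - 1 ≠ 0 := by
  have hk : (0 : ℝ) < (k : ℝ) + 2 := by positivity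
  set y := 1 / ((k : ℝ) + 2) * x with hy
  have hy0 : 0 < y := by positivity
  have hy1 : y ≤ 1 := by
    rw [hy, div_mul_eq_mul_div, one_mul, div_le_one hk]
    exact h2
  intro h
  have h3 : (exp (I * (y : ℂ)) - 1).im = Real.sin y := by
    rw [mul_comm, exp_mul_I, ← ofReal_cos, ← ofReal_sin, sub_im, add_im, ofReal_im,
      im_ofReal_mul, I_im, mul_one, one_im, zero_add, sub_zero]
  rw [h, zero_im] at h3
  have := Real.sin_pos_of_pos_of_lt_pi hy0 (by linarith [Real.two_le_pi])
  linarith

/-- the cutoff divided by the third power of the difference -/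
def rhk (k : ℕ) (x : ℝ) : ℂ :=
  conj ((chi k x : ℂ) / (exp (I * ((1 / ((k : ℝ) + 2) * x : ℝ) : ℂ)) - 1) ^ 3)

lemma cut_rhk (k : ℕ) : Cut (rhk k) := by
  have hk : (0 : ℝ) < (k : ℝ) + 2 := by positivity
  have hne : ∀ x, rhk k x ≠ 0 → 1 / ((k : ℝ) + 2) < x ∧ x < (k : ℝ) + 2 := by
    intro x hx
    apply chi_ne
    intro h
    apply hx
    unfold rhk
    rw [h]
    simp
  refine ⟨?_, 1 / ((k : ℝ) + 2), (k : ℝ) + 2, by positivity, fun x hx =>
    ⟨(hne x hx).1.le, (hne x hx).2.le⟩⟩
  rw [contDiff_iff_contDiffAt]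
  intro x
  by_cases hx : x ∈ Set.Icc (1 / ((k : ℝ) + 2)) ((k : ℝ) + 2)
  · have hx0 : 0 < x := lt_of_lt_of_le (by positivity) hx.1
    have h1 : ContDiffAt ℝ ∞ (fun x : ℝ => (chi k x : ℂ)) x :=
      (Complex.ofRealCLM.contDiff.comp (contDiff_chi k)).contDiffAt
    have h2 : ContDiffAt ℝ ∞ (fun x : ℝ =>
        (exp (I * ((1 / ((k : ℝ) + 2) * x : ℝ) : ℂ)) - 1) ^ 3) x := by
      have h3 : ContDiff ℝ ∞ (fun x : ℝ => I * ((1 / ((k : ℝ) + 2) * x : ℝ) : ℂ)) := by
        have h4 : ContDiff ℝ ∞ (fun x : ℝ => (1 / ((k : ℝ) + 2) * x)) := by fun_prop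
        exact contDiff_const.mul (Complex.ofRealCLM.contDiff.comp h4)
      exact ((h3.cexp.sub contDiff_const).pow 3).contDiffAt
    have h3 := h1.mul (h2.inv (pow_ne_zero 3 (exp_ne hx0 hx.2)))
    have h4 : ContDiffAt ℝ ∞ (fun x : ℝ => conj ((chi k x : ℂ) *
        ((exp (I * ((1 / ((k : ℝ) + 2) * x : ℝ) : ℂ)) - 1) ^ 3)⁻¹)) x :=
      Complex.conjCLE.contDiff.contDiffAt.comp x h3
    exact h4
  · have h1 : rhk k =ᶠ[𝓝 x] fun _ => 0 := by
      filter_upwards [isClosed_Icc.isOpen_compl.mem_nhds hx] with y hy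
      by_contra h
      exact hy ⟨(hne y h).1.le, (hne y h).2.le⟩
    exact contDiffAt_const.congr_of_eventuallyEq h1

variable {D : Type*} [NormedAddCommGroup D] [InnerProductSpace ℂ D]
variable {Q : GF.Theory D}
variable {H : D → D} {alg : Set V → Set (D → D)} {S : V → ℝ → D → D} {G : V → D → D}

section

variable {μ : Measure Mink} {T : Ix → Ix → GF.Fld D}
variable (hT : Q.IsStress T) (Sy : SymMeasure μ 4) (two : Two Q (GF.tr T) μ)
variable (N : CNet Q H alg S) (Gg : Gnr Q alg S G)

include two N Gg in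
theorem stepC (hk : ∀ F : 𝓢(Mink, ℂ), ∫ p, (H246.im p : ℂ) *
      jd Sy (PField.tr hT) (G (nu (-1)) (Tv Q T F)) p ∂μ = 0) (v : D) :
    ∫ p, (H246.im p : ℂ) * jd Sy (PField.tr hT) (G (nu (-1)) v) p ∂μ = 0 := by
  set h : Mink → ℂ := fun p => (H246.im p : ℂ) * jd Sy (PField.tr hT) (G (nu (-1)) v) p with hh
  have hi : Integrable h μ := int_im hT Sy two N.toNet (G (nu (-1)) v)
  have key : ∀ k : ℕ, ∫ p, (chi k (pm p) : ℂ) * h p ∂μ = 0 := by
    intro k
    set u : ℝ := 1 / ((k : ℝ) + 2) with hu
    have h1 := stepA hT Sy two N Gg hk (cut_rhk k) (dlp Q (u • a0) 3 v) (int_decay N Gg u _ v)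
    rw [← h1]
    apply integral_congr_ae
    have h2 := jd_dlp hT Sy two (u • a0) 3 (G (nu (-1)) v)
    rw [← C_dlp N Gg] at h2
    filter_upwards [h2] with p hp
    rw [hp]
    have e : chr (u • a0) p = exp (I * ((u * pm p : ℝ) : ℂ)) := by
      unfold chr
      rw [mdot_a0]
    rw [e]
    unfold rhk
    rw [conj_conj]
    by_cases hc : chi k (pm p) = 0
    · rw [hc]; simp
    · obtain ⟨c1, c2⟩ := chi_ne hc
      have hp0 : 0 < pm p := lt_trans (by positivity) c1
      have h3 := exp_ne hp0 c2.le
      rw [← hu] at h3 ⊢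
      simp only [hh]
      field_simp
  have hlim : Tendsto (fun k : ℕ => ∫ p, (chi k (pm p) : ℂ) * h p ∂μ) atTop (𝓝 (∫ p, h p ∂μ)) := by
    refine tendsto_integral_of_dominated_convergence (fun p => ‖h p‖) (fun k => ?_) hi.norm
      (fun k => Eventually.of_forall fun p => ?_) ?_
    · exact ((Complex.continuous_ofReal.comp ((contDiff_chi k).continuous.comp
        continuous_pm)).aestronglyMeasurable).mul hi.aestronglyMeasurable
    · rw [norm_mul, norm_real, Real.norm_of_nonneg (chi_nonneg _ _)]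
      exact mul_le_of_le_one_left (norm_nonneg _) (chi_le_one _ _)
    · filter_upwards [ae_cone Sy.good, im_zero Sy (jd Sy (PField.tr hT) (G (nu (-1)) v))]
        with p hp h0
      by_cases hm : 0 < pm p
      · refine tendsto_const_nhds.congr' ?_
        filter_upwards [chi_tendsto hm] with k hk
        rw [hk, ofReal_one, one_mul]
      · have h1 : mass2 p ≤ 0 := by
          have h2 : 0 ≤ pm p := by
            have := abs_le_of_mem_fwdCone hp
            have := (abs_le.1 this).1
            unfold pm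
            linarith
          have h3 : pm p = 0 := le_antisymm (not_lt.1 hm) h2
          have h4 : mass2 p = (p 0 - p 1) * pm p - p 2 ^ 2 - p 3 ^ 2 := by
            unfold pm mass2 mdot; ring
          rw [h4, h3]
          nlinarith [sq_nonneg (p 2), sq_nonneg (p 3)]
        have h2 : h p = 0 := h0 h1
        rw [h2]
        simp
  simp only [key] at hlim
  exact (tendsto_nhds_unique hlim tendsto_const_nhds)

include two in
/-- the representation of the potential by a point like functional, with its value -/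
theorem exists_point_val (N : Net Q H alg S) : ∃ (φ : Completion D) (n : ℕ),
    (∀ (F : 𝓢(Mink, ℂ)) (v : D),
    inner ℂ (lamV Sy (PField.tr hT) F) (v : Completion D) =
      ∫ x : Mink, conj (F x) * inner ℂ φ ((pw1 H n (U1 Q (-x) v) : D) : Completion D)) ∧
    ∀ v : D, pt φ (pw1 H n) v =
      (-(1 / 3 : ℂ)) * ∫ p, (H246.im p : ℂ) * jd Sy (PField.tr hT) v p ∂μ := by
  set hA := PField.tr hT with hAd
  obtain ⟨n, hn⟩ := exists_wt0 Sy
  set w := hn.toLp _ with hw
  have h6 : ∀ p ∈ fwdCone, (wt0 n p : ℂ) * (1 + (p 0 : ℂ)) ^ n = 1 := by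
    intro p h5
    unfold wt0
    rw [abs_of_nonneg h5.1]
    have h7 : (1 + (p 0 : ℂ)) ≠ 0 := by
      have h8 : 0 < 1 + p 0 := by have := h5.1; linarith
      intro h9
      have h10 : ((1 + p 0 : ℝ) : ℂ) = 0 := by rw [ofReal_add, ofReal_one]; exact h9
      exact h8.ne' (Complex.ofReal_eq_zero.1 h10)
    push_cast
    field_simp
  refine ⟨(-(1 / 3 : ℂ)) • J Sy hA w, n, fun F v => ?_, fun v => ?_⟩
  · -- the right hand side in momentum space
    set u := jd Sy hA (pw1 H n v) with hu
    have hwu : Integrable (fun p => conj (w p) * u p) μ := by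
      have := (Lp.memLp w).star.integrable_mul (Lp.memLp u)
      exact this
    have h1 : ∀ x : Mink, inner ℂ ((-(1 / 3 : ℂ)) • J Sy hA w)
        ((pw1 H n (U1 Q (-x) v) : D) : Completion D) =
        (-(1 / 3 : ℂ)) * ∫ p, conj (chr x p) * (conj (w p) * u p) ∂μ := by
      intro x
      rw [pw1_comm N, inner_smul_left, inner_jd, L2.inner_def]
      congr 1
      · rw [map_neg, map_div₀, map_one, map_ofNat]
      · apply integral_congr_ae
        filter_upwards [jd_U1 Sy hA two (-x) (pw1 H n v)] with p hp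
        rw [hp, chr_neg]
        simp only [RCLike.inner_apply]
        ring
    have h2 : inner ℂ (lamV Sy hA F) (v : Completion D) =
        (-(1 / 3 : ℂ)) * ∫ p, conj (mft F p) * (conj (w p) * u p) ∂μ := by
      rw [lamV_apply, inner_smul_left, inner_jd, inner_toI]
      congr 1
      · rw [map_neg, map_div₀, map_one, map_ofNat]
      · apply integral_congr_ae
        filter_upwards [jd_pw1 Sy hA two N n v, hn.coeFn_toLp, ae_cone Sy.good] with p h3 h4 h5
        rw [h3, h4, map_mul, conj_ofReal, conj_ofReal]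
        linear_combination (-(conj (mft F p)) * (H246.im p : ℂ) * jd Sy hA v p) * h6 p h5
    rw [h2]
    simp only [h1]
    -- Fubini
    have h3 : ∀ x : Mink, conj (F x) * ((-(1 / 3 : ℂ)) *
        ∫ p, conj (chr x p) * (conj (w p) * u p) ∂μ) =
        (-(1 / 3 : ℂ)) * ∫ p, conj (F x) * (conj (chr x p) * (conj (w p) * u p)) ∂μ := by
      intro x
      rw [integral_const_mul]
      ring
    simp only [h3]
    rw [integral_const_mul]
    congr 1
    have hloc := locfin Sy
    rw [integral_integral_swap]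
    · congr 1
      ext p
      rw [mft, ← integral_conj, ← integral_mul_const]
      congr 1
      ext x
      rw [chr, map_mul]
      ring
    · have hint : Integrable (fun q : Mink × Mink => ‖F q.1‖ * ‖conj (w q.2) * u q.2‖)
          ((volume : Measure Mink).prod μ) :=
        ((F.integrable (μ := (volume : Measure Mink))).norm).mul_prod hwu.norm
      refine hint.mono' ?_ (Eventually.of_forall fun q => ?_)
      · apply AEStronglyMeasurable.mul
        · exact (Complex.continuous_conj.comp
            (F.continuous.comp continuous_fst)).aestronglyMeasurable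
        · apply AEStronglyMeasurable.mul
          · exact (Complex.continuous_conj.comp continuous_chr2).aestronglyMeasurable
          · exact hwu.aestronglyMeasurable.comp_snd
      · simp only [Function.uncurry]
        rw [norm_mul, norm_mul, RCLike.norm_conj, RCLike.norm_conj, norm_chr, one_mul]
  · unfold pt
    rw [inner_smul_left, inner_jd, L2.inner_def]
    congr 1
    · rw [map_neg, map_div₀, map_one, map_ofNat]
    · apply integral_congr_ae
      filter_upwards [jd_pw1 Sy hA two N n v, hn.coeFn_toLp, ae_cone Sy.good] with p h3 h4 h5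
      rw [h3, h4]
      simp only [RCLike.inner_apply, map_mul, conj_ofReal]
      linear_combination ((H246.im p : ℂ) * jd Sy hA v p) * h6 p h5

end

end Vale.Agent.P352.H496

end
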