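import Vale.Agent.P352.H496.GnrTr
import Vale.Agent.P352.H746.Plane
import Vale.Agent.P352.H746.Nrt

set_option linter.all false

noncomputable section

open MeasureTheory Filter Topology
open scoped ComplexConjugate

namespace Vale.Agent.P352.H496

open GF (Ix V Fn Sch ev pd bar sim bas o)
open H246 H746
open UniformSpace (Completion)

variable {D : Type*} [NormedAddCommGroup D] [InnerProductSpace ℂ D]
variable {Q : GF.Theory D} {alg : Set V → Set (D → D)} {S : V → ℝ → D → D} {G : V → D → D}

/-- the null deformations and the translations along the null hyperplane -/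
theorem Gnr.Ptr (Gg : Gnr Q alg S G) {a : V} (ha : IsNull a) {s : ℝ} {w : V}
    (hw : GF.mdot a w = 0) : H746.Ptr Q S a s w := by
  have hw' : GF.mdot a (s • w) = 0 := by
    have : GF.mdot a (s • w) = s * GF.mdot a w := by
      simp only [gf_mdot, Pi.smul_apply, smul_eq_mul]; ring
    rw [this, hw, mul_zero]
  refine ptr_of ha hw fun v => Gg.ptr a s w _ v ha hw (isLor_nrt ha hw') fun z => ?_
  rw [sim_nrt]
  have e1 : GF.mdot (s • w) z = s * GF.mdot w z := by
    simp only [gf_mdot, Pi.smul_apply, smul_eq_mul]; ring
  have e2 : GF.mdot (s • w) (s • w) = s ^ 2 * GF.mdot w w := by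
    simp only [gf_mdot, Pi.smul_apply, smul_eq_mul]; ring
  rw [e1, e2]
  funext n
  simp only [Pi.sub_apply, Pi.add_apply, Pi.smul_apply, smul_eq_mul]
  ring

end Vale.Agent.P352.H496

end
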