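import Vale.Agent.P352.H246.Defs

open MeasureTheory Filter Topology

namespace Vale.Agent.P352.H496

open GF

noncomputable section

/-- The function `x ↦ x^l g(x)`. -/
def xg (l : Ix) (g : Fn) : Fn := fun x => (x l : ℂ) * g x

variable {D : Type*} [NormedAddCommGroup D] [InnerProductSpace ℂ D]

/-- The commutator of the field `t`, smeared with `g`, and the field `B`, smeared with `f`,
applied to `v`. -/
def cm (t : Fld D) (g : Fn) (B : Fld D) (f : Fn) (v : D) : D := t g (B f v) - B f (t g v)

/-- `t` is a traceless improvement of the stress tensor `T`: a symmetric, hermitian, covariant,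
conserved and traceless tensor field, local relative to itself and to all fields of the theory, with
the same translation and Lorentz charges as `T`: for large cutoffs, the commutators of the
densities `t^{0n}` and `x^l t^{0n} - x^n t^{0l}` with the fields are those of `T`. -/
structure IsImpr (Q : Theory D) (T t : Ix → Ix → Fld D) : Prop where
  lin : ∀ m n f g (c : ℂ) v, IsTest f → IsTest g →
    t m n (fun x => f x + c * g x) v = t m n f v + c • t m n g v
  cont : ∀ m n v, Continuous fun g => t m n (ev g) v
  symm : ∀ m n f v, IsTest f → t m n f v = t n m f v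
  herm : ∀ m n f v w, IsTest f → inner ℂ (t m n f v) w = inner ℂ v (t m n (bar f) w)
  cov : ∀ m n s L a f v, 0 < s → IsLor L → IsTest f → t m n f (Q.U s L a v) =
    ∑ k, ∑ l, (L k m * L l n : ℂ) • Q.U s L a (t k l (fun x => f (sim s L a x)) v)
  conserved : ∀ n f v, IsTest f → ∑ m, t m n (pd m f) v = 0
  traceless : ∀ f v, IsTest f → tr t f v = 0
  loc : ∀ m n B f g v, Q.fld B → IsTest f → IsTest g → Sep f g → cm (t m n) f B g v = 0
  self : ∀ m n k l f g v, IsTest f → IsTest g → Sep f g → cm (t m n) f (t k l) g v = 0
  charge : ∀ F B f, IsCutoff F → Q.fld B → IsTest f → HasCompactSupport f →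
    ∀ᶠ R in atTop, ∀ l n v, cm (t o n) (F R) B f v = cm (T o n) (F R) B f v ∧
      cm (t o n) (xg l (F R)) B f v - cm (t o l) (xg n (F R)) B f v =
        cm (T o n) (xg l (F R)) B f v - cm (T o l) (xg n (F R)) B f v

end

end Vale.Agent.P352.H496
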