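import Vale.Agent.P352.H246.Main
import Vale.Agent.P352.H246.Dil
import Vale.Agent.P352.H246.Cov
import Vale.Agent.P352.H15.NPDefs
import Vale.Agent.P352.H496.ImpDefs

set_option linter.all false

noncomputable section

open MeasureTheory SchwartzMap Complex Filter Topology
open scoped SchwartzMap ComplexConjugate ENNReal LineDeriv

namespace Vale.Agent.P352.H496

open GF (Ix V Fn Sch ev pd bar sim bas o)
open H246

/-- the differential operator of the improvement -/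
def imS (m n : Ix) (f : 𝓢(Mink, ℂ)) : 𝓢(Mink, ℂ) :=
  ((GF.eta m * GF.eta n : ℝ) : ℂ) • (∂_{eb m} (∂_{eb n} f : 𝓢(Mink, ℂ)) : 𝓢(Mink, ℂ)) -
    ((bas m (GF.eta m) n : ℝ) : ℂ) • boxS f

lemma ldS_smul (v : Mink) (c : ℂ) (g : 𝓢(Mink, ℂ)) :
    (∂_{v} (c • g) : 𝓢(Mink, ℂ)) = c • (∂_{v} g : 𝓢(Mink, ℂ)) := LineDeriv.lineDerivOp_smul v c g

lemma ldS_add (v : Mink) (f g : 𝓢(Mink, ℂ)) :
    (∂_{v} (f + g) : 𝓢(Mink, ℂ)) = (∂_{v} f : 𝓢(Mink, ℂ)) + (∂_{v} g : 𝓢(Mink, ℂ)) :=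
  LineDeriv.lineDerivOp_add v f g

lemma ldS_sum (v : Mink) (g : Ix → 𝓢(Mink, ℂ)) :
    (∂_{v} (∑ k, g k) : 𝓢(Mink, ℂ)) = ∑ k, (∂_{v} (g k) : 𝓢(Mink, ℂ)) :=
  LineDeriv.lineDerivOp_sum v g Finset.univ

lemma boxS_add (f g : 𝓢(Mink, ℂ)) : boxS (f + g) = boxS f + boxS g := by
  unfold boxS
  simp only [ldS_add, smul_add, Finset.sum_add_distrib]

lemma boxS_smul (c : ℂ) (f : 𝓢(Mink, ℂ)) : boxS (c • f) = c • boxS f := by
  unfold boxS
  simp only [ldS_smul, Finset.smul_sum]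
  refine Finset.sum_congr rfl fun k _ => ?_
  rw [smul_comm]

lemma imS_add (m n : Ix) (f g : 𝓢(Mink, ℂ)) : imS m n (f + g) = imS m n f + imS m n g := by
  unfold imS
  rw [ldS_add, ldS_add, boxS_add, smul_add, smul_add]
  abel

lemma imS_smul (m n : Ix) (c : ℂ) (f : 𝓢(Mink, ℂ)) : imS m n (c • f) = c • imS m n f := by
  unfold imS
  rw [ldS_smul, ldS_smul, boxS_smul, smul_sub, smul_comm _ c, smul_comm _ c]

lemma continuous_imS (m n : Ix) : Continuous (imS m n) := by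
  have h1 : Continuous fun f : 𝓢(Mink, ℂ) => ((GF.eta m * GF.eta n : ℝ) : ℂ) •
      (∂_{eb m} (∂_{eb n} f : 𝓢(Mink, ℂ)) : 𝓢(Mink, ℂ)) :=
    (((LineDeriv.continuous_lineDerivOp (eb m)).comp
      (LineDeriv.continuous_lineDerivOp (eb n)))).const_smul ((GF.eta m * GF.eta n : ℝ) : ℂ)
  have h2 : Continuous fun f : 𝓢(Mink, ℂ) => ((bas m (GF.eta m) n : ℝ) : ℂ) • boxS f :=
    continuous_boxS.const_smul ((bas m (GF.eta m) n : ℝ) : ℂ)
  exact h1.sub h2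

lemma bas_symm (m n : Ix) : bas m (GF.eta m) n = bas n (GF.eta n) m := by
  unfold bas
  by_cases h : n = m
  · subst h; rfl
  · rw [if_neg h, if_neg (fun h' => h h'.symm)]

lemma imS_symm (m n : Ix) (f : 𝓢(Mink, ℂ)) : imS m n f = imS n m f := by
  unfold imS
  rw [lineDeriv_comm', bas_symm, mul_comm]

lemma conjS_sub' (f g : 𝓢(Mink, ℂ)) : conjS (f - g) = conjS f - conjS g := by
  ext x; simp

lemma conjS_imS (m n : Ix) (f : 𝓢(Mink, ℂ)) : conjS (imS m n f) = imS m n (conjS f) := by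
  unfold imS
  rw [conjS_sub', conjS_smul, conjS_smul, conjS_lineDeriv, conjS_lineDeriv, conjS_boxS,
    conj_ofReal, conj_ofReal]

lemma tsupport_ldS (m : Ix) (f : 𝓢(Mink, ℂ)) :
    tsupport (∂_{eb m} f : 𝓢(Mink, ℂ)) ⊆ tsupport f := by
  refine closure_minimal ?_ (isClosed_tsupport f)
  intro x hx
  by_contra hcon
  apply hx
  have h1 : (f : Mink → ℂ) =ᶠ[𝓝 x] 0 := notMem_tsupport_iff_eventuallyEq.1 hcon
  show fderiv ℝ f x (eb m) = 0
  have h2 : fderiv ℝ f x = fderiv ℝ (0 : Mink → ℂ) x := h1.fderiv_eq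
  rw [h2]
  simp

lemma tsupport_imS (m n : Ix) (f : 𝓢(Mink, ℂ)) : tsupport (imS m n f) ⊆ tsupport f := by
  refine closure_minimal ?_ (isClosed_tsupport f)
  intro x hx
  by_contra hcon
  apply hx
  have h1 : x ∉ tsupport (∂_{eb m} (∂_{eb n} f : 𝓢(Mink, ℂ)) : 𝓢(Mink, ℂ)) := fun h =>
    hcon (tsupport_ldS n f (tsupport_ldS m _ h))
  have h2 : x ∉ tsupport (boxS f) := fun h => hcon (tsupport_boxS f h)
  show (imS m n f) x = 0
  unfold imS
  rw [SchwartzMap.sub_apply, SchwartzMap.smul_apply, SchwartzMap.smul_apply,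
    image_eq_zero_of_notMem_tsupport h1, image_eq_zero_of_notMem_tsupport h2]
  simp

/-- covariance -/
lemma imS_simS (m n : Ix) (s : ℝ) (hs : 0 < s) {M : Ix → V} (hM : GF.IsLor M) (a : V)
    (f : 𝓢(Mink, ℂ)) : ∑ k, ∑ l, ((M k m : ℂ) * (M l n : ℂ)) • imS k l (simS s hs hM a f) =
      ((s ^ 2 : ℝ) : ℂ) • simS s hs hM a (imS m n f) := by
  ext x
  have e1 : ∀ k l, (∂_{eb k} (∂_{eb l} (simS s hs hM a f) : 𝓢(Mink, ℂ)) : 𝓢(Mink, ℂ)) x =
      ((s ^ 2 : ℝ) : ℂ) * ∑ i, ∑ j, ((M l i : ℂ) * (M k j : ℂ)) *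
        simS s hs hM a (∂_{eb j} (∂_{eb i} f : 𝓢(Mink, ℂ)) : 𝓢(Mink, ℂ)) x := by
    intro k l
    rw [lineDeriv_simS, ldS_smul, ldS_sum]
    simp only [ldS_smul, lineDeriv_simS]
    simp only [SchwartzMap.smul_apply, SchwartzMap.sum_apply, smul_eq_mul, Finset.mul_sum]
    refine Finset.sum_congr rfl fun i _ => Finset.sum_congr rfl fun j _ => ?_
    push_cast
    ring
  have e4 : ∀ k l, ∑ i, (GF.eta i : ℂ) * ((M i k : ℂ) * (M i l : ℂ)) =
      ((bas k (GF.eta k) l : ℝ) : ℂ) := by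
    intro k l
    rw [← lor_transpose hM k l]
    push_cast
    refine Finset.sum_congr rfl fun i _ => ?_
    ring
  set W : Ix → Ix → ℂ := fun j i =>
    simS s hs hM a (∂_{eb j} (∂_{eb i} f : 𝓢(Mink, ℂ)) : 𝓢(Mink, ℂ)) x with hW
  have e5 : (∑ k, ∑ l, ((M k m : ℂ) * (M l n : ℂ)) • imS k l (simS s hs hM a f)) x =
      ∑ k, ∑ l, ((M k m : ℂ) * (M l n : ℂ)) * ((((GF.eta k * GF.eta l : ℝ) : ℂ) *
        (((s ^ 2 : ℝ) : ℂ) * ∑ i, ∑ j, ((M l i : ℂ) * (M k j : ℂ)) * W j i)) -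
        ((bas k (GF.eta k) l : ℝ) : ℂ) * (((s ^ 2 : ℝ) : ℂ) * simS s hs hM a (boxS f) x)) := by
    simp only [SchwartzMap.sum_apply]
    refine Finset.sum_congr rfl fun k _ => Finset.sum_congr rfl fun l _ => ?_
    rw [SchwartzMap.smul_apply, smul_eq_mul]
    unfold imS
    rw [SchwartzMap.sub_apply, SchwartzMap.smul_apply, SchwartzMap.smul_apply, e1, boxS_simS,
      SchwartzMap.smul_apply, smul_eq_mul, smul_eq_mul, smul_eq_mul]
  have e6 : (((s ^ 2 : ℝ) : ℂ) • simS s hs hM a (imS m n f)) x = ((s ^ 2 : ℝ) : ℂ) *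
      (((GF.eta m * GF.eta n : ℝ) : ℂ) * W m n -
        ((bas m (GF.eta m) n : ℝ) : ℂ) * simS s hs hM a (boxS f) x) := by
    rw [SchwartzMap.smul_apply, smul_eq_mul]
    unfold imS
    simp only [hW, simS_apply, SchwartzMap.sub_apply, SchwartzMap.smul_apply, smul_eq_mul]
  rw [e5, e6]
  have p1 : ∑ k, ∑ l, ((M k m : ℂ) * (M l n : ℂ)) * (((GF.eta k * GF.eta l : ℝ) : ℂ) *
      ∑ i, ∑ j, ((M l i : ℂ) * (M k j : ℂ)) * W j i) =
      ((GF.eta m * GF.eta n : ℝ) : ℂ) * W m n := by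
    calc _ = ∑ i, ∑ j, (∑ k, (GF.eta k : ℂ) * ((M k m : ℂ) * (M k j : ℂ))) *
          (∑ l, (GF.eta l : ℂ) * ((M l n : ℂ) * (M l i : ℂ))) * W j i := by
          simp only [Fin.sum_univ_four]
          push_cast
          ring
      _ = ∑ i, ∑ j, ((bas m (GF.eta m) j : ℝ) : ℂ) * ((bas n (GF.eta n) i : ℝ) : ℂ) * W j i := by
          simp only [e4]
      _ = _ := by
          rw [Finset.sum_eq_single n]
          · rw [Finset.sum_eq_single m]
            · simp [bas]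
            · intro j _ hj
              simp [bas, hj]
            · simp
          · intro i _ hi
            simp [bas, hi]
          · simp
  have p2 : ∑ k, ∑ l, ((M k m : ℂ) * (M l n : ℂ)) * ((bas k (GF.eta k) l : ℝ) : ℂ) =
      ((bas m (GF.eta m) n : ℝ) : ℂ) := by
    rw [← e4 m n]
    refine Finset.sum_congr rfl fun k _ => ?_
    rw [Finset.sum_eq_single k]
    · simp [bas]
      ring
    · intro l _ hl
      simp [bas, hl]
    · simp
  have p3 : ∑ k, ∑ l, ((M k m : ℂ) * (M l n : ℂ)) * ((((GF.eta k * GF.eta l : ℝ) : ℂ) *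
        (((s ^ 2 : ℝ) : ℂ) * ∑ i, ∑ j, ((M l i : ℂ) * (M k j : ℂ)) * W j i)) -
        ((bas k (GF.eta k) l : ℝ) : ℂ) * (((s ^ 2 : ℝ) : ℂ) * simS s hs hM a (boxS f) x)) =
      ((s ^ 2 : ℝ) : ℂ) * (∑ k, ∑ l, ((M k m : ℂ) * (M l n : ℂ)) *
        (((GF.eta k * GF.eta l : ℝ) : ℂ) * ∑ i, ∑ j, ((M l i : ℂ) * (M k j : ℂ)) * W j i) -
        (∑ k, ∑ l, ((M k m : ℂ) * (M l n : ℂ)) * ((bas k (GF.eta k) l : ℝ) : ℂ)) *
          simS s hs hM a (boxS f) x) := by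
    rw [mul_sub, Finset.mul_sum, Finset.sum_mul, Finset.mul_sum, ← Finset.sum_sub_distrib]
    refine Finset.sum_congr rfl fun k _ => ?_
    rw [Finset.mul_sum, Finset.sum_mul, Finset.mul_sum, ← Finset.sum_sub_distrib]
    refine Finset.sum_congr rfl fun l _ => ?_
    ring
  rw [p3, p1, p2]

end Vale.Agent.P352.H496
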