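import Vale.Agent.P352.H496.Imp1

set_option linter.all false

noncomputable section

open MeasureTheory SchwartzMap Complex Filter Topology
open scoped SchwartzMap ComplexConjugate ENNReal LineDeriv

namespace Vale.Agent.P352.H496

open GF (Ix V Fn Sch ev pd bar sim bas o)
open H246

variable {D : Type*} [NormedAddCommGroup D] [InnerProductSpace ℂ D]
variable {Q : GF.Theory D} {T : Ix → Ix → GF.Fld D} {L : GF.Fld D}

lemma improve_fl (hL : Q.fld L) (m n : Ix) (f : 𝓢(Mink, ℂ)) (v : D) :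
    GF.improve T L m n (fl f) v = T m n (fl f) v + L (fl (imS m n f)) v := by
  unfold GF.improve
  rw [sum_box f hL v]
  unfold imS
  rw [fld_subf hL, fld_smulf hL, fld_smulf hL, pd_fl, pd_fl, ofReal_mul]
  abel

/-- conservation of the improvement term -/
lemma sum_imS (n : Ix) (f : 𝓢(Mink, ℂ)) : ∑ m, imS m n (∂_{eb m} f : 𝓢(Mink, ℂ)) = 0 := by
  have h1 : ∀ m, imS m n (∂_{eb m} f : 𝓢(Mink, ℂ)) =
      ((GF.eta m * GF.eta n : ℝ) : ℂ) • (∂_{eb n} (∂_{eb m} (∂_{eb m} f : 𝓢(Mink, ℂ)) :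
        𝓢(Mink, ℂ)) : 𝓢(Mink, ℂ)) -
      ((bas m (GF.eta m) n : ℝ) : ℂ) • (∂_{eb m} (boxS f) : 𝓢(Mink, ℂ)) := by
    intro m
    unfold imS
    rw [lineDeriv_boxS, lineDeriv_comm' m n (∂_{eb m} f : 𝓢(Mink, ℂ))]
  simp only [h1, Finset.sum_sub_distrib]
  have h2 : ∑ m, ((GF.eta m * GF.eta n : ℝ) : ℂ) • (∂_{eb n} (∂_{eb m} (∂_{eb m} f :
      𝓢(Mink, ℂ)) : 𝓢(Mink, ℂ)) : 𝓢(Mink, ℂ)) =
      (GF.eta n : ℂ) • (∂_{eb n} (boxS f) : 𝓢(Mink, ℂ)) := by
    unfold boxS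
    rw [ldS_sum, Finset.smul_sum]
    refine Finset.sum_congr rfl fun m _ => ?_
    rw [ldS_smul, smul_smul]
    congr 1
    push_cast
    ring
  have h3 : ∑ m, ((bas m (GF.eta m) n : ℝ) : ℂ) • (∂_{eb m} (boxS f) : 𝓢(Mink, ℂ)) =
      (GF.eta n : ℂ) • (∂_{eb n} (boxS f) : 𝓢(Mink, ℂ)) := by
    rw [Finset.sum_eq_single n]
    · simp [bas]
    · intro m _ hm
      simp [bas, Ne.symm hm]
    · simp
  rw [h2, h3, sub_self]

lemma spSep_mono {f g f' g' : 𝓢(Mink, ℂ)} (h : SpSep f g) (hf : tsupport f' ⊆ tsupport f)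
    (hg : tsupport g' ⊆ tsupport g) : SpSep f' g' := fun x hx y hy => h x (hf hx) y (hg hy)

lemma spSep_of' {f g : 𝓢(Mink, ℂ)} (h : GF.Sep (fl f) (fl g)) : SpSep f g := by
  intro x hx y hy
  have hx' : x.ofLp ∈ tsupport (fl f) := by
    rw [tsupport_fl]
    exact hx
  have hy' : y.ofLp ∈ tsupport (fl g) := by
    rw [tsupport_fl]
    exact hy
  have h1 := h _ hx' _ hy'
  have e : GF.mdot (fun m => x.ofLp m - y.ofLp m) (fun m => x.ofLp m - y.ofLp m) =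
      mdot (x - y) (x - y) := by
    simp [GF.mdot, mdot, GF.eta, o, Fin.sum_univ_four]
    ring
  rwa [e] at h1

/-- covariance of the improved tensor -/
lemma improve_cov
    (hcov : ∀ m n s M a f v, 0 < s → GF.IsLor M → GF.IsTest f → T m n f (Q.U s M a v) =
      ∑ k, ∑ l, (M k m * M l n : ℂ) • Q.U s M a (T k l (fun x => f (sim s M a x)) v))
    (hL : Q.IsScalar L 2) (m n : Ix) (s : ℝ) (M : Ix → V) (a : V) (f : Fn) (v : D) (hs : 0 < s)
    (hM : GF.IsLor M) (hf : GF.IsTest f) : GF.improve T L m n f (Q.U s M a v) =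
      ∑ k, ∑ l, (M k m * M l n : ℂ) •
        Q.U s M a (GF.improve T L k l (fun x => f (sim s M a x)) v) := by
  obtain ⟨F, rfl⟩ := exists_fl hf
  have hLf := Q.bose_fld _ hL.1
  rw [improve_fl hLf, hcov m n s M a (fl F) v hs hM (isTest_fl F), fl_sim s hs hM a]
  simp only [improve_fl hLf, U_add hs hM, smul_add, Finset.sum_add_distrib]
  congr 1
  have h1 := hL.2.2 s M a (fl (imS m n F)) v hs hM (isTest_fl _)
  rw [h1, fl_sim s hs hM a]
  have e : (s ^ ((4 : ℝ) - 2) : ℝ) = s ^ 2 := by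
    rw [show ((4 : ℝ) - 2) = ((2 : ℕ) : ℝ) by norm_num, Real.rpow_natCast]
  rw [e]
  have h2 := imS_simS m n s hs hM a F
  have h3 : L (fl (((s ^ 2 : ℝ) : ℂ) • simS s hs hM a (imS m n F))) v =
      ((s ^ 2 : ℝ) : ℂ) • L (fl (simS s hs hM a (imS m n F))) v := fld_smulf hLf _ _ _
  have h4 : L (fl (∑ k, ∑ l, ((M k m : ℂ) * (M l n : ℂ)) • imS k l (simS s hs hM a F))) v =
      ∑ k, ∑ l, ((M k m : ℂ) * (M l n : ℂ)) • L (fl (imS k l (simS s hs hM a F))) v := by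
    have e1 : ∀ k, (∑ l, ((M k m : ℂ) * (M l n : ℂ)) • imS k l (simS s hs hM a F)) =
        (1 : ℂ) • ∑ l, ((M k m : ℂ) * (M l n : ℂ)) • imS k l (simS s hs hM a F) := fun k =>
      (one_smul _ _).symm
    conv_lhs => rw [Finset.sum_congr rfl fun k _ => e1 k]
    rw [fld_sumf hLf]
    refine Finset.sum_congr rfl fun k _ => ?_
    rw [one_smul, fld_sumf hLf]
  rw [← U_smul hs hM, ← h3, ← h2, h4]
  simp only [Fin.sum_univ_four, U_add hs hM, U_smul hs hM]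

end Vale.Agent.P352.H496
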