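import Vale.Agent.P352.H496.Imp2

set_option linter.all false

noncomputable section

open MeasureTheory SchwartzMap Complex Filter Topology
open scoped SchwartzMap ComplexConjugate ENNReal LineDeriv

namespace Vale.Agent.P352.H496

open GF (Ix V Fn Sch ev pd bar sim bas o)
open H246

/-- the Leibniz rule for the coordinate functions -/
lemma ld_xm (j l : Ix) (G : 𝓢(Mink, ℂ)) (x : Mink) :
    (∂_{eb j} (Xm l G) : 𝓢(Mink, ℂ)) x =
      (if j = l then G x else 0) + (x l : ℂ) * (∂_{eb j} G : 𝓢(Mink, ℂ)) x := by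
  apply lineDeriv_eq_of_hasDerivAt
  have h1 : HasDerivAt (fun t : ℝ => G (x + t • eb j)) ((∂_{eb j} G : 𝓢(Mink, ℂ)) x) 0 :=
    (G.differentiableAt.hasFDerivAt (x := x)).hasLineDerivAt (eb j)
  have h2 : HasDerivAt (fun t : ℝ => (((x + t • (eb j : Mink)) l : ℝ) : ℂ))
      (if j = l then 1 else 0) 0 := by
    have e : (fun t : ℝ => (((x + t • (eb j : Mink)) l : ℝ) : ℂ)) =
        fun t : ℝ => ((x l + t * (if j = l then 1 else 0) : ℝ) : ℂ) := by
      funext t
      simp [eb, eq_comm]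
    rw [e]
    have h3 : HasDerivAt (fun t : ℝ => x l + t * (if j = l then (1:ℝ) else 0))
        (if j = l then (1:ℝ) else 0) 0 := by
      have := ((hasDerivAt_id (0:ℝ)).mul_const (if j = l then (1:ℝ) else 0)).const_add (x l)
      simpa using this
    have h4 := h3.ofReal_comp
    convert h4 using 1
    split_ifs <;> simp
  have h3 := h2.mul h1
  have e : (fun t : ℝ => (Xm l G) (x + t • eb j)) =
      (fun t : ℝ => (((x + t • (eb j : Mink)) l : ℝ) : ℂ)) * fun t : ℝ => G (x + t • eb j) := by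
    funext t
    rw [Xm_apply]
    rfl
  rw [e]
  refine h3.congr_deriv ?_
  have e0 : x + (0 : ℝ) • (eb j : Mink) = x := by rw [zero_smul, add_zero]
  simp only [e0]
  split_ifs <;> simp

/-- where the function depends only on time, the improvement terms vanish -/
lemma imS_flat {U : Set Mink} (hU : IsOpen U) {G : 𝓢(Mink, ℂ)}
    (hG : ∀ y ∈ U, ∀ k : Ix, k ≠ 0 → (∂_{eb k} G : 𝓢(Mink, ℂ)) y = 0) {x : Mink} (hx : x ∈ U)
    (n l : Ix) : imS o n G x = 0 ∧ (imS o n (Xm l G) - imS o l (Xm n G)) x = 0 := by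
  set P : Ix → ℂ := fun j => (∂_{eb j} G : 𝓢(Mink, ℂ)) x with hP
  set Hs : Ix → Ix → ℂ := fun j k => (∂_{eb j} (∂_{eb k} G : 𝓢(Mink, ℂ)) : 𝓢(Mink, ℂ)) x with hHs
  have hP0 : ∀ k : Ix, k ≠ 0 → P k = 0 := fun k hk => hG x hx k hk
  have hH0 : ∀ j k : Ix, k ≠ 0 → Hs j k = 0 := by
    intro j k hk
    have h1 : ((∂_{eb k} G : 𝓢(Mink, ℂ)) : Mink → ℂ) =ᶠ[𝓝 x] 0 := by
      filter_upwards [hU.mem_nhds hx] with y hy
      exact hG y hy k hk
    show fderiv ℝ (∂_{eb k} G : 𝓢(Mink, ℂ)) x (eb j) = 0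
    rw [h1.fderiv_eq]
    simp
  have hHs' : ∀ j k, Hs j k = Hs k j := fun j k => by
    show (∂_{eb j} (∂_{eb k} G : 𝓢(Mink, ℂ)) : 𝓢(Mink, ℂ)) x = _
    rw [lineDeriv_comm']
  have hH1 : ∀ j k : Ix, j ≠ 0 → Hs j k = 0 := fun j k hj => by rw [hHs', hH0 k j hj]
  have e0 : GF.eta 0 = 1 := by simp [GF.eta, o]
  have hb : ∀ G' : 𝓢(Mink, ℂ), boxS G' x = ∑ k, (GF.eta k : ℂ) *
      (∂_{eb k} (∂_{eb k} G' : 𝓢(Mink, ℂ)) : 𝓢(Mink, ℂ)) x := by
    intro G'
    unfold boxS
    simp only [SchwartzMap.sum_apply, SchwartzMap.smul_apply, smul_eq_mul]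
  have hi : ∀ (n : Ix) (G' : 𝓢(Mink, ℂ)), imS o n G' x = (GF.eta n : ℂ) *
      (∂_{eb o} (∂_{eb n} G' : 𝓢(Mink, ℂ)) : 𝓢(Mink, ℂ)) x -
      (if n = 0 then 1 else 0) * boxS G' x := by
    intro n G'
    unfold imS
    rw [SchwartzMap.sub_apply, SchwartzMap.smul_apply, SchwartzMap.smul_apply]
    have e1 : GF.eta o = 1 := by simp [GF.eta]
    rw [e1, one_mul]
    simp only [smul_eq_mul]
    congr 2
    unfold bas o
    split_ifs <;> simp
  have hX : ∀ j k m : Ix, (∂_{eb j} (∂_{eb k} (Xm m G) : 𝓢(Mink, ℂ)) : 𝓢(Mink, ℂ)) x =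
      (if k = m then P j else 0) + (if j = m then P k else 0) + (x m : ℂ) * Hs j k := by
    intro j k m
    have h1 : (∂_{eb k} (Xm m G) : 𝓢(Mink, ℂ)) =
        (if k = m then (1:ℂ) else 0) • G + Xm m (∂_{eb k} G : 𝓢(Mink, ℂ)) := by
      ext y
      rw [ld_xm, SchwartzMap.add_apply, SchwartzMap.smul_apply, Xm_apply]
      split_ifs <;> simp
    rw [h1, ldS_add, ldS_smul, SchwartzMap.add_apply, SchwartzMap.smul_apply, ld_xm]
    have : (if k = m then (1:ℂ) else 0) • (∂_{eb j} G : 𝓢(Mink, ℂ)) x =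
        if k = m then P j else 0 := by
      split_ifs <;> simp [hP]
    rw [this]
    show _ + ((if j = m then P k else 0) + _) = _
    ring
  have hbG : boxS G x = Hs 0 0 := by
    rw [hb]
    simp only [Fin.sum_univ_four]
    have a1 := hH0 1 1 (by decide)
    have a2 := hH0 2 2 (by decide)
    have a3 := hH0 3 3 (by decide)
    simp only [hHs] at a1 a2 a3 ⊢
    rw [a1, a2, a3, e0]
    simp
  have hval : ∀ n l : Ix, imS o n (Xm l G) x = if n = l ∧ n ≠ 0 then -P 0 else 0 := by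
    intro n l
    rw [hi, hb]
    simp only [hX, Fin.sum_univ_four]
    have e1 : GF.eta 1 = -1 := by simp [GF.eta, o]
    have e2 : GF.eta 2 = -1 := by simp [GF.eta, o]
    have e3 : GF.eta 3 = -1 := by simp [GF.eta, o]
    have p1 := hP0 1 (by decide)
    have p2 := hP0 2 (by decide)
    have p3 := hP0 3 (by decide)
    have q1 := hH0 0 1 (by decide)
    have q2 := hH0 0 2 (by decide)
    have q3 := hH0 0 3 (by decide)
    have r1 := hH0 1 1 (by decide)
    have r2 := hH0 2 2 (by decide)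
    have r3 := hH0 3 3 (by decide)
    have ho : o = (0 : Ix) := rfl
    fin_cases n <;> fin_cases l <;>
      simp [ho, e0, e1, e2, e3, p1, p2, p3, q1, q2, q3, r1, r2, r3] <;> ring
  constructor
  · rw [hi, hbG]
    by_cases hn : n = 0
    · subst hn
      simp [e0, hHs, o]
    · rw [if_neg hn, zero_mul, sub_zero]
      have := hH0 o n hn
      simp only [hHs] at this
      rw [this, mul_zero]
  · rw [SchwartzMap.sub_apply, hval, hval]
    by_cases h : n = l
    · subst h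
      simp
    · rw [if_neg (fun h' => h h'.1), if_neg (fun h' => h h'.1.symm), sub_zero]

end Vale.Agent.P352.H496
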