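import Vale.Agent.P352.H496.LFam
import Vale.Agent.P352.H246.Dens

set_option linter.all false

noncomputable section

open MeasureTheory SchwartzMap Complex Filter Topology
open scoped SchwartzMap ComplexConjugate ENNReal LineDeriv

namespace Vale.Agent.P352.H496

open GF (Ix V Fn Sch ev pd bar sim bas o)
open H246 H15

variable {D : Type*} [NormedAddCommGroup D] [InnerProductSpace ℂ D]
variable {Q : GF.Theory D} {Z : V → V → GF.Fld D}

section lin

variable (h : LFam Q Z) {a b : V} (hp : NPr a b)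
include h hp

lemma LFam.addv {f : Fn} (hf : GF.IsTest f) (v w : D) :
    Z a b f (v + w) = Z a b f v + Z a b f w := by
  refine ext_inner_right ℂ fun u => ?_
  rw [inner_add_left, h.adj _ _ _ _ _ hp hf, h.adj _ _ _ _ _ hp hf, h.adj _ _ _ _ _ hp hf,
    inner_add_left]

lemma LFam.smulv {f : Fn} (hf : GF.IsTest f) (c : ℂ) (v : D) :
    Z a b f (c • v) = c • Z a b f v := by
  refine ext_inner_right ℂ fun u => ?_
  rw [inner_smul_left, h.adj _ _ _ _ _ hp hf, h.adj _ _ _ _ _ hp hf, inner_smul_left]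

lemma LFam.addf (f g : 𝓢(Mink, ℂ)) (v : D) :
    Z a b (fl (f + g)) v = Z a b (fl f) v + Z a b (fl g) v := by
  have h1 := h.lin a b (fl f) (fl g) 1 v hp (isTest_fl f) (isTest_fl g)
  rw [ofReal_one, one_smul] at h1
  rw [← h1]
  congr 1
  funext x
  simp

lemma LFam.zerof (v : D) : Z a b (fl (0 : 𝓢(Mink, ℂ))) v = 0 := by
  have h1 := h.addf hp 0 0 v
  rw [add_zero] at h1
  exact left_eq_add.1 h1

lemma LFam.contf (v : D) : Continuous fun g : 𝓢(Mink, ℂ) => Z a b (fl g) v :=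
  (h.cont a b v hp).comp toSchL.continuous

end lin

section rel

variable {B B' : GF.Fld D} (hB : RelF Q B B')
include hB

lemma RelF.addf (f g : 𝓢(Mink, ℂ)) (v : D) : B (fl (f + g)) v = B (fl f) v + B (fl g) v := by
  have h1 := hB.lin (fl f) (fl g) 1 v (isTest_fl f) (isTest_fl g)
  rw [ofReal_one, one_smul] at h1
  rw [← h1]
  congr 1
  funext x
  simp

lemma RelF.zerof (v : D) : B (fl (0 : 𝓢(Mink, ℂ))) v = 0 := by
  have h1 := hB.addf 0 0 v
  rw [add_zero] at h1
  exact left_eq_add.1 h1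

lemma RelF.contf (v : D) : Continuous fun g : 𝓢(Mink, ℂ) => B (fl g) v :=
  (hB.cont v).comp toSchL.continuous

end rel

/-- the operators do not depend on the null pair -/
theorem LFam.agree (h : LFam Q Z) {a b a' b' : V} (hp : NPr a b) (hp' : NPr a' b') {f : Fn}
    (hf : GF.IsTest f) (v : D) : Z a b f v = Z a' b' f v := by
  have key : ∀ F : 𝓢(Mink, ℂ), HasCompactSupport F → Z a b (fl F) v = Z a' b' (fl F) v := by
    intro F hF
    have hK : IsCompact (tsupport (fl F)) := hasCompactSupport_fl hF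
    set c : Fin 4 → V := ![a, b, a', b'] with hc
    have hcn : ∀ i, IsNull (c i) := by
      intro i
      fin_cases i
      · exact hp.1
      · exact hp.2.1
      · exact hp'.1
      · exact hp'.2.1
    obtain ⟨S, hS, hSK, hSep⟩ := exists_big hK c hcn
    have step : ∀ G : 𝓢(Mink, ℂ), tsupport (fl G) = tsupport (fl F) → HasCompactSupport G →
        ∀ w, PW Q (MW S) w → Z a b (fl G) w = Z a' b' (fl G) w := by
      intro G hG hGc w hw
      induction hw with
      | vac => exact h.vac a b a' b' _ hp hp' (isTest_fl G)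
      | add _ _ h1 h2 =>
        rw [h.addv hp (isTest_fl G), h.addv hp' (isTest_fl G), h1, h2]
      | smul c _ h1 =>
        rw [h.smulv hp (isTest_fl G), h.smulv hp' (isTest_fl G), h1]
      | @fld B g v hB hg _ h1 =>
        obtain ⟨B', hB', hadj⟩ := Q.adj B hB
        have hR : RelF Q B B' := relF_fld hB hB' hadj
        have hL := hR.locOp (isTest_fl g)
        have hO : IsCompact (tsupport (fl g)) := hasCompactSupport_fl hg.1
        have hOS : tsupport (fl g) ⊆ S := (In_fl.2 hg).2.2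
        have hcc : In (cc (tsupport (fl g))) (fl G) := by
          refine ⟨isTest_fl G, hasCompactSupport_fl hGc, fun x hx y hy => ?_⟩
          have h2 := hSK (hOS hy) x (by rw [← hG]; exact hx)
          rw [mdot_symm'] at h2
          exact h2
        have s1 := fun i => hSep _ hOS (fl G) hG.le i
        rw [← h.com a b _ _ _ _ v hp hO hL hcc (s1 0) (s1 1),
          ← h.com a' b' _ _ _ _ v hp' hO hL hcc (s1 2) (s1 3), h1]
    have hcs : HasCompactSupport (conjS F) := by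
      have h1 : HasCompactSupport (bar (fl F)) := by
        rw [HasCompactSupport, tsupport_bar]
        exact hK
      rw [bar_fl] at h1
      exact hasCompactSupport_of_fl h1
    have hts : tsupport (fl (conjS F)) = tsupport (fl F) := by
      rw [← bar_fl, tsupport_bar]
    refine (dense_big (Q := Q) hS).eq_of_inner_left ℂ fun w hw => ?_
    have hw' : PW Q (MW S) w := hw
    rw [h.adj _ _ _ _ _ hp (isTest_fl F), h.adj _ _ _ _ _ hp' (isTest_fl F), bar_fl,
      step _ hts hcs w hw']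
  obtain ⟨F, rfl⟩ := exists_fl hf
  obtain ⟨g, hg, hlim⟩ := exists_compact_seq F
  have h1 := ((h.contf hp v).tendsto F).comp hlim
  have h2 := ((h.contf hp' v).tendsto F).comp hlim
  have e : ((fun g : 𝓢(Mink, ℂ) => Z a b (fl g) v) ∘ g) =
      (fun g : 𝓢(Mink, ℂ) => Z a' b' (fl g) v) ∘ g := by
    funext n
    exact key _ (hg n)
  rw [e] at h1
  exact tendsto_nhds_unique h1 h2

/-- the null vectors of a wedge -/
def wa (θ φ : ℝ) : V := bas o 1 + nv θ φ

/-- the null vectors of a wedge -/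
def wb (θ φ : ℝ) : V := fun i => (1 / 2 : ℝ) * (bas o 1 i - nv θ φ i)

lemma mdot_wa (θ φ : ℝ) (x : V) : GF.mdot (wa θ φ) x = x 0 - nd θ φ x := by
  simp [wa, GF.mdot, nv, nd, Fin.sum_univ_four, GF.eta, bas, o]
  ring

lemma mdot_wb (θ φ : ℝ) (x : V) : GF.mdot (wb θ φ) x = (x 0 + nd θ φ x) / 2 := by
  simp [wb, GF.mdot, nv, nd, Fin.sum_univ_four, GF.eta, bas, o]
  ring

lemma npr_w (θ φ : ℝ) : NPr (wa θ φ) (wb θ φ) := by
  have h1 : nd θ φ (wa θ φ) = 1 := by
    have : nd θ φ (wa θ φ) = nd θ φ (bas o 1) + nd θ φ (nv θ φ) := nd_add _ _ _ _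
    rw [this, nd_nv]
    simp [nd, bas, o]
  have h2 : nd θ φ (wb θ φ) = -1 / 2 := by
    have : nd θ φ (wb θ φ) = 1 / 2 * (nd θ φ (bas o 1) - nd θ φ (nv θ φ)) := by
      rw [← nd_sub, ← nd_smul]
      rfl
    rw [this, nd_nv]
    simp [nd, bas, o]
    norm_num
  have h3 : wa θ φ 0 = 1 := by simp [wa, bas, o, nv]
  have h4 : wb θ φ 0 = 1 / 2 := by simp [wb, bas, o, nv]
  refine ⟨⟨?_, ?_⟩, ⟨?_, ?_⟩, ?_⟩
  · rw [mdot_wa, h1, h3]; norm_num
  · show 0 < wa θ φ 0
    rw [h3]; norm_num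
  · rw [mdot_wb, h2, h4]; norm_num
  · show 0 < wb θ φ 0
    rw [h4]; norm_num
  · rw [mdot_wa, h2, h4]; norm_num

/-- locality in opposite wedges -/
lemma LFam.wedge (h : LFam Q Z) {B B' : GF.Fld D} (hB : RelF Q B B') {a b : V} (hp : NPr a b)
    {θ φ : ℝ} {c : V} {f g : 𝓢(Mink, ℂ)} (hf : IsTest (MW (Wed (Rt θ φ) c 1)) f)
    (hg : IsTest (MW (Wed (Rt θ φ) c (-1))) g) (v : D) :
    Z a b (fl f) (B (fl g) v) = B (fl g) (Z a b (fl f) v) := by
  rw [h.agree hp (npr_w θ φ) (isTest_fl f), h.agree hp (npr_w θ φ) (isTest_fl f)]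
  have hO : IsCompact (tsupport (fl g)) := hasCompactSupport_fl hg.1
  have hf' := (In_fl.2 hf).2.2
  have hg' := (In_fl.2 hg).2.2
  have hcc : In (cc (tsupport (fl g))) (fl f) :=
    ⟨isTest_fl f, hasCompactSupport_fl hf.1,
      cc_of_sep (sep_fl (wed_sep (isLor_Rt θ φ) c hf hg))⟩
  refine (h.com _ _ _ _ _ _ v (npr_w θ φ) hO (hB.locOp (isTest_fl g)) hcc ?_ ?_).symm
  · refine ⟨GF.mdot (wa θ φ) c, Or.inl ⟨fun x hx => ?_, fun y hy => ?_⟩⟩
    · have h1 := (mem_Wed_Rt θ φ c 1 x).1 (hf' hx)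
      rw [one_mul, nd_sub] at h1
      rw [mdot_wa, mdot_wa]
      have := (abs_lt.1 h1).2
      linarith
    · have h1 := (mem_Wed_Rt θ φ c (-1) y).1 (hg' hy)
      rw [nd_sub] at h1
      rw [mdot_wa, mdot_wa]
      have := (abs_lt.1 h1).1
      linarith
  · refine ⟨GF.mdot (wb θ φ) c, Or.inr ⟨fun x hx => ?_, fun y hy => ?_⟩⟩
    · have h1 := (mem_Wed_Rt θ φ c 1 x).1 (hf' hx)
      rw [one_mul, nd_sub] at h1
      rw [mdot_wb, mdot_wb]
      have := (abs_lt.1 h1).1
      linarith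
    · have h1 := (mem_Wed_Rt θ φ c (-1) y).1 (hg' hy)
      rw [nd_sub] at h1
      rw [mdot_wb, mdot_wb]
      have := (abs_lt.1 h1).2
      linarith

lemma LFam.relz (h : LFam Q Z) {B B' : GF.Fld D} (hB : RelF Q B B') (f : 𝓢(Mink, ℂ)) {a b : V}
    (hp : NPr a b) : Z a b (fl f) 0 = 0 := by
  have h1 := h.smulv hp (isTest_fl f) 0 0
  rwa [zero_smul, zero_smul] at h1

lemma RelF.mapz {B B' : GF.Fld D} (hB : RelF Q B B') (f : 𝓢(Mink, ℂ)) : B (fl f) 0 = 0 := by
  refine ext_inner_right ℂ fun u => ?_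
  rw [hB.adj _ _ _ (isTest_fl f), inner_zero_left, inner_zero_left]

lemma RelF.mapa {B B' : GF.Fld D} (hB : RelF Q B B') (f : 𝓢(Mink, ℂ)) (v w : D) :
    B (fl f) (v + w) = B (fl f) v + B (fl f) w := by
  refine ext_inner_right ℂ fun u => ?_
  rw [hB.adj _ _ _ (isTest_fl f), inner_add_left, inner_add_left, hB.adj _ _ _ (isTest_fl f),
    hB.adj _ _ _ (isTest_fl f)]

/-- locality for test functions with compact support -/
lemma LFam.loc_comp (h : LFam Q Z) {B B' : GF.Fld D} (hB : RelF Q B B') {a b : V}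
    (hp : NPr a b) {f g : 𝓢(Mink, ℂ)} (hf : IsTest Set.univ f) (hg : IsTest Set.univ g)
    (hs : SpSep f g) (v : D) : Z a b (fl f) (B (fl g) v) = B (fl g) (Z a b (fl f) v) := by
  have step : ∀ x ∈ tsupport f, ∃ U, IsOpen U ∧ x ∈ U ∧ ∀ f', IsTest U f' →
      Z a b (fl f') (B (fl g) v) = B (fl g) (Z a b (fl f') v) := by
    intro x hx
    obtain ⟨U, hU, hKU, h1⟩ := part_induct (P := fun g' => ∃ U, IsOpen U ∧ x ∈ U ∧
      ∀ f', IsTest U f' → Z a b (fl f') (B (fl g') v) = B (fl g') (Z a b (fl f') v))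
      (by
        refine ⟨Set.univ, isOpen_univ, trivial, fun f' hf' => ?_⟩
        rw [hB.zerof, hB.zerof, h.relz hB f' hp])
      (by
        rintro g1 g2 _ _ ⟨U1, hU1, hx1, h1⟩ ⟨U2, hU2, hx2, h2⟩
        refine ⟨U1 ∩ U2, hU1.inter hU2, ⟨hx1, hx2⟩, fun f' hf' => ?_⟩
        have e1 := h1 f' ⟨hf'.1, hf'.2.trans Set.inter_subset_left⟩
        have e2 := h2 f' ⟨hf'.1, hf'.2.trans Set.inter_subset_right⟩
        rw [hB.addf, hB.addf, h.addv hp (isTest_fl f'), e1, e2])
      hg.1.isCompact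
      (by
        intro y hy
        obtain ⟨θ, φ, c, hxa, hya⟩ := exists_sep (hs x hx y hy)
        exact ⟨_, isOpen_Wed_Rt θ φ c (-1), hya, fun g' hg' => ⟨_, isOpen_Wed_Rt θ φ c 1, hxa,
          fun f' hf' => h.wedge hB hp hf' hg' v⟩⟩)
    exact h1 g ⟨hg.1, hKU⟩
  obtain ⟨U, hU, hKU, h1⟩ := part_induct (P := fun f' =>
      Z a b (fl f') (B (fl g) v) = B (fl g) (Z a b (fl f') v))
    (by rw [h.zerof hp, h.zerof hp, hB.mapz])
    (by
      rintro f1 f2 _ _ e1 e2
      rw [h.addf hp, h.addf hp, hB.mapa, e1, e2])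
    hf.1.isCompact
    (by
      intro x hx
      exact step x hx)
  exact h1 f ⟨hf.1, hKU⟩

lemma spSep_of {f g : 𝓢(Mink, ℂ)} (h : GF.Sep (fl f) (fl g)) : SpSep f g := by
  intro x hx y hy
  have hx' : x.ofLp ∈ tsupport (fl f) := by
    rw [tsupport_fl]
    exact hx
  have hy' : y.ofLp ∈ tsupport (fl g) := by
    rw [tsupport_fl]
    exact hy
  have h1 := h _ hx' _ hy'
  have e : GF.mdot (fun m => x.ofLp m - y.ofLp m) (fun m => x.ofLp m - y.ofLp m) =
      mdot (x - y) (x - y) := by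
    simp [GF.mdot, mdot, GF.eta, o, Fin.sum_univ_four]
    ring
  rwa [e] at h1

/-- locality -/
theorem LFam.locB (h : LFam Q Z) {B B' : GF.Fld D} (hB : RelF Q B B') {a b : V}
    (hp : NPr a b) {f g : Fn} (hf : GF.IsTest f) (hg : GF.IsTest g)
    (hs : GF.Sep f g) (v : D) : Z a b f (B g v) = B g (Z a b f v) := by
  obtain ⟨F, rfl⟩ := exists_fl hf
  obtain ⟨G, rfl⟩ := exists_fl hg
  have hs' := spSep_of hs
  obtain ⟨u, hu, hus, hlim⟩ := exists_compact_sup F
  obtain ⟨w, hw, hws, hlim'⟩ := exists_compact_sup G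
  have hc : ∀ n m, Z a b (fl (u n)) (B (fl (w m)) v) = B (fl (w m)) (Z a b (fl (u n)) v) :=
    fun n m => h.loc_comp hB hp ⟨hu n, Set.subset_univ _⟩ ⟨hw m, Set.subset_univ _⟩
      (fun x hx y hy => hs' x (hus n hx) y (hws m hy)) v
  -- the second test function
  have h2 : ∀ n, Z a b (fl (u n)) (B (fl G) v) = B (fl G) (Z a b (fl (u n)) v) := by
    intro n
    refine ext_inner_right ℂ fun z => ?_
    have l1 : Tendsto (fun m => inner ℂ (Z a b (fl (u n)) (B (fl (w m)) v)) z) atTop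
        (𝓝 (inner ℂ (Z a b (fl (u n)) (B (fl G) v)) z)) := by
      simp only [h.adj _ _ _ _ _ hp (isTest_fl (u n))]
      exact (((hB.contf v).tendsto G).comp hlim').inner tendsto_const_nhds
    have l2 : Tendsto (fun m => inner ℂ (B (fl (w m)) (Z a b (fl (u n)) v)) z) atTop
        (𝓝 (inner ℂ (B (fl G) (Z a b (fl (u n)) v)) z)) :=
      (((hB.contf _).tendsto G).comp hlim').inner tendsto_const_nhds
    simp only [hc n] at l1
    exact tendsto_nhds_unique l1 l2
  refine ext_inner_right ℂ fun z => ?_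
  have l1 : Tendsto (fun n => inner ℂ (Z a b (fl (u n)) (B (fl G) v)) z) atTop
      (𝓝 (inner ℂ (Z a b (fl F) (B (fl G) v)) z)) :=
    (((h.contf hp _).tendsto F).comp hlim).inner tendsto_const_nhds
  have l2 : Tendsto (fun n => inner ℂ (B (fl G) (Z a b (fl (u n)) v)) z) atTop
      (𝓝 (inner ℂ (B (fl G) (Z a b (fl F) v)) z)) := by
    simp only [hB.adj _ _ _ (isTest_fl G)]
    exact (((h.contf hp _).tendsto F).comp hlim).inner tendsto_const_nhds
  simp only [h2] at l1
  exact tendsto_nhds_unique l1 l2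

/-- locality relative to the fields -/
theorem LFam.loc_fld (h : LFam Q Z) {a b : V} (hp : NPr a b) {B : GF.Fld D} (hB : Q.fld B)
    {f g : Fn} (hf : GF.IsTest f) (hg : GF.IsTest g) (hs : GF.Sep f g) (v : D) :
    Z a b f (B g v) = B g (Z a b f v) := by
  obtain ⟨B', hB', hadj⟩ := Q.adj B hB
  exact h.locB (relF_fld hB hB' hadj) hp hf hg hs v

/-- the family is an admissible operator valued distribution -/
lemma LFam.relF (h : LFam Q Z) {a b : V} (hp : NPr a b) : RelF Q (Z a b) (Z a b) where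
  lin := fun f g c v hf hg => h.lin a b f g c v hp hf hg
  cont := fun v => h.cont a b v hp
  adj := fun f v w hf => h.adj a b f v w hp hf
  loc := fun A f g v hA hf hg hs =>
    (h.loc_fld hp (Q.bose_fld A hA) hg hf (sep_comm hs) v).symm
  loc' := fun A f g v hA hf hg hs =>
    (h.loc_fld hp (Q.bose_fld A hA) hg hf (sep_comm hs) v).symm

/-- the family is local -/
theorem LFam.loc_self (h : LFam Q Z) {a b : V} (hp : NPr a b) {f g : Fn} (hf : GF.IsTest f)
    (hg : GF.IsTest g) (hs : GF.Sep f g) (v : D) :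
    Z a b f (Z a b g v) = Z a b g (Z a b f v) :=
  h.locB (h.relF hp) hp hf hg hs v

end Vale.Agent.P352.H496
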