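import Vale.Agent.P352.H496.LTr
import Vale.Agent.P352.H846.Al
import Vale.Agent.P352.H746.Bk

set_option linter.all false

noncomputable section

open MeasureTheory Filter Topology Set
open scoped ContDiff ComplexConjugate

namespace Vale.Agent.P352.H496

open GF (Ix V Fn sim bas eta o bar)
open H246 H746 H846 H15

variable {D : Type*} [NormedAddCommGroup D] [InnerProductSpace ℂ D]
variable {Q : GF.Theory D} {T : Ix → Ix → GF.Fld D} {J : Ix → GF.Fld D}
variable {A : (V → V) → D → D} {K : V → D → D}

/-- the family of the operators `Lf`, from the locality of the brackets -/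
theorem lfam_of (hJ : IsVirial Q T J) (h : ConfGen Q A K)
    (hal : ∀ (a : V) (O : Set V) (P P' : D → D) (f : Fn) (c : V) (v : D), IsNull a → IsCompact O →
      LocOp Q O P P' → In (cc O) f → Sepa a f O → P (bk J K a c f v) = bk J K a c f (P v))
    (hvac : ∀ a b a' b' f, NPr a b → NPr a' b' → GF.IsTest f →
      Lf J K a b f Q.vac = Lf J K a' b' f Q.vac) : LFam Q (Lf J K) where
  adj := fun a b f v w hp hf => Lf_herm hJ h hp.1 hp.2.1 hf v w
  lin := fun a b f g c v hp hf hg => Lf_lin hJ h hp.1 hp.2.1 hf hg c v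
  cont := fun a b v hp => Lf_cont hJ h hp.1 hp.2.1 v
  vac := hvac
  com := by
    intro a b O P P' f v hp hO hP hf hsa hsb
    unfold Lf
    rw [lo_smul hP, lo_add hP, hal a O P P' f b v hp.1 hO hP hf hsa,
      hal b O P P' f a v hp.2.1 hO hP hf hsb]

/-- the family of the operators `Lf`, for moments of the stress tensor -/
theorem lfam_Lf (hT : Q.IsStress T) (hJ : IsVirial Q T J) (h : ConfGen Q A K) (hm : Mom Q T K)
    (hvac : ∀ a b a' b' f, NPr a b → NPr a' b' → GF.IsTest f →
      Lf J K a b f Q.vac = Lf J K a' b' f Q.vac) : LFam Q (Lf J K) :=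
  lfam_of hJ h (fun a O P P' f c v ha hO hP hf hs => al hT hJ h hm ha hO hP hf hs c v) hvac

/-- the family of the operators `Lf`, for operators `K a` that act locally -/
theorem lfam_Lf_act (hJ : IsVirial Q T J) (h : ConfGen Q A K) (hm : Act Q J K)
    (hvac : ∀ a b a' b' f, NPr a b → NPr a' b' → GF.IsTest f →
      Lf J K a b f Q.vac = Lf J K a' b' f Q.vac) : LFam Q (Lf J K) :=
  lfam_of hJ h (fun a O P P' f c v ha hO hP hf hs => al_act hJ h hm ha hO hP hf c v) hvac

end Vale.Agent.P352.H496
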