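import Vale.Agent.P352.H496.Defs

open MeasureTheory Filter Topology
open scoped ComplexConjugate

namespace Vale.Agent.P352.H496

open GF H246
open UniformSpace (Completion)

noncomputable section

variable {D : Type*} [NormedAddCommGroup D] [InnerProductSpace ℂ D]

/-- On the vectors `T(f) Ω` the generators `G a` of the null deformations are additive in the null
vector `a` (as the special conformal charges, the components of a vector, are). -/
def Lin (Q : Theory D) (T : Ix → Ix → Fld D) (G : V → D → D) : Prop :=
  ∀ a b c d, IsNull a → IsNull b → IsNull c → IsNull d → a + b = c + d →
    ∀ m n f, In Set.univ f →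
      G a (T m n f Q.vac) + G b (T m n f Q.vac) = G c (T m n f Q.vac) + G d (T m n f Q.vac)

end

end Vale.Agent.P352.H496
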