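import Vale.Agent.P352.H246.Part
import Vale.Agent.P352.H993.TlEnd
import Vale.Agent.P352.H496.LinDefs

set_option linter.all false

noncomputable section

open MeasureTheory SchwartzMap Complex Filter Topology
open scoped SchwartzMap ComplexConjugate ENNReal LineDeriv ContDiff FourierTransform

namespace Vale.Agent.P352.H496

open GF (Ix V Fn Sch ev pd bar sim bas o)
open H246 H246R H746 H993
open UniformSpace (Completion)

variable {D : Type*} [NormedAddCommGroup D] [InnerProductSpace ℂ D]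
variable {Q : GF.Theory D}
variable {H : D → D} {alg : Set V → Set (D → D)} {S : V → ℝ → D → D} {G : V → D → D}
variable {T : Ix → Ix → GF.Fld D} {l : Fn → Completion D}

/-- from real to complex test functions -/
lemma sym_of_re {W : Set Mink} (M : 𝓢(Mink, ℂ) →L[ℂ] ℂ)
    (h : ∀ f, IsTest W f → (∀ y, (f y).im = 0) → (M f).re = 0) {f : 𝓢(Mink, ℂ)}
    (hf : IsTest W f) : M f + conj (M (conjS f)) = 0 := by
  set f1 : 𝓢(Mink, ℂ) := (1 / 2 : ℂ) • (f + conjS f) with hf1
  set f2 : 𝓢(Mink, ℂ) := (-(I / 2)) • (f - conjS f) with hf2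
  have hin : ∀ g : 𝓢(Mink, ℂ), Function.support g ⊆ Function.support f → IsTest W g := by
    intro g hg
    have h1 : tsupport g ⊆ tsupport f := closure_mono hg
    exact ⟨HasCompactSupport.of_support_subset_isCompact hf.1 (hg.trans subset_closure),
      h1.trans hf.2⟩
  have h1 := h f1 (hin f1 (fun x hx h0 => hx (by
    simp [hf1, h0]))) (fun y => by simp [hf1])
  have h2 := h f2 (hin f2 (fun x hx h0 => hx (by
    simp [hf2, h0]))) (fun y => by simp [hf2])
  have e1 : f = f1 + I • f2 := by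
    ext x
    simp only [hf1, hf2, SchwartzMap.add_apply, SchwartzMap.smul_apply, SchwartzMap.sub_apply,
      smul_eq_mul]
    linear_combination ((1 / 2 : ℂ)) * (f x - conjS f x) * I_mul_I
  have e2 : conjS f = f1 - I • f2 := by
    ext x
    simp only [hf1, hf2, SchwartzMap.add_apply, SchwartzMap.smul_apply, SchwartzMap.sub_apply,
      smul_eq_mul]
    linear_combination (-(1 / 2 : ℂ)) * (f x - conjS f x) * I_mul_I
  clear_value f1 f2
  have e3 : M f = M f1 + I * M f2 := by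
    conv_lhs => rw [e1]
    rw [map_add, map_smul, smul_eq_mul]
  have e4 : M (conjS f) = M f1 - I * M f2 := by
    rw [e2, map_sub, map_smul, smul_eq_mul]
  rw [e3, e4]
  apply Complex.ext
  · simp [h1, h2]
  · simp [h1, h2]

/-- ADDITIVITY OF THE GENERATORS IN `a` IMPLIES TRANSVERSAL LOCALITY -/
theorem tl_of_lin
    (quad : ∀ a y : V, IsNull a → GF.mdot y y < 0 → GF.mdot a y = 0 → ∃ b c d : V, IsNull b ∧
      IsNull c ∧ IsNull d ∧ a + b = c + d ∧ GF.mdot b y ≠ 0 ∧ GF.mdot c y ≠ 0 ∧ GF.mdot d y ≠ 0)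
    (wdg : ∀ a y : V, IsNull a → GF.mdot y y < 0 → GF.mdot a y ≠ 0 → ∃ b, IsNull b ∧
      0 < GF.mdot a b ∧ (y ∈ Wdg a b 0 ∨ y ∈ Wdg b a 0))
    (off : ∀ (a b : V) m n f c, IsNull a → IsNull b → 0 < GF.mdot a b →
      (In (Wdg a b 0) f ∨ In (Wdg b a 0) f) → (∀ y, (f y).im = 0) →
      Val l (G a (T m n f Q.vac)) c → c.re = 0)
    (hT : Q.IsStress T) (N : CNet Q H alg S) (Gg : Gnr Q alg S G)
    (hl : IsPot Q T l) {a : V} (ha : IsNull a) (h : Lin Q T G) : TL Q T G l a := by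
  obtain ⟨μ, Sy, two⟩ := (PField.tr hT).exists_sym
  obtain ⟨φ, n0, hrep, hval⟩ := exists_point_val hT Sy two N.toNet
  have hp := isPot_lamF Sy (PField.tr hT) two
  have hll : ∀ f, GF.IsTest f → l f = lamF Sy (PField.tr hT) f := fun f hf => hp.unique hl f hf
  have hv := fun v c => val_iff hT Sy N.toNet hrep hll v c
  have hB := pw1_mem N.toNet n0
  intro m n F c hF hre hc
  have hM : ∀ b, IsNull b → ∃ M : 𝓢(Mink, ℂ) →L[ℂ] ℂ,
      ∀ f, M f = pt φ (pw1 H n0) (G b (T m n (fl f) Q.vac)) := by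
    intro b hb
    have hX : (fun v => pw1 H n0 (G b v)) ∈ alg Set.univ := N.mul _ _ hB _ (Gg.mem _ hb)
    obtain ⟨M, hM⟩ := exists_fun N φ (Q.bose_fld _ (hT.bose m n)) hX
    exact ⟨M, fun f => hM f⟩
  obtain ⟨f, rfl⟩ := exists_fl hF.1
  have hft := In_fl.1 hF
  obtain ⟨M, hMa⟩ := hM a ha
  -- off the plane
  have hoff : ∀ (b : V), IsNull b → ∀ M : 𝓢(Mink, ℂ) →L[ℂ] ℂ,
      (∀ f, M f = pt φ (pw1 H n0) (G b (T m n (fl f) Q.vac))) → ∀ y : Mink,
      GF.mdot y.ofLp y.ofLp < 0 → GF.mdot b y.ofLp ≠ 0 → ∃ U, IsOpen U ∧ y ∈ U ∧ ∀ g,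
        IsTest U g → M g + conj (M (conjS g)) = 0 := by
    intro b hb M hM y hy hby
    obtain ⟨e, he, hbe, hye⟩ := wdg b y.ofLp hb hy hby
    have key : ∀ W : Set V, (∀ f, In W f → In (Wdg b e 0) f ∨ In (Wdg e b 0) f) →
        ∀ g, IsTest (MW W) g → M g + conj (M (conjS g)) = 0 := by
      intro W hW g hg
      refine sym_of_re M (fun k hk hkr => ?_) hg
      refine off b e m n (fl k) _ hb he hbe (hW _ (In_fl.2 hk)) (fun y => ?_)
        ((hv _ _).2 (hM k))
      rw [fl_apply]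
      exact hkr _
    rcases hye with hye | hye
    · exact ⟨MW (Wdg b e 0), isOpen_MW_Wdg b e 0, hye, key _ fun f hf => Or.inl hf⟩
    · exact ⟨MW (Wdg e b 0), isOpen_MW_Wdg e b 0, hye, key _ fun f hf => Or.inr hf⟩
  have main : ∃ U, IsOpen U ∧ tsupport f ⊆ U ∧ ∀ g, IsTest U g →
      M g + conj (M (conjS g)) = 0 := by
    refine part_induct (P := fun g => M g + conj (M (conjS g)) = 0) ?_ ?_ hft.1 ?_
    · rw [conjS_zero, map_zero, map_zero, add_zero]
    · intro g g' _ _ h1 h2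
      rw [conjS_add, map_add, map_add, map_add]
      linear_combination h1 + h2
    · intro y hy
      have hy' : GF.mdot y.ofLp y.ofLp < 0 := hft.2 hy
      by_cases hay : GF.mdot a y.ofLp = 0
      · obtain ⟨b, c, d, hb, hc, hd, hs, hby, hcy, hdy⟩ := quad a y.ofLp ha hy' hay
        obtain ⟨Mb, hMb⟩ := hM b hb
        obtain ⟨Mc, hMc⟩ := hM c hc
        obtain ⟨Md, hMd⟩ := hM d hd
        obtain ⟨U1, o1, y1, h1⟩ := hoff b hb Mb hMb y hy' hby
        obtain ⟨U2, o2, y2, h2⟩ := hoff c hc Mc hMc y hy' hcy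
        obtain ⟨U3, o3, y3, h3⟩ := hoff d hd Md hMd y hy' hdy
        have hlin : ∀ g, IsTest Set.univ g → M g + Mb g = Mc g + Md g := by
          intro g hg
          have h4 := h a b c d ha hb hc hd hs m n (fl g) (In_fl.2 ⟨hg.1, fun _ _ => trivial⟩)
          have h5 := congrArg (pt φ (pw1 H n0)) h4
          rw [pt_add' N hB, pt_add' N hB] at h5
          rw [hMa, hMb, hMc, hMd]
          exact h5
        refine ⟨U1 ∩ U2 ∩ U3, (o1.inter o2).inter o3, ⟨⟨y1, y2⟩, y3⟩, fun g hg => ?_⟩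
        have hgu : IsTest Set.univ g := isTest_univ hg
        have hgc : IsTest Set.univ (conjS g) := isTest_conj (W := Set.univ) hgu
        have e1 := h1 g ⟨hg.1, hg.2.trans fun x hx => hx.1.1⟩
        have e2 := h2 g ⟨hg.1, hg.2.trans fun x hx => hx.1.2⟩
        have e3 := h3 g ⟨hg.1, hg.2.trans fun x hx => hx.2⟩
        have e4 := hlin g hgu
        have e5 := congrArg conj (hlin _ hgc)
        rw [map_add, map_add] at e5
        linear_combination e4 + e5 - e1 + e2 + e3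
      · exact hoff a ha M hMa y hy' hay
  obtain ⟨U, -, hU, hP⟩ := main
  have h1 := hP f ⟨hft.1, hU⟩
  have h2 : conjS f = f := by
    ext x
    rw [conjS_apply]
    have h3 : (f x).im = 0 := hre x.ofLp
    exact Complex.conj_eq_iff_im.2 h3
  have h0 := (hv _ _).1 hc
  rw [h2, hMa, ← h0] at h1
  have h3 := congrArg Complex.re h1
  simp only [add_re, conj_re, zero_re] at h3
  linarith

end Vale.Agent.P352.H496

end
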