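import Vale.Agent.P352.H15.Top
import Vale.Agent.P352.H496.Enl2
import Vale.Agent.P352.H746.Chg2

noncomputable section

open MeasureTheory Filter Topology

namespace Vale.Agent.P352.H496

open GF (Ix V Fn Fld improve tr)
open H246 H15

variable {D : Type*} [NormedAddCommGroup D] [InnerProductSpace ℂ D]
variable {Q : GF.Theory D} {T : Ix → Ix → GF.Fld D} {J : Ix → GF.Fld D}
variable {A : (V → V) → D → D} {K : V → D → D}

/-- **The traceless stress tensor.** The enlargement contains `L` and the components of the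
improved stress tensor, which is a stress tensor for it. -/
theorem main2 (hT : Q.IsStress T) (hJ : IsVirial Q T J) (h : ConfGen Q A K)
    (hm : Mom Q T K ∨ Act Q J K) :
    ∃ (Q' : GF.Theory D) (L : GF.Fld D), IsEnl Q Q' ∧ Q'.IsScalar L 2 ∧
      Q'.IsStress (improve T L) ∧ IsImpr Q' T (improve T L) ∧ H755.IsT Q' (improve T L) := by
  obtain ⟨Q', L, h1, h2, h3⟩ := main1 hT hJ h hm
  obtain ⟨Q'', h4, -, h5, h6, h7, h8⟩ := exists_stress hT h1 h2 h3.traceless
    fun Q'' h => H746.isStress_enl h hT
  exact ⟨Q'', L, h4, h5, h6, h7, h8⟩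

end Vale.Agent.P352.H496

end
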