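import Vale.Agent.P352.MathlibUsed

set_option linter.all false

noncomputable section

open MeasureTheory Complex Filter Topology
open scoped ComplexConjugate

namespace Vale.Agent.P352.H496

/-- `((s + z)^N)⁻¹` -/
def ker (N : ℕ) (z : ℂ) (s : ℝ) : ℂ := (((s : ℂ) + z) ^ N)⁻¹

lemma add_ne {z : ℂ} (hz : 0 < z.im) (s : ℝ) : (s : ℂ) + z ≠ 0 := by
  intro h
  have := congrArg Complex.im h
  simp at this
  linarith

lemma norm_ge_im {z : ℂ} (s : ℝ) : |z.im| ≤ ‖(s : ℂ) + z‖ := by
  have := Complex.abs_im_le_norm ((s : ℂ) + z)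
  simpa using this

lemma continuous_ker (N : ℕ) {z : ℂ} (hz : 0 < z.im) : Continuous (ker N z) := by
  unfold ker
  apply Continuous.inv₀
  · fun_prop
  · intro s
    exact pow_ne_zero _ (add_ne hz s)

/-- `1 + |s|` is controlled by `|s + z|` -/
lemma one_add_le {z : ℂ} (hz : 0 < z.im) : ∃ K : ℝ, 0 < K ∧ ∀ s : ℝ, 1 + |s| ≤ K * ‖(s : ℂ) + z‖ := by
  refine ⟨(1 + ‖z‖) / z.im + 1, by positivity, fun s => ?_⟩
  have h1 : z.im ≤ ‖(s : ℂ) + z‖ := (le_abs_self _).trans (norm_ge_im s)
  have h2 : |s| ≤ ‖(s : ℂ) + z‖ + ‖z‖ := by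
    have : ‖(s : ℂ)‖ ≤ ‖(s : ℂ) + z‖ + ‖z‖ := by
      calc ‖(s : ℂ)‖ = ‖((s : ℂ) + z) - z‖ := by ring_nf
        _ ≤ _ := norm_sub_le _ _
    simpa using this
  have h3 : 1 + ‖z‖ ≤ (1 + ‖z‖) / z.im * ‖(s : ℂ) + z‖ := by
    rw [div_mul_eq_mul_div, le_div_iff₀ hz]
    have : 0 ≤ 1 + ‖z‖ := by positivity
    nlinarith
  linarith

lemma norm_ker_le (N : ℕ) {z : ℂ} (hz : 0 < z.im) :
    ∃ K : ℝ, 0 < K ∧ ∀ s : ℝ, ‖ker N z s‖ ≤ K * ((1 + |s|) ^ N)⁻¹ := by
  obtain ⟨K, hK, h⟩ := one_add_le hz
  refine ⟨K ^ N, by positivity, fun s => ?_⟩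
  unfold ker
  rw [norm_inv, norm_pow]
  have h0 : 0 < ‖(s : ℂ) + z‖ := norm_pos_iff.2 (add_ne hz s)
  have h1 : 0 < 1 + |s| := by positivity
  rw [← div_eq_mul_inv, inv_eq_one_div, div_le_div_iff₀ (by positivity) (by positivity), one_mul,
    ← mul_pow]
  exact pow_le_pow_left₀ h1.le (h s) N

lemma integrable_pow {M : ℕ} (hM : 2 ≤ M) : Integrable fun s : ℝ => ((1 + |s|) ^ M)⁻¹ := by
  have h := integrable_one_add_norm (E := ℝ) (μ := volume) (r := (M : ℝ))
    (by
      have : (2 : ℝ) ≤ M := by exact_mod_cast hM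
      simp
      linarith)
  refine h.congr (Eventually.of_forall fun s => ?_)
  simp only [Real.norm_eq_abs]
  rw [Real.rpow_neg (by positivity), Real.rpow_natCast]

variable {g : ℝ → ℂ} {C : ℝ} {k : ℕ}

lemma bound_mul {N : ℕ} (hN : k + 2 ≤ N) (hb : ∀ s, ‖g s‖ ≤ C * (1 + |s|) ^ k) {K : ℝ}
    (hK : 0 ≤ K) {u : ℂ} {s : ℝ} (hu : ‖u‖ ≤ K * ((1 + |s|) ^ N)⁻¹) :
    ‖g s * u‖ ≤ C * K * ((1 + |s|) ^ 2)⁻¹ := by
  have h1 : (1 : ℝ) ≤ 1 + |s| := by linarith [abs_nonneg s]
  have h0 : (0 : ℝ) < 1 + |s| := by linarith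
  have hC : 0 ≤ C := by
    have := (norm_nonneg _).trans (hb 0)
    simpa using this
  rw [norm_mul]
  calc ‖g s‖ * ‖u‖ ≤ (C * (1 + |s|) ^ k) * (K * ((1 + |s|) ^ N)⁻¹) := by
        gcongr
        exact hb s
    _ = C * K * ((1 + |s|) ^ k * ((1 + |s|) ^ N)⁻¹) := by ring
    _ ≤ C * K * ((1 + |s|) ^ 2)⁻¹ := by
        gcongr
        rw [← div_eq_mul_inv, div_le_iff₀ (by positivity), ← div_eq_inv_mul,
          le_div_iff₀ (by positivity), ← pow_add]
        exact pow_le_pow_right₀ h1 (by omega)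

lemma im_pos (j : ℕ) (x : ℝ) : 0 < ((x : ℂ) + ((1 / ((j : ℝ) + 1) : ℝ) : ℂ) * I).im := by
  have h : (0 : ℝ) < 1 / ((j : ℝ) + 1) := by positivity
  rw [add_im, ofReal_im, zero_add, im_ofReal_mul, I_im]
  linarith

/-- A continuous function of polynomial growth that vanishes on a half line and is
orthogonal to the kernels `(s + z)^(-N)` vanishes. -/
theorem one_sided (hc : Continuous g) (hb : ∀ s, ‖g s‖ ≤ C * (1 + |s|) ^ k) {s0 : ℝ}
    (h0 : ∀ s, s0 ≤ s → g s = 0)
    (hN : ∀ N, k + 2 ≤ N → ∀ z : ℂ, 0 < z.im → ∫ s, g s * ker N z s = 0) : ∀ s, g s = 0 := by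
  have hC : 0 ≤ C := by
    have := (norm_nonneg _).trans (hb 0)
    simpa using this
  -- bound for real z
  set z0 : ℝ := -s0 - 1 with hz0
  have hlow : ∀ s : ℝ, s ≤ s0 → ∀ ε : ℝ, 0 ≤ ε → |s + z0| ≤ ‖(s : ℂ) + ((z0 : ℂ) + ε * I)‖ := by
    intro s _ ε _
    have := Complex.abs_re_le_norm ((s : ℂ) + ((z0 : ℂ) + ε * I))
    simpa using this
  have hK : ∀ s : ℝ, s ≤ s0 → 1 + |s| ≤ (2 + |s0|) * |s + z0| := by
    intro s hs
    have h1 : |s + z0| = s0 - s + 1 := by
      rw [hz0, abs_of_nonpos (by linarith)]; ring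
    rw [h1]
    have h2 : |s| ≤ |s0| + (s0 - s) := by
      calc |s| = |s0 - (s0 - s)| := by congr 1; ring
        _ ≤ |s0| + |s0 - s| := abs_sub _ _
        _ = _ := by rw [abs_of_nonneg (by linarith : 0 ≤ s0 - s)]
    nlinarith [abs_nonneg s0]
  have hlim : ∀ N, k + 2 ≤ N → ∫ s, g s * (((s + z0 : ℝ) : ℂ) ^ N)⁻¹ = 0 := by
    intro N hkN
    have ht : Tendsto (fun j : ℕ => ∫ s, g s * ker N ((z0 : ℂ) + ((1 / ((j : ℝ) + 1) : ℝ) : ℂ) * I) s)
        atTop (𝓝 (∫ s, g s * (((s + z0 : ℝ) : ℂ) ^ N)⁻¹)) := by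
      apply tendsto_integral_of_dominated_convergence
        (fun s => C * (2 + |s0|) ^ N * ((1 + |s|) ^ 2)⁻¹)
      · intro j
        exact (hc.mul (continuous_ker N (im_pos j z0))).aestronglyMeasurable
      · exact (integrable_pow le_rfl).const_mul _
      · intro j
        refine Eventually.of_forall fun s => ?_
        rcases le_total s0 s with hs | hs
        · rw [h0 s hs, zero_mul, norm_zero]; positivity
        · apply bound_mul hkN hb (by positivity)
          unfold ker
          rw [norm_inv, norm_pow]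
          have h1 := hlow s hs (1 / ((j : ℝ) + 1)) (by positivity)
          have h2 := hK s hs
          have h3 : 0 < |s + z0| := by
            rw [hz0]; apply abs_pos.2; linarith
          rw [← div_eq_mul_inv, inv_eq_one_div, div_le_div_iff₀ (pow_pos (h3.trans_le h1) _)
            (by positivity), one_mul, ← mul_pow]
          apply pow_le_pow_left₀ (by positivity)
          refine h2.trans ?_
          gcongr
      · refine Eventually.of_forall fun s => ?_
        rcases le_total s0 s with hs | hs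
        · simp only [h0 s hs, zero_mul]; exact tendsto_const_nhds
        · apply Tendsto.const_mul
          unfold ker
          apply Tendsto.inv₀
          · apply Tendsto.pow
            have : Tendsto (fun j : ℕ => (s : ℂ) + ((z0 : ℂ) + ((1 / ((j : ℝ) + 1) : ℝ) : ℂ) * I))
                atTop (𝓝 ((s : ℂ) + ((z0 : ℂ) + ((0 : ℝ) : ℂ) * I))) := by
              apply Tendsto.const_add
              apply Tendsto.const_add
              apply Tendsto.mul_const
              exact (continuous_ofReal.tendsto _).comp tendsto_one_div_add_atTop_nhds_zero_nat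
            convert this using 2
            push_cast; ring
          · apply pow_ne_zero
            have : s + z0 ≠ 0 := by rw [hz0]; linarith
            exact_mod_cast this
    have hz : ∀ j : ℕ, ∫ s, g s * ker N ((z0 : ℂ) + ((1 / ((j : ℝ) + 1) : ℝ) : ℂ) * I) s = 0 := by
      intro j
      exact hN N hkN _ (im_pos j z0)
    simp only [hz] at ht
    exact (tendsto_nhds_unique ht tendsto_const_nhds)
  -- the function on the unit interval
  have hcov : ∀ (s : ℝ), s ≤ s0 → (1 + (s0 - s)) = - (s + z0) := by intro s _; rw [hz0]; ring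
  set N := k + 2 with hNd
  -- complex polynomials in `u = 1 / (1 + s0 - s)`
  set u : ℝ → ℝ := fun s => (max 1 (1 + (s0 - s)))⁻¹ with hu
  have hu1 : ∀ s, u s ∈ Set.Icc (0 : ℝ) 1 := by
    intro s
    have : (1 : ℝ) ≤ max 1 (1 + (s0 - s)) := le_max_left _ _
    exact ⟨by positivity, inv_le_one_of_one_le₀ this⟩
  have hucont : Continuous u := by
    refine Continuous.inv₀ (by fun_prop) fun s => ?_
    have : (1 : ℝ) ≤ max 1 (1 + (s0 - s)) := le_max_left _ _
    positivity
  have hus : ∀ s, s ≤ s0 → u s = -(s + z0)⁻¹ := by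
    intro s hs
    simp only [hu]
    rw [max_eq_right (by linarith), hcov s hs, inv_neg]
  have hgu : ∀ s, ‖g s * (u s : ℂ) ^ N‖ ≤ C * (2 + |s0|) ^ N * ((1 + |s|) ^ 2)⁻¹ := by
    intro s
    rcases le_total s0 s with hs | hs
    · rw [h0 s hs, zero_mul, norm_zero]; positivity
    · apply bound_mul (le_of_eq hNd.symm) hb (by positivity)
      rw [norm_pow, norm_real, Real.norm_eq_abs, hus s hs, abs_neg, abs_inv, inv_pow]
      have h2 := hK s hs
      have h3 : 0 < |s + z0| := by
        rw [hz0]; apply abs_pos.2; linarith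
      rw [← div_eq_mul_inv, inv_eq_one_div, div_le_div_iff₀ (by positivity) (by positivity),
        one_mul, ← mul_pow]
      exact pow_le_pow_left₀ (by positivity) h2 _
  have hint : Integrable fun s => g s * (u s : ℂ) ^ N := by
    refine ((integrable_pow le_rfl).const_mul (C * (2 + |s0|) ^ N)).mono' ?_
      (Eventually.of_forall hgu)
    exact (hc.mul (by fun_prop)).aestronglyMeasurable
  have hmom : ∀ j : ℕ, ∫ s, (g s * (u s : ℂ) ^ N) * (u s : ℂ) ^ j = 0 := by
    intro j
    have h1 := hlim (N + j) (by omega)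
    have h2 : ∀ s, (g s * (u s : ℂ) ^ N) * (u s : ℂ) ^ j =
        (-1) ^ (N + j) * (g s * (((s + z0 : ℝ) : ℂ) ^ (N + j))⁻¹) := by
      intro s
      rcases le_total s0 s with hs | hs
      · rw [h0 s hs]; ring
      · rw [hus s hs, mul_assoc, ← pow_add]
        push_cast
        rw [neg_pow, inv_pow]
        ring
    simp only [h2]
    rw [integral_const_mul, h1, mul_zero]
  have hpoly : ∀ p : Polynomial ℝ, ∫ s, (g s * (u s : ℂ) ^ N) * ((p.eval (u s) : ℝ) : ℂ) = 0 := by
    intro p
    have hb' : ∀ j : ℕ, Integrable fun s => (g s * (u s : ℂ) ^ N) * (u s : ℂ) ^ j := by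
      intro j
      refine hint.mono (hc.mul (by fun_prop) |>.mul (by fun_prop)).aestronglyMeasurable
        (Eventually.of_forall fun s => ?_)
      rw [norm_mul]
      apply mul_le_of_le_one_right (norm_nonneg _)
      rw [norm_pow, norm_real, Real.norm_eq_abs, abs_of_nonneg (hu1 s).1]
      exact pow_le_one₀ (hu1 s).1 (hu1 s).2
    have h3 : ∀ s, (g s * (u s : ℂ) ^ N) * ((p.eval (u s) : ℝ) : ℂ) =
        ∑ j ∈ p.support, (p.coeff j : ℂ) * ((g s * (u s : ℂ) ^ N) * (u s : ℂ) ^ j) := by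
      intro s
      rw [Polynomial.eval_eq_sum, Polynomial.sum, ofReal_sum, Finset.mul_sum]
      refine Finset.sum_congr rfl fun j _ => ?_
      push_cast; ring
    simp only [h3]
    rw [integral_finset_sum _ fun j _ => (hb' j).const_mul _]
    apply Finset.sum_eq_zero
    intro j _
    rw [integral_const_mul, hmom j, mul_zero]
  -- uniform approximation
  have happ : ∀ φ : C(Set.Icc (0 : ℝ) 1, ℝ), ∫ s, (g s * (u s : ℂ) ^ N) *
      ((φ ⟨u s, hu1 s⟩ : ℝ) : ℂ) = 0 := by
    intro φ
    have hφm : Continuous fun s => φ ⟨u s, hu1 s⟩ := φ.continuous.comp (hucont.subtype_mk _)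
    have hle : ∀ ε > 0, ‖∫ s, (g s * (u s : ℂ) ^ N) * ((φ ⟨u s, hu1 s⟩ : ℝ) : ℂ)‖ ≤
        (∫ s, ‖g s * (u s : ℂ) ^ N‖) * ε := by
      intro ε hε
      obtain ⟨p, hp⟩ := exists_polynomial_near_continuousMap 0 1 φ ε hε
      have hpp := hpoly p
      have hintφ : Integrable fun s => (g s * (u s : ℂ) ^ N) * ((φ ⟨u s, hu1 s⟩ : ℝ) : ℂ) := by
        refine (hint.mul_bdd (c := ‖φ‖) (by fun_prop) (Eventually.of_forall fun s => ?_))
        rw [norm_real]
        exact φ.norm_coe_le_norm _
      have hintp : Integrable fun s => (g s * (u s : ℂ) ^ N) * ((p.eval (u s) : ℝ) : ℂ) := by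
        have e : ∀ s, ((p.eval (u s) : ℝ)) = (p.toContinuousMapOn (Set.Icc 0 1)) ⟨u s, hu1 s⟩ :=
          fun s => rfl
        refine (hint.mul_bdd (c := ‖p.toContinuousMapOn (Set.Icc (0:ℝ) 1)‖)
          (by fun_prop) (Eventually.of_forall fun s => ?_))
        rw [norm_real, e]
        exact (p.toContinuousMapOn (Set.Icc (0:ℝ) 1)).norm_coe_le_norm _
      have : ∫ s, (g s * (u s : ℂ) ^ N) * ((φ ⟨u s, hu1 s⟩ : ℝ) : ℂ) =
          ∫ s, (g s * (u s : ℂ) ^ N) * (((φ ⟨u s, hu1 s⟩ - p.eval (u s) : ℝ)) : ℂ) := by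
        rw [← sub_zero (∫ s, (g s * (u s : ℂ) ^ N) * ((φ ⟨u s, hu1 s⟩ : ℝ) : ℂ)), ← hpp,
          ← integral_sub hintφ hintp]
        congr 1
        ext s
        push_cast; ring
      rw [this, ← integral_mul_const]
      refine (norm_integral_le_integral_norm _).trans ?_
      apply integral_mono_of_nonneg (Eventually.of_forall fun s => norm_nonneg _)
        (hint.norm.mul_const _)
      refine Eventually.of_forall fun s => ?_
      simp only [norm_mul _ (((φ ⟨u s, hu1 s⟩ - p.eval (u s) : ℝ)) : ℂ)]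
      gcongr
      rw [norm_real, Real.norm_eq_abs, abs_sub_comm]
      have := (p.toContinuousMapOn (Set.Icc (0:ℝ) 1) - φ).norm_coe_le_norm ⟨u s, hu1 s⟩
      rw [Real.norm_eq_abs] at this
      exact this.trans hp.le
    have h4 : ‖∫ s, (g s * (u s : ℂ) ^ N) * ((φ ⟨u s, hu1 s⟩ : ℝ) : ℂ)‖ ≤ 0 := by
      refine le_of_forall_pos_le_add fun δ hδ => ?_
      set B := ∫ s, ‖g s * (u s : ℂ) ^ N‖ with hB
      have hB0 : 0 ≤ B := integral_nonneg fun s => norm_nonneg _
      have := hle (δ / (B + 1)) (by positivity)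
      refine this.trans ?_
      rw [zero_add, ← mul_div_assoc, div_le_iff₀ (by positivity)]
      nlinarith
    exact norm_le_zero_iff.1 h4
  -- the function itself
  set G : ℝ → ℂ := fun r => g (s0 + 1 - r⁻¹) * (r : ℂ) ^ N with hG
  have hGc : ContinuousOn G (Set.Icc 0 1) := by
    intro r hr
    rcases eq_or_lt_of_le hr.1 with h | h
    · subst h
      have hG0 : G 0 = 0 := by simp [hG, hNd]
      rw [ContinuousWithinAt, hG0, tendsto_zero_iff_norm_tendsto_zero]
      have hb2 : ∀ᶠ r in 𝓝[Set.Icc (0:ℝ) 1] 0, ‖G r‖ ≤ C * (2 + |s0|) ^ k * r := by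
        filter_upwards [self_mem_nhdsWithin] with r hr
        rcases eq_or_lt_of_le hr.1 with h | h
        · rw [← h, hG0]; simp
        · simp only [hG]
          rw [norm_mul, norm_pow, norm_real, Real.norm_of_nonneg hr.1]
          have h5 : 1 + |s0 + 1 - r⁻¹| ≤ (2 + |s0|) * r⁻¹ := by
            have h6 : 1 ≤ r⁻¹ := (one_le_inv₀ h).2 hr.2
            have h7 : |s0 + 1 - r⁻¹| ≤ |s0| + (r⁻¹ - 1) := by
              calc |s0 + 1 - r⁻¹| = |s0 - (r⁻¹ - 1)| := by congr 1; ring
                _ ≤ |s0| + |r⁻¹ - 1| := abs_sub _ _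
                _ = _ := by rw [abs_of_nonneg (by linarith : 0 ≤ r⁻¹ - 1)]
            nlinarith [abs_nonneg s0]
          calc ‖g (s0 + 1 - r⁻¹)‖ * r ^ N ≤ (C * (1 + |s0 + 1 - r⁻¹|) ^ k) * r ^ N := by
                gcongr
                exact hb _
            _ ≤ (C * ((2 + |s0|) * r⁻¹) ^ k) * r ^ N := by gcongr
            _ = C * (2 + |s0|) ^ k * r * r := by
                rw [hNd, mul_pow, inv_pow, pow_add]
                field_simp
            _ ≤ C * (2 + |s0|) ^ k * r * 1 := by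
                gcongr
                exact hr.2
            _ = _ := mul_one _
      have h8 : Tendsto (fun r : ℝ => C * (2 + |s0|) ^ k * r) (𝓝[Set.Icc (0:ℝ) 1] 0) (𝓝 0) := by
        have : Continuous fun r : ℝ => C * (2 + |s0|) ^ k * r := by fun_prop
        have := this.tendsto 0
        rw [mul_zero] at this
        exact this.mono_left nhdsWithin_le_nhds
      exact tendsto_of_tendsto_of_tendsto_of_le_of_le' tendsto_const_nhds h8
        (Eventually.of_forall fun r => norm_nonneg _) hb2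
    · apply ContinuousAt.continuousWithinAt
      have h9 : ContinuousAt (fun r : ℝ => s0 + 1 - r⁻¹) r :=
        continuousAt_const.sub (continuousAt_inv₀ h.ne')
      exact (ContinuousAt.comp (f := fun r : ℝ => s0 + 1 - r⁻¹) (g := g) hc.continuousAt h9).mul
        (by fun_prop)
  have hGu : ∀ s, g s ≠ 0 → G (u s) = g s * (u s : ℂ) ^ N := by
    intro s hs
    have hs0 : s ≤ s0 := by
      by_contra h
      exact hs (h0 s (not_le.1 h).le)
    simp only [hG]
    congr 2
    rw [hus s hs0, inv_neg, inv_inv, hz0]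
    ring
  have hre := happ ⟨fun r => (G r).re, (Complex.continuous_re.comp_continuousOn hGc).restrict⟩
  have him := happ ⟨fun r => (G r).im, (Complex.continuous_im.comp_continuousOn hGc).restrict⟩
  change ∫ s, (g s * (u s : ℂ) ^ N) * (((G (u s)).re : ℝ) : ℂ) = 0 at hre
  change ∫ s, (g s * (u s : ℂ) ^ N) * (((G (u s)).im : ℝ) : ℂ) = 0 at him
  have hGm : Continuous fun s => G (u s) :=
    (continuousOn_iff_continuous_restrict.1 hGc).comp (hucont.subtype_mk hu1)
  have hGb : ∃ B, ∀ s, ‖G (u s)‖ ≤ B := by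
    obtain ⟨B, hB⟩ := (isCompact_Icc.image_of_continuousOn hGc).isBounded.exists_norm_le
    exact ⟨B, fun s => hB _ ⟨u s, hu1 s, rfl⟩⟩
  obtain ⟨B, hB⟩ := hGb
  have i1 : Integrable fun s => (g s * (u s : ℂ) ^ N) * (((G (u s)).re : ℝ) : ℂ) := by
    refine (hint.mul_bdd (c := B) ?_ (Eventually.of_forall fun s => ?_))
    · exact (continuous_ofReal.comp (Complex.continuous_re.comp hGm)).aestronglyMeasurable
    · rw [norm_real]
      exact (Complex.abs_re_le_norm _).trans (hB s)
  have i2 : Integrable fun s => (g s * (u s : ℂ) ^ N) * (((G (u s)).im : ℝ) : ℂ) := by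
    refine (hint.mul_bdd (c := B) ?_ (Eventually.of_forall fun s => ?_))
    · exact (continuous_ofReal.comp (Complex.continuous_im.comp hGm)).aestronglyMeasurable
    · rw [norm_real]
      exact (Complex.abs_im_le_norm _).trans (hB s)
  have hsq : ∫ s, ‖g s * (u s : ℂ) ^ N‖ ^ 2 = 0 := by
    have e : ∀ s, ((‖g s * (u s : ℂ) ^ N‖ ^ 2 : ℝ) : ℂ) =
        (g s * (u s : ℂ) ^ N) * (((G (u s)).re : ℝ) : ℂ) -
          I * ((g s * (u s : ℂ) ^ N) * (((G (u s)).im : ℝ) : ℂ)) := by
      intro s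
      by_cases h : g s = 0
      · rw [h]; simp
      · rw [← hGu s h]
        have : (G (u s)) * conj (G (u s)) = ((‖G (u s)‖ ^ 2 : ℝ) : ℂ) := by
          rw [mul_conj, normSq_eq_norm_sq]
        rw [← this]
        have h10 : conj (G (u s)) = ((G (u s)).re : ℂ) - I * ((G (u s)).im : ℂ) := by
          apply Complex.ext <;> simp
        rw [h10]; ring
    have h11 : ((∫ s, ‖g s * (u s : ℂ) ^ N‖ ^ 2 : ℝ) : ℂ) = 0 := by
      have h12 : ((∫ s, ‖g s * (u s : ℂ) ^ N‖ ^ 2 : ℝ) : ℂ) =
        ∫ s, ((‖g s * (u s : ℂ) ^ N‖ ^ 2 : ℝ) : ℂ) := integral_ofReal.symm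
      rw [h12]
      simp only [e]
      rw [integral_sub i1 (i2.const_mul _), integral_const_mul, hre, him]
      simp
    exact_mod_cast h11
  have hcont2 : Continuous fun s => ‖g s * (u s : ℂ) ^ N‖ ^ 2 := by fun_prop
  have hint2 : Integrable fun s => ‖g s * (u s : ℂ) ^ N‖ ^ 2 := by
    have i3 := hint.mul_bdd (c := B) hGm.aestronglyMeasurable (Eventually.of_forall hB)
    refine i3.norm.congr (Eventually.of_forall fun s => ?_)
    simp only
    by_cases h : g s = 0
    · rw [h]; simp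
    · rw [hGu s h, norm_mul, sq]
  have hzero : (fun s => ‖g s * (u s : ℂ) ^ N‖ ^ 2) = 0 := by
    have := (integral_eq_zero_iff_of_nonneg (fun s => by positivity) hint2).1 hsq
    exact (Continuous.ae_eq_iff_eq (μ := volume) hcont2 continuous_zero).1 this
  intro s
  have := congrFun hzero s
  simp only [Pi.zero_apply] at this
  have h12 : g s * (u s : ℂ) ^ N = 0 := by
    rw [← norm_eq_zero]
    exact pow_eq_zero_iff (two_ne_zero) |>.1 this
  have h13 : u s ≠ 0 := by
    have : (1 : ℝ) ≤ max 1 (1 + (s0 - s)) := le_max_left _ _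
    simp only [hu]
    positivity
  exact (mul_eq_zero.1 h12).resolve_right (pow_ne_zero _ (by exact_mod_cast h13))

/-! ### Boundary values from the upper half plane -/

lemma norm_ge_half {z : ℂ} (hz : 0 < z.im) {y : ℝ} (hy : -(z.im / 2) ≤ y) (s : ℝ) :
    ‖(s : ℂ) + (z - ((z.im / 2 : ℝ) : ℂ) * I)‖ ≤ ‖(s : ℂ) + (z + (y : ℂ) * I)‖ := by
  rw [← sq_le_sq₀ (norm_nonneg _) (norm_nonneg _), ← normSq_eq_norm_sq, ← normSq_eq_norm_sq,
    normSq_apply, normSq_apply]
  simp only [add_re, sub_re, mul_re, I_re, I_im, ofReal_re, ofReal_im, add_im, sub_im, mul_im]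
  nlinarith

/-- the exponentials with nonnegative frequency are orthogonal to the kernels -/
lemma exp_ker {c : ℝ} (hc : 0 ≤ c) {N : ℕ} (hN : 2 ≤ N) {z : ℂ} (hz : 0 < z.im) :
    ∫ s : ℝ, exp (I * s * c) * ker N z s = 0 := by
  have hbase : ∃ K : ℝ, 0 < K ∧ ∀ y : ℝ, -(z.im / 2) ≤ y → ∀ s : ℝ, ∀ M : ℕ,
      ‖ker M (z + (y : ℂ) * I) s‖ ≤ K ^ M * ((1 + |s|) ^ M)⁻¹ := by
    have hz2 : 0 < (z - ((z.im / 2 : ℝ) : ℂ) * I).im := by
      simp; linarith
    obtain ⟨K, hK, h⟩ := one_add_le hz2
    refine ⟨K, hK, fun y hy s M => ?_⟩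
    have h1 := norm_ge_half hz hy s
    have h0 : 0 < 1 + |s| := by positivity
    have h2 : 0 < ‖(s : ℂ) + (z + (y : ℂ) * I)‖ := by
      refine lt_of_lt_of_le ?_ h1
      exact norm_pos_iff.2 (add_ne hz2 s)
    unfold ker
    rw [norm_inv, norm_pow, ← div_eq_mul_inv, inv_eq_one_div,
      div_le_div_iff₀ (by positivity) (by positivity), one_mul, ← mul_pow]
    apply pow_le_pow_left₀ h0.le
    refine (h s).trans ?_
    gcongr
  obtain ⟨K, hK, hker⟩ := hbase
  have hne : ∀ y : ℝ, -(z.im / 2) ≤ y → ∀ s : ℝ, (s : ℂ) + (z + (y : ℂ) * I) ≠ 0 := by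
    intro y hy s
    apply add_ne
    simp
    linarith
  set f : ℝ → ℝ → ℂ := fun y s => exp (I * s * c - y * c) * ker N (z + (y : ℂ) * I) s with hf
  set f' : ℝ → ℝ → ℂ := fun y s => exp (I * s * c - y * c) *
    (-c * ker N (z + (y : ℂ) * I) s - N * I * ker (N + 1) (z + (y : ℂ) * I) s) with hf'
  have hE : ∀ y s : ℝ, ‖exp (I * s * c - y * c)‖ = Real.exp (-(y * c)) := by
    intro y s
    rw [norm_exp]
    congr 1
    simp
  have hpow : ∀ (M : ℕ) (w : ℂ), w ≠ 0 → HasDerivAt (fun w : ℂ => (w ^ M)⁻¹)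
      (-(M : ℂ) * (w ^ (M + 1))⁻¹) w := by
    intro M w hw
    have h1 := (hasDerivAt_pow M w).inv (pow_ne_zero _ hw)
    refine h1.congr_deriv ?_
    rcases M with _ | M
    · simp
    · simp only [Nat.add_sub_cancel]
      field_simp
      ring
  have hcontf : ∀ y : ℝ, -(z.im / 2) ≤ y → Continuous (f y) := by
    intro y hy
    simp only [hf, ker]
    apply Continuous.mul (by fun_prop)
    apply Continuous.inv₀ (by fun_prop)
    intro s
    exact pow_ne_zero _ (hne y hy s)
  have hcontf' : ∀ y : ℝ, -(z.im / 2) ≤ y → Continuous (f' y) := by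
    intro y hy
    simp only [hf', ker]
    apply Continuous.mul (by fun_prop)
    apply Continuous.sub
    · apply Continuous.mul (by fun_prop)
      apply Continuous.inv₀ (by fun_prop)
      intro s
      exact pow_ne_zero _ (hne y hy s)
    · apply Continuous.mul (by fun_prop)
      apply Continuous.inv₀ (by fun_prop)
      intro s
      exact pow_ne_zero _ (hne y hy s)
  have hfb : ∀ y : ℝ, -(z.im / 2) ≤ y → ∀ s, ‖f y s‖ ≤
      Real.exp (z.im / 2 * c) * (K ^ N * ((1 + |s|) ^ N)⁻¹) := by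
    intro y hy s
    simp only [hf]
    rw [norm_mul, hE]
    gcongr
    · nlinarith
    · exact hker y hy s N
  have hfb' : ∀ y : ℝ, -(z.im / 2) ≤ y → ∀ s, ‖f' y s‖ ≤
      Real.exp (z.im / 2 * c) * ((c * K ^ N + N * K ^ (N + 1)) * ((1 + |s|) ^ N)⁻¹) := by
    intro y hy s
    simp only [hf']
    rw [norm_mul, hE]
    have h1 : (1 : ℝ) ≤ 1 + |s| := by linarith [abs_nonneg s]
    have h2 : ((1 + |s|) ^ (N + 1))⁻¹ ≤ ((1 + |s|) ^ N)⁻¹ := by
      apply inv_anti₀ (by positivity)
      exact pow_le_pow_right₀ h1 (by omega)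
    gcongr
    · nlinarith
    · calc ‖-(c : ℂ) * ker N (z + (y : ℂ) * I) s - N * I * ker (N + 1) (z + (y : ℂ) * I) s‖
          ≤ ‖-(c : ℂ) * ker N (z + (y : ℂ) * I) s‖ +
            ‖N * I * ker (N + 1) (z + (y : ℂ) * I) s‖ := norm_sub_le _ _
        _ = c * ‖ker N (z + (y : ℂ) * I) s‖ + N * ‖ker (N + 1) (z + (y : ℂ) * I) s‖ := by
            simp only [norm_mul, norm_neg, norm_real, norm_I, Complex.norm_natCast, mul_one,
              Real.norm_of_nonneg hc]
        _ ≤ c * (K ^ N * ((1 + |s|) ^ N)⁻¹) + N * (K ^ (N + 1) * ((1 + |s|) ^ (N + 1))⁻¹) := by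
            gcongr
            · exact hker y hy s N
            · exact hker y hy s (N + 1)
        _ ≤ c * (K ^ N * ((1 + |s|) ^ N)⁻¹) + N * (K ^ (N + 1) * ((1 + |s|) ^ N)⁻¹) := by
            gcongr
        _ = _ := by ring
  have hfi : ∀ y : ℝ, -(z.im / 2) ≤ y → Integrable (f y) := fun y hy =>
    (((integrable_pow hN).const_mul _).const_mul _).mono' (hcontf y hy).aestronglyMeasurable
      (Eventually.of_forall (hfb y hy))
  have hfi' : ∀ y : ℝ, -(z.im / 2) ≤ y → Integrable (f' y) := fun y hy =>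
    (((integrable_pow hN).const_mul _).const_mul _).mono' (hcontf' y hy).aestronglyMeasurable
      (Eventually.of_forall (hfb' y hy))
  -- derivative in y
  have hdy : ∀ y : ℝ, -(z.im / 2) ≤ y → ∀ s : ℝ, HasDerivAt (fun y => f y s) (f' y s) y := by
    intro y hy s
    have h1 : HasDerivAt (fun y : ℝ => I * s * c - (y : ℂ) * c) (-(c : ℂ)) y := by
      have := ((Complex.ofRealCLM.hasDerivAt (x := y)).mul_const (c : ℂ)).const_sub (I * s * c)
      simpa using this
    have h2 := h1.cexp
    have h3 : HasDerivAt (fun y : ℝ => (s : ℂ) + (z + (y : ℂ) * I)) I y := by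
      have := (((Complex.ofRealCLM.hasDerivAt (x := y)).mul_const I).const_add z).const_add
        (s : ℂ)
      simpa using this
    have h4 := (hpow N _ (hne y hy s)).comp y h3
    have h5 := h2.mul h4
    refine h5.congr_deriv ?_
    simp only [hf', ker, Function.comp_apply]
    ring
  have hds : ∀ y : ℝ, -(z.im / 2) ≤ y → ∀ s : ℝ, HasDerivAt (f y) (-I * f' y s) s := by
    intro y hy s
    have h1 : HasDerivAt (fun s : ℝ => I * (s : ℂ) * c - (y : ℂ) * c) (I * c) s := by
      have := (((Complex.ofRealCLM.hasDerivAt (x := s)).const_mul I).mul_const (c : ℂ)).sub_const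
        ((y : ℂ) * c)
      simpa using this
    have h2 := h1.cexp
    have h3 : HasDerivAt (fun s : ℝ => (s : ℂ) + (z + (y : ℂ) * I)) 1 s := by
      have := (Complex.ofRealCLM.hasDerivAt (x := s)).add_const (z + (y : ℂ) * I)
      simpa using this
    have h4 := (hpow N _ (hne y hy s)).comp s h3
    have h5 := h2.mul h4
    refine h5.congr_deriv ?_
    simp only [hf', ker, Function.comp_apply]
    have := I_mul_I
    linear_combination (-exp (I * s * c - y * c)) * N * (((s : ℂ) + (z + y * I)) ^ (N + 1))⁻¹ * this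
  have hzero : ∀ y : ℝ, -(z.im / 2) ≤ y → ∫ s, f' y s = 0 := by
    intro y hy
    have h1 := integral_eq_zero_of_hasDerivAt_of_integrable (hds y hy)
      ((hfi' y hy).const_mul _) (hfi y hy)
    rw [integral_const_mul] at h1
    exact (mul_eq_zero.1 h1).resolve_left (by simp)
  have hder : ∀ y : ℝ, 0 ≤ y → HasDerivAt (fun y => ∫ s, f y s) 0 y := by
    intro y hy
    have h1 := (hasDerivAt_integral_of_dominated_loc_of_deriv_le (μ := volume) (F := f) (F' := f')
      (x₀ := y) (s := Metric.ball y (z.im / 2))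
      (bound := fun s => Real.exp (z.im / 2 * c) *
        ((c * K ^ N + N * K ^ (N + 1)) * ((1 + |s|) ^ N)⁻¹))
      (Metric.ball_mem_nhds _ (by positivity))
      (by
        filter_upwards [Metric.ball_mem_nhds y (by positivity : 0 < z.im / 2)] with x hx
        refine (hcontf x ?_).aestronglyMeasurable
        rw [Metric.mem_ball, Real.dist_eq] at hx
        have := (abs_lt.1 hx).1
        linarith)
      (hfi y (by linarith)) (hcontf' y (by linarith)).aestronglyMeasurable
      (Eventually.of_forall fun s x hx => by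
        apply hfb'
        rw [Metric.mem_ball, Real.dist_eq] at hx
        have := (abs_lt.1 hx).1
        linarith)
      (((integrable_pow hN).const_mul _).const_mul _)
      (Eventually.of_forall fun s x hx => by
        apply hdy
        rw [Metric.mem_ball, Real.dist_eq] at hx
        have := (abs_lt.1 hx).1
        linarith)).2
    rwa [hzero y (by linarith)] at h1
  have hconst : ∀ y : ℝ, 0 ≤ y → ∫ s, f y s = ∫ s, f 0 s := by
    intro y hy
    rcases eq_or_lt_of_le hy with h | h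
    · rw [← h]
    · have := constant_of_has_deriv_right_zero (f := fun y => ∫ s, f y s) (a := 0) (b := y)
        (fun x hx => (hder x hx.1).continuousAt.continuousWithinAt)
        (fun x hx => (hder x hx.1).hasDerivWithinAt) y ⟨hy, le_rfl⟩
      exact this
  have hlim : Tendsto (fun n : ℕ => ∫ s, f n s) atTop (𝓝 (∫ _ : ℝ, (0 : ℂ))) := by
    apply tendsto_integral_of_dominated_convergence
      (fun s => Real.exp (z.im / 2 * c) * (K ^ N * ((1 + |s|) ^ N)⁻¹))
    · intro n
      refine (hcontf n ?_).aestronglyMeasurable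
      have : (0 : ℝ) ≤ n := by positivity
      linarith
    · exact ((integrable_pow hN).const_mul _).const_mul _
    · intro n
      refine Eventually.of_forall fun s => hfb n ?_ s
      have : (0 : ℝ) ≤ n := by positivity
      linarith
    · refine Eventually.of_forall fun s => ?_
      rw [tendsto_zero_iff_norm_tendsto_zero]
      have hb : ∀ᶠ n : ℕ in atTop, ‖f n s‖ ≤ ((n : ℝ))⁻¹ := by
        filter_upwards [eventually_ge_atTop 1] with n hn
        have hn1 : (1 : ℝ) ≤ n := by exact_mod_cast hn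
        simp only [hf, ker]
        rw [norm_mul, hE, norm_inv, norm_pow]
        have h1 : (n : ℝ) ≤ ‖(s : ℂ) + (z + ((n : ℝ) : ℂ) * I)‖ := by
          have h2 := Complex.abs_im_le_norm ((s : ℂ) + (z + ((n : ℝ) : ℂ) * I))
          have h3 : ((s : ℂ) + (z + ((n : ℝ) : ℂ) * I)).im = z.im + n := by simp
          rw [h3] at h2
          exact (by linarith : (n : ℝ) ≤ z.im + n).trans ((le_abs_self _).trans h2)
        have h4 : (n : ℝ) ≤ ‖(s : ℂ) + (z + ((n : ℝ) : ℂ) * I)‖ ^ N := by
          calc (n : ℝ) ≤ (n : ℝ) ^ N := by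
                exact le_self_pow₀ hn1 (by omega)
            _ ≤ _ := pow_le_pow_left₀ (by linarith) h1 N
        have h5 : Real.exp (-((n : ℝ) * c)) ≤ 1 := by
          apply Real.exp_le_one_iff.2
          have : 0 ≤ (n : ℝ) * c := by positivity
          linarith
        calc Real.exp (-((n : ℝ) * c)) * (‖(s : ℂ) + (z + ((n : ℝ) : ℂ) * I)‖ ^ N)⁻¹
            ≤ 1 * ((n : ℝ))⁻¹ := by gcongr
          _ = _ := one_mul _
      exact tendsto_of_tendsto_of_tendsto_of_le_of_le' tendsto_const_nhds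
        (tendsto_inv_atTop_nhds_zero_nat) (Eventually.of_forall fun n => norm_nonneg _) hb
  have hfin : ∫ s, f 0 s = 0 := by
    have h1 : ∀ n : ℕ, ∫ s, f n s = ∫ s, f 0 s := fun n => hconst n (by positivity)
    simp only [h1, integral_zero] at hlim
    exact (tendsto_nhds_unique tendsto_const_nhds hlim)
  rw [← hfin]
  congr 1
  ext s
  simp [hf]


/-- Continuous functions of polynomial growth that are boundary values of holomorphic functions
in the upper half plane. -/
structure Up (k : ℕ) (g : ℝ → ℂ) : Prop where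
  cont : Continuous g
  bdd : ∃ C, ∀ s, ‖g s‖ ≤ C * (1 + |s|) ^ k
  orth : ∀ N, k + 2 ≤ N → ∀ z : ℂ, 0 < z.im → ∫ s, g s * ker N z s = 0

lemma integrable_ker {N : ℕ} (hN : k + 2 ≤ N) (hc : Continuous g)
    (hb : ∀ s, ‖g s‖ ≤ C * (1 + |s|) ^ k) {z : ℂ} (hz : 0 < z.im) :
    Integrable fun s => g s * ker N z s := by
  obtain ⟨K, hK, h⟩ := norm_ker_le N hz
  exact ((integrable_pow le_rfl).const_mul (C * K)).mono'
    (hc.mul (continuous_ker N hz)).aestronglyMeasurable
    (Eventually.of_forall fun s => bound_mul hN hb hK.le (h s))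

namespace Up

variable {g' : ℝ → ℂ}

lemma int (h : Up k g) {N : ℕ} (hN : k + 2 ≤ N) {z : ℂ} (hz : 0 < z.im) :
    Integrable fun s => g s * ker N z s := by
  obtain ⟨C, hC⟩ := h.bdd
  exact integrable_ker hN h.cont hC hz

lemma add (h : Up k g) (h' : Up k g') : Up k fun s => g s + g' s where
  cont := h.cont.add h'.cont
  bdd := by
    obtain ⟨C, hC⟩ := h.bdd
    obtain ⟨C', hC'⟩ := h'.bdd
    refine ⟨C + C', fun s => (norm_add_le _ _).trans ?_⟩
    have := hC s
    have := hC' s
    linarith [add_mul C C' ((1 + |s|) ^ k)]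
  orth N hN z hz := by
    simp only [add_mul]
    rw [integral_add (h.int hN hz) (h'.int hN hz), h.orth N hN z hz, h'.orth N hN z hz, add_zero]

lemma const_mul (h : Up k g) (c : ℂ) : Up k fun s => c * g s where
  cont := h.cont.const_smul c
  bdd := by
    obtain ⟨C, hC⟩ := h.bdd
    refine ⟨‖c‖ * C, fun s => ?_⟩
    rw [norm_mul, mul_assoc]
    exact mul_le_mul_of_nonneg_left (hC s) (norm_nonneg _)
  orth N hN z hz := by
    simp only [mul_assoc]
    rw [integral_const_mul, h.orth N hN z hz, mul_zero]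

lemma sub (h : Up k g) (h' : Up k g') : Up k fun s => g s - g' s := by
  have := h.add (h'.const_mul (-1))
  simpa [sub_eq_add_neg] using this

lemma mono {l : ℕ} (h : Up k g) (hl : k ≤ l) : Up l g where
  cont := h.cont
  bdd := by
    obtain ⟨C, hC⟩ := h.bdd
    refine ⟨C, fun s => (hC s).trans ?_⟩
    have h1 : (1 : ℝ) ≤ 1 + |s| := by linarith [abs_nonneg s]
    have hC0 : 0 ≤ C := by
      have := (norm_nonneg _).trans (hC 0)
      simpa using this
    exact mul_le_mul_of_nonneg_left (pow_le_pow_right₀ h1 hl) hC0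
  orth N hN z hz := h.orth N (by omega) z hz

lemma conj_neg (h : Up k g) : Up k fun s => conj (g (-s)) where
  cont := Complex.continuous_conj.comp (h.cont.comp continuous_neg)
  bdd := by
    obtain ⟨C, hC⟩ := h.bdd
    refine ⟨C, fun s => ?_⟩
    rw [RCLike.norm_conj]
    have := hC (-s)
    rwa [abs_neg] at this
  orth N hN z hz := by
    have hz' : 0 < (-conj z).im := by simp [hz]
    have h1 := h.orth N hN _ hz'
    have h2 : ∀ s : ℝ, conj (g (-s)) * ker N z s =
        (-1) ^ N * conj (g (-s) * ker N (-conj z) (-s)) := by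
      intro s
      unfold ker
      rw [map_mul, map_inv₀, map_pow]
      have h3 : conj (((-s : ℝ) : ℂ) + -conj z) = -((s : ℂ) + z) := by
        simp
        ring
      have h4 : ((-1 : ℂ))⁻¹ = -1 := by norm_num
      rw [h3, neg_pow ((s : ℂ) + z), mul_inv, ← inv_pow (-1 : ℂ), h4]
      have h5 : ((-1 : ℂ)) ^ N * (-1) ^ N = 1 := by
        rw [← mul_pow]; norm_num
      linear_combination (-(conj (g (-s))) * (((s : ℂ) + z) ^ N)⁻¹) * h5
    simp only [h2]
    rw [integral_const_mul, integral_conj]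
    have h6 : ∫ s : ℝ, g (-s) * ker N (-conj z) (-s) = ∫ s, g s * ker N (-conj z) s :=
      integral_neg_eq_self (fun s : ℝ => g s * ker N (-conj z) s) volume
    rw [h6, h1, map_zero, mul_zero]

lemma lim (h : ∀ ε > 0, ∃ g', Up k g' ∧ ∀ s, ‖g s - g' s‖ ≤ ε * (1 + |s|) ^ k) : Up k g := by
  have hc : Continuous g := by
    choose! G hG hGb using h
    have hloc : TendstoLocallyUniformly (fun (j : ℕ) => G (1 / ((j : ℝ) + 1))) g atTop := by
      rw [Metric.tendstoLocallyUniformly_iff]
      intro ε hε x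
      refine ⟨Metric.ball x 1, Metric.ball_mem_nhds _ one_pos, ?_⟩
      have h1 : Tendsto (fun j : ℕ => (1 / ((j : ℝ) + 1)) * (2 + |x|) ^ k) atTop (𝓝 0) := by
        have := tendsto_one_div_add_atTop_nhds_zero_nat (𝕜 := ℝ)
        simpa using this.mul_const ((2 + |x|) ^ k)
      filter_upwards [h1.eventually (gt_mem_nhds hε)] with j hj y hy
      rw [Metric.mem_ball, Real.dist_eq] at hy
      rw [dist_eq_norm]
      refine (hGb _ (by positivity) y).trans_lt (lt_of_le_of_lt ?_ hj)
      apply mul_le_mul_of_nonneg_left _ (by positivity)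
      apply pow_le_pow_left₀ (by positivity)
      have : |y| ≤ |x| + 1 := by
        calc |y| = |(y - x) + x| := by congr 1; ring
          _ ≤ |y - x| + |x| := abs_add_le _ _
          _ ≤ _ := by linarith
      linarith
    exact hloc.continuous (Eventually.of_forall fun j => (hG _ (by positivity)).cont).frequently
  have hb : ∃ C, ∀ s, ‖g s‖ ≤ C * (1 + |s|) ^ k := by
    obtain ⟨g', h', hb⟩ := h 1 one_pos
    obtain ⟨C, hC⟩ := h'.bdd
    refine ⟨1 + C, fun s => ?_⟩
    calc ‖g s‖ = ‖(g s - g' s) + g' s‖ := by congr 1; ring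
      _ ≤ ‖g s - g' s‖ + ‖g' s‖ := norm_add_le _ _
      _ ≤ 1 * (1 + |s|) ^ k + C * (1 + |s|) ^ k := add_le_add (hb s) (hC s)
      _ = _ := by ring
  refine ⟨hc, hb, fun N hN z hz => ?_⟩
  obtain ⟨C, hC⟩ := hb
  obtain ⟨K, hK, hker⟩ := norm_ker_le N hz
  have hle : ∀ ε > 0, ‖∫ s, g s * ker N z s‖ ≤ ε * (K * ∫ s : ℝ, ((1 + |s|) ^ 2)⁻¹) := by
    intro ε hε
    obtain ⟨g', h', hb⟩ := h ε hε
    have e : ∫ s, g s * ker N z s = ∫ s, (g s - g' s) * ker N z s := by
      simp only [sub_mul]
      rw [integral_sub (integrable_ker hN hc hC hz) (h'.int hN hz), h'.orth N hN z hz, sub_zero]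
    rw [e]
    refine (norm_integral_le_integral_norm _).trans ?_
    calc ∫ s, ‖(g s - g' s) * ker N z s‖ ≤ ∫ s : ℝ, ε * K * ((1 + |s|) ^ 2)⁻¹ := by
          apply integral_mono_of_nonneg (Eventually.of_forall fun s => norm_nonneg _)
            ((integrable_pow le_rfl).const_mul _)
          exact Eventually.of_forall fun s =>
            bound_mul (g := fun s => g s - g' s) hN hb hK.le (hker s)
      _ = _ := by rw [integral_const_mul]; ring
  have h4 : ‖∫ s, g s * ker N z s‖ ≤ 0 := by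
    refine le_of_forall_pos_le_add fun δ hδ => ?_
    set B := K * ∫ s : ℝ, ((1 + |s|) ^ 2)⁻¹ with hB
    have hB0 : 0 ≤ B := mul_nonneg hK.le (integral_nonneg fun s => by positivity)
    refine (hle (δ / (B + 1)) (by positivity)).trans ?_
    rw [zero_add, div_mul_eq_mul_div, div_le_iff₀ (by positivity)]
    nlinarith
  exact norm_le_zero_iff.1 h4

/-- Fourier transforms of finite measures on the positive half line -/
lemma spec {ν : Measure ℝ} [IsFiniteMeasure ν] (hν : ∀ᵐ c ∂ν, 0 ≤ c) (k : ℕ) :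
    Up k fun s : ℝ => ∫ c, exp (I * s * c) ∂ν := by
  have hn : ∀ s c : ℝ, ‖exp (I * s * c)‖ = 1 := by
    intro s c
    rw [norm_exp]
    simp
  have hcont : Continuous fun s : ℝ => ∫ c, exp (I * s * c) ∂ν := by
    apply continuous_of_dominated (bound := fun _ => (1 : ℝ))
    · intro s
      exact (by fun_prop : Continuous fun c : ℝ => exp (I * s * c)).aestronglyMeasurable
    · intro s
      exact Eventually.of_forall fun c => (hn s c).le
    · exact integrable_const _
    · exact Eventually.of_forall fun c => by fun_prop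
  have hb0 : ∀ s : ℝ, ‖∫ c, exp (I * s * c) ∂ν‖ ≤ ν.real Set.univ * (1 + |s|) ^ 0 := by
    intro s
    rw [pow_zero, mul_one]
    have := norm_integral_le_of_norm_le_const (μ := ν) (f := fun c : ℝ => exp (I * s * c)) (C := 1)
      (Eventually.of_forall fun c => (hn s c).le)
    rwa [one_mul] at this
  refine mono (k := 0) ⟨hcont, ⟨_, hb0⟩, fun N hN z hz => ?_⟩ (Nat.zero_le k)
  obtain ⟨K, hK, hker⟩ := norm_ker_le N hz
  have hint : Integrable (Function.uncurry fun (s c : ℝ) => exp (I * s * c) * ker N z s)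
      (volume.prod ν) := by
    have h1 : Integrable (fun p : ℝ × ℝ => (K * ((1 + |p.1|) ^ N)⁻¹) * (1 : ℝ))
        (volume.prod ν) :=
      Integrable.mul_prod ((integrable_pow (by omega)).const_mul K) (integrable_const (1 : ℝ))
    refine h1.mono' ?_ (Eventually.of_forall fun p => ?_)
    · have := continuous_ker N hz
      exact (by
        unfold Function.uncurry
        fun_prop : Continuous (Function.uncurry fun (s c : ℝ) => exp (I * s * c) * ker N z s))
        |>.aestronglyMeasurable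
    · simp only [Function.uncurry]
      rw [norm_mul, hn, one_mul, mul_one]
      exact hker _
  have e : ∀ s : ℝ, (∫ c, exp (I * s * c) ∂ν) * ker N z s = ∫ c, exp (I * s * c) * ker N z s ∂ν :=
    fun s => (integral_mul_const _ _).symm
  simp only [e]
  rw [integral_integral_swap hint]
  rw [integral_eq_zero_of_ae]
  filter_upwards [hν] with c hc
  exact exp_ker hc (by omega) hz

/-- one sided vanishing, right -/
theorem zero_right (h : Up k g) {s0 : ℝ} (h0 : ∀ s, s0 ≤ s → g s = 0) (s : ℝ) : g s = 0 := by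
  obtain ⟨C, hC⟩ := h.bdd
  exact one_sided h.cont hC h0 h.orth s

/-- one sided vanishing, left -/
theorem zero_left (h : Up k g) {s0 : ℝ} (h0 : ∀ s, s ≤ s0 → g s = 0) (s : ℝ) : g s = 0 := by
  have h1 := h.conj_neg.zero_right (s0 := -s0) (fun s hs => by
    rw [h0 (-s) (by linarith), map_zero]) (-s)
  simp only [neg_neg] at h1
  exact (map_eq_zero _).1 h1

end Up


end Vale.Agent.P352.H496

end
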