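import Vale.Agent.P352.H496.Defs
import Vale.Agent.P352.H496.One
import Vale.Agent.P352.H246.Vec

set_option linter.all false

noncomputable section

open MeasureTheory SchwartzMap Complex Filter Topology
open scoped SchwartzMap ComplexConjugate ENNReal LineDeriv

namespace Vale.Agent.P352.H496

open GF (Ix V Fn Sch ev pd bar sim bas o)
open H246
open UniformSpace (Completion)

variable {D : Type*} [NormedAddCommGroup D] [InnerProductSpace ℂ D]
variable {Q : GF.Theory D}

lemma continuous_U1v (a : Mink) : Continuous fun v : D => U1 Q a v := by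
  apply continuous_of_linear_of_bound (𝕜 := ℂ) (U1_add a) (fun c v => U1_smul a c v) (C := 1)
  intro v
  rw [U1_norm, one_mul]

lemma U1_U1_all (a b : Mink) (v : D) : U1 Q a (U1 Q b v) = U1 Q (a + b) v := by
  set S : Submodule ℂ D :=
    { carrier := {v | U1 Q a (U1 Q b v) = U1 Q (a + b) v}
      add_mem' := fun {v w} hv hw => by
        show U1 Q a (U1 Q b (v + w)) = U1 Q (a + b) (v + w)
        rw [U1_add, U1_add, U1_add, hv, hw]
      zero_mem' := by
        show U1 Q a (U1 Q b 0) = U1 Q (a + b) 0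
        have h : ∀ c, U1 Q c (0 : D) = 0 := fun c => by
          have := U1_smul (Q := Q) c 0 (0 : D)
          rwa [zero_smul, zero_smul] at this
        rw [h, h, h]
      smul_mem' := fun c v hv => by
        show U1 Q a (U1 Q b (c • v)) = U1 Q (a + b) (c • v)
        rw [U1_smul, U1_smul, U1_smul, hv] } with hS
  have hd := Q.cyclic S (by
      show U1 Q a (U1 Q b Q.vac) = U1 Q (a + b) Q.vac
      rw [U1_vac, U1_vac, U1_vac]) (fun A f v hA hf hv => by
    obtain ⟨F, rfl⟩ := exists_fl hf
    show U1 Q a (U1 Q b (A (fl F) v)) = U1 Q (a + b) (A (fl F) v)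
    have hv' : U1 Q a (U1 Q b v) = U1 Q (a + b) v := hv
    have h1 : ∀ c w, U1 Q c (A (fl F) w) = A (fl (tauS c F)) (U1 Q c w) :=
      fun c w => U_fld hA F c w
    rw [h1, h1]
    have h2 : U1 Q a (A (fl (tauS b F)) (U1 Q b v)) =
        A (fl (tauS a (tauS b F))) (U1 Q a (U1 Q b v)) := U_fld hA _ a _
    rw [h2, hv', tauS_tauS, add_comm b a])
  have hcl : IsClosed (S : Set D) :=
    isClosed_eq ((continuous_U1v a).comp (continuous_U1v b)) (continuous_U1v (a + b))
  have : v ∈ closure (S : Set D) := hd v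
  rw [hcl.closure_eq] at this
  exact this

lemma U1_tendsto_all (v : D) : Tendsto (fun a => U1 Q a v) (𝓝 0) (𝓝 v) := by
  obtain ⟨ν, hfin, hcone, hν⟩ := spec_meas Q v
  have hc : Continuous fun a : Mink => ∫ p, chr a p ∂ν := by
    apply continuous_of_dominated (bound := fun _ => (1 : ℝ))
    · intro a
      exact (continuous_chr a).aestronglyMeasurable
    · intro a
      exact Eventually.of_forall fun p => by rw [norm_chr]
    · exact integrable_const _
    · refine Eventually.of_forall fun p => ?_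
      exact continuous_chr2.comp (continuous_id.prodMk continuous_const)
  have h1 : Tendsto (fun a => inner ℂ v (U1 Q a v)) (𝓝 0) (𝓝 (inner ℂ v v)) := by
    have h2 : (fun a => inner ℂ v (U1 Q a v)) = fun a : Mink => ∫ p, chr a p ∂ν := by
      funext a; exact hν a
    have h3 : inner ℂ v v = ∫ p, chr 0 p ∂ν := by
      rw [← hν 0]
      congr 1
      exact (U1_zero_all v).symm
    rw [h2, h3]
    exact hc.tendsto 0
  rw [tendsto_iff_norm_sub_tendsto_zero]
  have h4 : ∀ a, ‖U1 Q a v - v‖ ^ 2 = 2 * ‖v‖ ^ 2 - 2 * (inner ℂ v (U1 Q a v)).re := by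
    intro a
    rw [@norm_sub_sq ℂ, U1_norm]
    have : RCLike.re (inner ℂ (U1 Q a v) v) = (inner ℂ v (U1 Q a v)).re := by
      rw [← inner_conj_symm]
      exact conj_re _
    rw [this]
    ring
  have h5 : Tendsto (fun a => ‖U1 Q a v - v‖ ^ 2) (𝓝 0) (𝓝 0) := by
    simp only [h4]
    have h6 : Tendsto (fun a => 2 * ‖v‖ ^ 2 - 2 * (inner ℂ v (U1 Q a v)).re) (𝓝 0)
        (𝓝 (2 * ‖v‖ ^ 2 - 2 * (inner ℂ v v).re)) :=
      tendsto_const_nhds.sub ((continuous_re.tendsto _).comp h1 |>.const_mul 2)
    have h7 : (inner ℂ v v).re = ‖v‖ ^ 2 := by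
      rw [inner_self_eq_norm_sq_to_K]
      norm_cast
    rw [h7, sub_self] at h6
    exact h6
  have h8 := (Real.continuous_sqrt.tendsto 0).comp h5
  rw [Real.sqrt_zero] at h8
  refine h8.congr fun a => ?_
  simp [Real.sqrt_sq (norm_nonneg _)]

lemma continuous_U1a (v : D) : Continuous fun a : Mink => U1 Q a v := by
  rw [continuous_iff_continuousAt]
  intro a
  have h1 : (fun b : Mink => U1 Q b v) = fun b => U1 Q a (U1 Q (b - a) v) := by
    funext b
    rw [U1_U1_all]
    congr 1
    abel
  rw [ContinuousAt, h1]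
  have h2 : Tendsto (fun b : Mink => b - a) (𝓝 a) (𝓝 0) := by
    have : Continuous fun b : Mink => b - a := by fun_prop
    simpa using this.tendsto a
  have h3 := (U1_tendsto_all (Q := Q) v).comp h2
  have h4 := ((continuous_U1v (Q := Q) a).tendsto v).comp h3
  simp only [Function.comp_def] at h4
  exact h4

/-- the inner product of the completion with images of vectors under translations -/
lemma U1_move (a : Mink) (v w : D) : inner ℂ v (U1 Q a w) = inner ℂ (U1 Q (-a) v) w := by
  rw [← U1_inner (Q := Q) (-a) v (U1 Q a w), U1_U1_all, neg_add_cancel, U1_zero_all]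

variable {H : D → D} {alg : Set V → Set (D → D)} {S : V → ℝ → D → D}

section

variable {O : Set V} {X Y : D → D}

/-- formal adjoints -/
def Adj (X Y : D → D) : Prop := ∀ v w : D, inner ℂ (X v) w = inner ℂ v (Y w)

lemma Adj.symm (h : Adj X Y) : Adj Y X := by
  intro v w
  rw [← inner_conj_symm, ← h, inner_conj_symm]

lemma Adj.add (h : Adj X Y) (v w : D) : X (v + w) = X v + X w := by
  refine ext_inner_right ℂ fun u => ?_
  rw [h, inner_add_left, inner_add_left, h, h]

lemma Adj.smul (h : Adj X Y) (c : ℂ) (v : D) : X (c • v) = c • X v := by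
  refine ext_inner_right ℂ fun u => ?_
  rw [h, inner_smul_left, inner_smul_left, h]

lemma Adj.unique {Z : D → D} (h : Adj X Y) (h' : Adj X Z) : Y = Z := by
  funext w
  refine ext_inner_left ℂ fun u => ?_
  rw [← h, ← h']

lemma Adj.comp {X' Y' : D → D} (h : Adj X Y) (h' : Adj X' Y') :
    Adj (fun v => X (X' v)) (fun v => Y' (Y v)) := by
  intro v w
  rw [h, h']

lemma Adj.sum {X' Y' : D → D} (h : Adj X Y) (h' : Adj X' Y') :
    Adj (fun v => X v + X' v) (fun v => Y v + Y' v) := by
  intro v w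
  rw [inner_add_left, inner_add_right, h, h']

lemma Adj.csmul (h : Adj X Y) (c : ℂ) : Adj (fun v => c • X v) (fun v => conj c • Y v) := by
  intro v w
  rw [inner_smul_left, inner_smul_right, h]

end

section

variable (N : Net Q H alg S) {a : V} (ha : IsNull a)
include N ha

lemma S_norm (s : ℝ) (v : D) : ‖S a s v‖ = ‖v‖ := by
  have h := N.S_inner a s v v ha
  rw [inner_self_eq_norm_sq_to_K, inner_self_eq_norm_sq_to_K] at h
  have h2 : ‖S a s v‖ ^ 2 = ‖v‖ ^ 2 := by exact_mod_cast h
  exact (pow_left_inj₀ (norm_nonneg _) (norm_nonneg _) (by norm_num)).1 h2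

lemma S_addv (s : ℝ) (v w : D) : S a s (v + w) = S a s v + S a s w := by
  have h : ‖S a s (v + w) - (S a s v + S a s w)‖ ^ 2 = 0 := by
    have h1 : ((‖S a s (v + w) - (S a s v + S a s w)‖ ^ 2 : ℝ) : ℂ) = 0 := by
      have := inner_self_eq_norm_sq_to_K (𝕜 := ℂ) (S a s (v + w) - (S a s v + S a s w))
      push_cast
      refine Eq.trans this.symm ?_
      simp only [inner_sub_left, inner_sub_right, inner_add_left, inner_add_right,
        N.S_inner a s _ _ ha]
      ring
    exact_mod_cast h1
  exact sub_eq_zero.1 (norm_eq_zero.1 (pow_eq_zero_iff two_ne_zero |>.1 h))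

lemma S_smulv (s : ℝ) (c : ℂ) (v : D) : S a s (c • v) = c • S a s v := by
  have h : ‖S a s (c • v) - c • S a s v‖ ^ 2 = 0 := by
    have h1 : ((‖S a s (c • v) - c • S a s v‖ ^ 2 : ℝ) : ℂ) = 0 := by
      have := inner_self_eq_norm_sq_to_K (𝕜 := ℂ) (S a s (c • v) - c • S a s v)
      push_cast
      refine Eq.trans this.symm ?_
      simp only [inner_sub_left, inner_sub_right, inner_smul_left, inner_smul_right,
        N.S_inner a s _ _ ha]
      ring
    exact_mod_cast h1
  exact sub_eq_zero.1 (norm_eq_zero.1 (pow_eq_zero_iff two_ne_zero |>.1 h))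

lemma S_zero (v : D) : S a 0 v = v := by
  have h : S a 0 (S a 0 v - v) = 0 := by
    have h1 : S a 0 v - v = S a 0 v + (-1 : ℂ) • v := by
      rw [neg_one_smul, sub_eq_add_neg]
    rw [h1, S_addv N ha, S_smulv N ha, N.S_add a 0 0 v ha, add_zero]
    simp
  have h2 := S_norm N ha 0 (S a 0 v - v)
  rw [h, norm_zero] at h2
  exact sub_eq_zero.1 (norm_eq_zero.1 h2.symm)

lemma S_neg (s : ℝ) (v : D) : S a s (S a (-s) v) = v := by
  rw [N.S_add a _ _ _ ha, add_neg_cancel, S_zero N ha]

lemma S_neg' (s : ℝ) (v : D) : S a (-s) (S a s v) = v := by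
  rw [N.S_add a _ _ _ ha, neg_add_cancel, S_zero N ha]

lemma S_move (s : ℝ) (v w : D) : inner ℂ (S a s v) w = inner ℂ v (S a (-s) w) := by
  rw [← N.S_inner a (-s) (S a s v) w ha, S_neg' N ha]

lemma adj_S (s : ℝ) : Adj (S a s) (S a (-s)) := S_move N ha s

/-- diagonal matrix elements -/
lemma up_diag (v : D) (k : ℕ) : Up k fun s => inner ℂ v (S a s v) := by
  obtain ⟨ν, hfin, hν, h⟩ := N.S_spec a v ha
  have : (fun s => inner ℂ v (S a s v)) = fun s : ℝ => ∫ c, exp (I * s * c) ∂ν := by
    funext s; exact h s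
  rw [this]
  exact Up.spec hν k

/-- matrix elements -/
lemma up_inner (v w : D) (k : ℕ) : Up k fun s => inner ℂ v (S a s w) := by
  have h := ((((up_diag N ha (v + w) k).sub (up_diag N ha (v - w) k)).sub
    (((up_diag N ha (v + I • w) k).sub (up_diag N ha (v - I • w) k)).const_mul I))).const_mul (1 / 4)
  have hneg : ∀ (s : ℝ) (u : D), S a s (-u) = - S a s u := by
    intro s u
    have := S_smulv N ha s (-1) u
    rwa [neg_one_smul, neg_one_smul] at this
  refine (funext fun s => ?_ : (fun s => inner ℂ v (S a s w)) = _) ▸ h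
  simp only [sub_eq_add_neg, S_addv N ha, S_smulv N ha, hneg, inner_add_left, inner_add_right,
    inner_smul_left, inner_smul_right, inner_neg_left, inner_neg_right, conj_I]
  have := I_mul_I
  linear_combination ((1 / 2 : ℂ) * inner ℂ v (S a s w) - (1 / 2 : ℂ) * inner ℂ w (S a s v)) * this

lemma continuous_S (v : D) : Continuous fun s : ℝ => S a s v := by
  have h0 : Tendsto (fun s : ℝ => S a s v) (𝓝 0) (𝓝 v) := by
    rw [tendsto_iff_norm_sub_tendsto_zero]
    have h4 : ∀ s, ‖S a s v - v‖ ^ 2 = 2 * ‖v‖ ^ 2 - 2 * (inner ℂ v (S a s v)).re := by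
      intro s
      rw [@norm_sub_sq ℂ, S_norm N ha]
      have : RCLike.re (inner ℂ (S a s v) v) = (inner ℂ v (S a s v)).re := by
        rw [← inner_conj_symm]
        exact conj_re _
      rw [this]
      ring
    have h5 : Tendsto (fun s => ‖S a s v - v‖ ^ 2) (𝓝 0) (𝓝 0) := by
      simp only [h4]
      have h1 := (up_diag N ha v 0).cont.tendsto 0
      have h6 : Tendsto (fun s => 2 * ‖v‖ ^ 2 - 2 * (inner ℂ v (S a s v)).re) (𝓝 0)
          (𝓝 (2 * ‖v‖ ^ 2 - 2 * (inner ℂ v (S a 0 v)).re)) :=
        tendsto_const_nhds.sub ((continuous_re.tendsto _).comp h1 |>.const_mul 2)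
      have h7 : (inner ℂ v (S a 0 v)).re = ‖v‖ ^ 2 := by
        rw [S_zero N ha, inner_self_eq_norm_sq_to_K]
        norm_cast
      rw [h7, sub_self] at h6
      exact h6
    have h8 := (Real.continuous_sqrt.tendsto 0).comp h5
    rw [Real.sqrt_zero] at h8
    refine h8.congr fun a => ?_
    simp [Real.sqrt_sq (norm_nonneg _)]
  rw [continuous_iff_continuousAt]
  intro s
  have h1 : (fun t : ℝ => S a t v) = fun t => S a s (S a (t - s) v) := by
    funext t
    rw [N.S_add a _ _ _ ha]
    congr 1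
    ring
  have hc : Continuous fun v : D => S a s v := by
    apply continuous_of_linear_of_bound (𝕜 := ℂ) (S_addv N ha s) (fun c v => S_smulv N ha s c v)
      (C := 1)
    intro v
    rw [S_norm N ha, one_mul]
  rw [ContinuousAt, h1]
  have h2 : Tendsto (fun t : ℝ => t - s) (𝓝 s) (𝓝 0) := by
    have : Continuous fun t : ℝ => t - s := by fun_prop
    simpa using this.tendsto s
  have h4 := (hc.tendsto v).comp (h0.comp h2)
  simp only [Function.comp_def] at h4
  exact h4

omit N ha in
lemma exists_near (φ : Completion D) {ε : ℝ} (hε : 0 < ε) : ∃ v : D, ‖φ - (v : Completion D)‖ < ε :=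
  exists_coe φ hε

/-- matrix elements with an operator and a vector of the completion -/
theorem up_op (φ : Completion D) {X : D → D} (hX : X ∈ alg Set.univ) (v : D) :
    ∃ k, Up k fun s => inner ℂ φ ((X (S a s v) : D) : Completion D) := by
  obtain ⟨C, m, hC⟩ := N.S_bdd a ha X hX v
  obtain ⟨Y, hY, hadj⟩ := N.adj _ X hX
  have hC0 : 0 ≤ C := by
    have := (norm_nonneg _).trans (hC 0)
    simpa using this
  refine ⟨m, Up.lim fun ε hε => ?_⟩
  obtain ⟨w, hw⟩ := exists_near φ (ε := ε / (C + 1)) (by positivity)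
  refine ⟨fun s => inner ℂ (Y w) (S a s v), up_inner N ha _ _ _, fun s => ?_⟩
  have e : inner ℂ (Y w) (S a s v) = inner ℂ (w : Completion D) ((X (S a s v) : D) : Completion D) := by
    rw [Completion.inner_coe]
    exact Adj.symm hadj _ _
  show ‖inner ℂ φ ((X (S a s v) : D) : Completion D) - inner ℂ (Y w) (S a s v)‖ ≤ _
  rw [e, ← inner_sub_left]
  refine (norm_inner_le_norm _ _).trans ?_
  rw [Completion.norm_coe]
  calc ‖φ - (w : Completion D)‖ * ‖X (S a s v)‖ ≤ (ε / (C + 1)) * (C * (1 + |s|) ^ m) := by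
        gcongr
        exact hC s
    _ = ε * (1 + |s|) ^ m * (C / (C + 1)) := by ring
    _ ≤ ε * (1 + |s|) ^ m * 1 := by
        gcongr
        rw [div_le_one (by positivity)]
        linarith
    _ = _ := by ring

end

/-- continuity of matrix elements of translates -/
theorem cont_op (N : Net Q H alg S) (φ : Completion D) {X : D → D} (hX : X ∈ alg Set.univ)
    (v : D) : Continuous fun x : V => inner ℂ φ ((X (Q.U 1 GF.one x v) : D) : Completion D) := by
  obtain ⟨C, m, hC⟩ := N.transl_bdd X hX v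
  obtain ⟨Y, hY, hadj⟩ := N.adj _ X hX
  have hC0 : 0 ≤ C := by
    have := (norm_nonneg _).trans (hC 0)
    simpa using this
  have hU : Continuous fun x : V => Q.U 1 GF.one x v := by
    have h1 := continuous_U1a (Q := Q) v
    exact h1.comp (by fun_prop : Continuous fun x : V => (WithLp.toLp 2 x : Mink))
  have hloc : ∀ ε > 0, ∃ w : D, ∀ x : V, ‖inner ℂ φ ((X (Q.U 1 GF.one x v) : D) : Completion D) -
      inner ℂ (Y w) (Q.U 1 GF.one x v)‖ ≤ ε * (1 + ‖x‖) ^ m := by
    intro ε hε
    obtain ⟨w, hw⟩ := exists_near φ (ε := ε / (C + 1)) (by positivity)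
    refine ⟨w, fun x => ?_⟩
    have e : inner ℂ (Y w) (Q.U 1 GF.one x v) =
        inner ℂ (w : Completion D) ((X (Q.U 1 GF.one x v) : D) : Completion D) := by
      rw [Completion.inner_coe]
      exact Adj.symm hadj _ _
    rw [e, ← inner_sub_left]
    refine (norm_inner_le_norm _ _).trans ?_
    rw [Completion.norm_coe]
    calc ‖φ - (w : Completion D)‖ * ‖X (Q.U 1 GF.one x v)‖
        ≤ (ε / (C + 1)) * (C * (1 + ‖x‖) ^ m) := by
          gcongr
          exact hC x
      _ = ε * (1 + ‖x‖) ^ m * (C / (C + 1)) := by ring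
      _ ≤ ε * (1 + ‖x‖) ^ m * 1 := by
          gcongr
          rw [div_le_one (by positivity)]
          linarith
      _ = _ := by ring
  choose! w hw using hloc
  have hl : TendstoLocallyUniformly (fun (j : ℕ) (x : V) =>
      inner ℂ (Y (w (1 / ((j : ℝ) + 1)))) (Q.U 1 GF.one x v))
      (fun x => inner ℂ φ ((X (Q.U 1 GF.one x v) : D) : Completion D)) atTop := by
    rw [Metric.tendstoLocallyUniformly_iff]
    intro ε hε x
    refine ⟨Metric.ball x 1, Metric.ball_mem_nhds _ one_pos, ?_⟩
    have h1 : Tendsto (fun j : ℕ => (1 / ((j : ℝ) + 1)) * (2 + ‖x‖) ^ m) atTop (𝓝 0) := by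
      have := tendsto_one_div_add_atTop_nhds_zero_nat (𝕜 := ℝ)
      simpa using this.mul_const ((2 + ‖x‖) ^ m)
    filter_upwards [h1.eventually (gt_mem_nhds hε)] with j hj y hy
    rw [Metric.mem_ball, dist_eq_norm] at hy
    rw [dist_eq_norm]
    refine (hw _ (by positivity) y).trans_lt (lt_of_le_of_lt ?_ hj)
    apply mul_le_mul_of_nonneg_left _ (by positivity)
    apply pow_le_pow_left₀ (by positivity)
    have : ‖y‖ ≤ ‖x‖ + 1 := by
      calc ‖y‖ = ‖(y - x) + x‖ := by congr 1; abel
        _ ≤ ‖y - x‖ + ‖x‖ := norm_add_le _ _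
        _ ≤ _ := by linarith
    linarith
  exact hl.continuous (Frequently.of_forall fun j => continuous_const.inner hU)

end Vale.Agent.P352.H496

end
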