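import Vale.Agent.P352.H755.Lfg
import Vale.Agent.P352.H496.Defs4

set_option linter.all false

noncomputable section

open MeasureTheory SchwartzMap Filter Topology Set
open Complex hiding eta
open scoped SchwartzMap ComplexConjugate ENNReal NNReal LineDeriv ContDiff

namespace Vale.Agent.P352.H496

open GF (Ix V Fn Sch ev pd bar sim bas o eta)
open H246 H746 H755
open UniformSpace (Completion)

variable {D : Type*} [NormedAddCommGroup D] [InnerProductSpace ℂ D]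
variable {Q : GF.Theory D}
variable {H : D → D} {alg : Set V → Set (D → D)} {S : V → ℝ → D → D}

/-- the two light front forms agree by crossing symmetry -/
theorem sid_cross (N : CNet Q H alg S) {G : V → D → D} (Gg : Gnr Q alg S G)
    {T : Ix → Ix → GF.Fld D} {J : Ix → GF.Fld D} (hJ : IsVirial Q T J)
    {l : Fn → Completion D} (hl : IsPot Q T l) {κ : V → ℝ}
    (hC : Crossing Q J G κ)
    (hκ : Tst κ) (hκ1 : ∀ᶠ x in 𝓝 (0 : V), κ x = 1) {a b : V} (ha : IsNull a) (hb : IsNull b)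
    (hab : GF.mdot a b = 1)
    (hpa : ∀ s w, GF.mdot a w = 0 → Ptr Q S a s w) (hpb : ∀ s w, GF.mdot b w = 0 → Ptr Q S b s w)
    {Φ Sig : ℝ → ℝ} (hΦ : Tst Φ) (hSig : Tst Sig) (m : Ix) {g : Fn}
    (hg : GF.IsTest g) (hfw : Fwd g) {X : D} (hX : X = J m g Q.vac)
    (n0a : ∀ y, vc Q J a (G a (Q.U 1 GF.one (-y) X)) = 0)
    (n0b : ∀ y, vc Q J b (G b (Q.U 1 GF.one (-y) X)) = 0)
    (Am : Ix → 𝓢(V, ℂ)) (hAm : ∀ m y, vj Q J m (Q.U 1 GF.one (-y) X) = Am m y)
    (Lm : 𝓢(V, ℂ)) (hLm : ∀ y, vl l (Q.U 1 GF.one (-y) X) = Lm y)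
    (Z Z' : 𝓢(V, ℂ)) (hZ : ∀ y, vl l (G a (Q.U 1 GF.one (-y) X)) = Z y)
    (hZ' : ∀ y, vl l (G b (Q.U 1 GF.one (-y) X)) = Z' y) :
    Sid a b (deriv Φ) (deriv Sig) (fun y => vc Q J a (pl Q G a b X y))
        (fun y => vl l (pl Q G a b X y)) (fun y => vc Q J b (Q.U 1 GF.one (-y) X))
        (fun y => vc Q J (prp a b y) (Q.U 1 GF.one (-y) X)) =
      Sid b a (deriv Sig) (deriv Φ) (fun y => vc Q J b (pl Q G b a X y))
        (fun y => vl l (pl Q G b a X y)) (fun y => vc Q J a (Q.U 1 GF.one (-y) X))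
        (fun y => vc Q J (prp b a y) (Q.U 1 GF.one (-y) X)) := by
  have hba : GF.mdot b a = 1 := by rw [H755.mdot_comm, hab]
  set Ac : V → 𝓢(V, ℂ) := fun c => ∑ m, ((GF.eta m * c m : ℝ) : ℂ) • Am m with hAc
  have hAc' : ∀ c y, vc Q J c (Q.U 1 GF.one (-y) X) = Ac c y := by
    intro c y
    simp only [vc, hAm, hAc, SchwartzMap.sum_apply, SchwartzMap.smul_apply, smul_eq_mul]
  have hi : ∀ c, Integrable fun y : V => (1 + ‖y‖) ^ 2 * ‖vj Q J c (Q.U 1 GF.one (-y) X)‖ := by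
    intro c
    simp only [hAm]
    have h1 : Integrable fun y : V => (((1 + ‖y‖) ^ 2 : ℝ) : ℂ) * Am c y := by
      refine int_pol (Am c) (M := 2) (by fun_prop) fun y => ?_
      rw [norm_real, Real.norm_eq_abs, abs_of_nonneg (by positivity)]
      nlinarith [sq_nonneg (1 - ‖y‖)]
    refine h1.norm.congr (Eventually.of_forall fun y => ?_)
    simp only
    rw [norm_mul, norm_real, Real.norm_eq_abs, abs_of_nonneg (by positivity)]
  -- integrability on the light fronts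
  have key : ∀ (a b : V) (ha : IsNull a) (hb : IsNull b) (hab : GF.mdot a b = 1)
      (hpa : ∀ s w, GF.mdot a w = 0 → Ptr Q S a s w)
      (n0a : ∀ y, vc Q J a (G a (Q.U 1 GF.one (-y) X)) = 0)
      (Z : 𝓢(V, ℂ)) (hZ : ∀ y, vl l (G a (Q.U 1 GF.one (-y) X)) = Z y) (θ τ : ℝ → ℝ)
      (hθ : Bd θ) (hτ : Bd τ),
      (Integrable fun y : V => ((θ (GF.mdot a y) * τ (GF.mdot b y) : ℝ) : ℂ) *
        vc Q J a (pl Q G a b X y)) ∧
      Integrable fun y : V => ((θ (GF.mdot a y) * τ (GF.mdot b y) : ℝ) : ℂ) *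
        vl l (pl Q G a b X y) := by
    intro a b ha hb hab hpa n0a Z hZ θ τ hθ hτ
    constructor
    · refine ((int_profW hθ hτ a b (∂_{a} (Ac a) : 𝓢(V, ℂ))).const_mul I).congr
        (Eventually.of_forall fun y => ?_)
      simp only
      rw [plane_vc N Gg hJ ha hb hab hpa (Ac a) (hAc' a) y, n0a]
      push_cast
      ring
    · refine ((int_prof hθ hτ a b Z).add ((int_profW hθ hτ a b
        (∂_{a} Lm : 𝓢(V, ℂ))).const_mul I)).congr (Eventually.of_forall fun y => ?_)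
      simp only [Pi.add_apply]
      rw [plane_vl N Gg hl ha hb hab hpa Lm hLm y, hZ]
      push_cast
      ring
  have k1 := key a b ha hb hab hpa n0a Z hZ (deriv (deriv (deriv Φ))) (deriv Sig)
    (tst_bd (tst_deriv (tst_deriv (tst_deriv hΦ)))) (tst_bd (tst_deriv hSig))
  have k2 := key a b ha hb hab hpa n0a Z hZ (deriv (deriv (deriv Φ))) (deriv (deriv Sig))
    (tst_bd (tst_deriv (tst_deriv (tst_deriv hΦ)))) (tst_bd (tst_deriv (tst_deriv hSig)))
  have k3 := key b a hb ha hba hpb n0b Z' hZ' (deriv (deriv (deriv Sig))) (deriv Φ)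
    (tst_bd (tst_deriv (tst_deriv (tst_deriv hSig)))) (tst_bd (tst_deriv hΦ))
  have k4 := key b a hb ha hba hpb n0b Z' hZ' (deriv (deriv (deriv Sig))) (deriv (deriv Φ))
    (tst_bd (tst_deriv (tst_deriv (tst_deriv hSig)))) (tst_bd (tst_deriv (tst_deriv hΦ)))
  have L1 := lim_inn N Gg hJ hl ha hb hab hκ hκ1 hΦ (tst_deriv hSig) X k1.1 k2.2 hi
  have L2 := lim_inn N Gg hJ hl hb ha hba hκ hκ1 hSig (tst_deriv hΦ) X k3.1 k4.2 hi
  subst hX
  obtain ⟨c, h1, h2⟩ := hC a b Φ Sig m g ha hb hab hΦ hSig hg hfw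
  exact (tendsto_nhds_unique L1 h1).trans (tendsto_nhds_unique L2 h2).symm

end Vale.Agent.P352.H496

end
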