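import Vale.Agent.P352.GFDefs

open MeasureTheory Filter Topology

namespace Vale.Agent.P352.H496

open GF

noncomputable section

variable {D : Type*} [NormedAddCommGroup D] [InnerProductSpace ℂ D]

/-- The charge of the current `X^n T_{mn} - r J_m` with the cutoff `g`. -/
def chJ (T : Ix → Ix → Fld D) (J : Ix → Fld D) (X : V → V) (r : ℝ) (g : Fn) (v : D) : D :=
  ∑ n, T o n (fun x => (eta n * X x n : ℝ) * g x) v - (r : ℂ) • J o g v

/-- The charges of the currents `X^n T_{mn} - r J_m` generate the similitudes: for every curve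
`x ↦ s(e) L(e) x + a(e)` of similitudes that starts at the identity, with velocity field `X` and
rate of expansion `r`, they act on every field `A` by the derivative of `A` along the curve. -/
def SimGen (Q : Theory D) (T : Ix → Ix → Fld D) (J : Ix → Fld D) : Prop :=
  ∀ F (s : ℝ → ℝ) (L : ℝ → Ix → V) (a : ℝ → V) (X : V → V) r A f v w, IsCutoff F →
    s 0 = 1 → L 0 = one → a 0 = 0 → (∀ e, 0 < s e ∧ IsLor (L e)) → HasDerivAt s r 0 →
    (∀ x n, HasDerivAt (fun e => sim (s e) (L e) (a e) x n) (X x n) 0) →
    Q.fld A → IsTest f → HasCompactSupport f → ∃ d : ℂ,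
    HasDerivAt (fun e => inner ℂ (Q.U (s e) (L e) (a e) w)
      (A f (Q.U (s e) (L e) (a e) v))) d 0 ∧
    Tendsto (fun R => inner ℂ w (chJ T J X r (F R) (A f v) - A f (chJ T J X r (F R) v))) atTop
      (𝓝 (Complex.I * d))

end

end Vale.Agent.P352.H496
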