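import Vale.Agent.P352.H246.CfImpr2
import Vale.Agent.P352.H15.NPDefs
import Vale.Agent.P352.H496.SclDefs

set_option linter.all false

noncomputable section

open MeasureTheory SchwartzMap Complex Filter Topology
open scoped SchwartzMap ComplexConjugate ENNReal LineDeriv

namespace Vale.Agent.P352.H496

open GF (Ix V Fn Sch ev pd bar sim bas o)
open H246 H246D

variable {D : Type*} [NormedAddCommGroup D] [InnerProductSpace ℂ D]

section

variable {c : Ix → 𝓢(Mink, ℂ) → D} {f G : 𝓢(Mink, ℂ)}

/-- the improvement term of a current -/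
def ic (c : Ix → 𝓢(Mink, ℂ) → D) (n : Ix) (E : 𝓢(Mink, ℂ)) : D :=
  -(((GF.eta n / 3 : ℝ) : ℂ) • c o (∂_{eb n} E : 𝓢(Mink, ℂ))) +
    ((bas o (GF.eta o) n / 3 : ℝ) : ℂ) • ∑ k, c k (∂_{eb k} E : 𝓢(Mink, ℂ))

variable (hc : Cur c f)
include hc

lemma ic_add (n : Ix) (E E' : 𝓢(Mink, ℂ)) : ic c n (E + E') = ic c n E + ic c n E' := by
  unfold ic
  simp only [ldS_add, hc.add, Finset.sum_add_distrib, smul_add]
  abel

lemma ic_smul (n : Ix) (z : ℂ) (E : 𝓢(Mink, ℂ)) : ic c n (z • E) = z • ic c n E := by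
  unfold ic
  simp only [ldS_smul, hc.smul, ← Finset.smul_sum, smul_add, smul_neg]
  rw [smul_comm _ z, smul_comm _ z]

variable (hG : ∀ k : Ix, k ≠ 0 → SpSep (∂_{eb k} G : 𝓢(Mink, ℂ)) f)
include hG

/-- the dilation moment of the improvement term -/
lemma ic_dil : ∑ n, (GF.eta n : ℂ) • ic c n (Xm n G) = -c o G := by
  have ho : o = (0 : Ix) := rfl
  have e1 : GF.eta 0 = 1 := by simp [GF.eta, o]
  have h0 : ic c 0 (Xm 0 G) = 0 := by
    unfold ic
    rw [ho]
    have h3 : ∀ k : Ix, k ≠ 0 → c k (∂_{eb k} (Xm 0 G) : 𝓢(Mink, ℂ)) = 0 := by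
      intro k hk
      rw [hc.dX hG k 0 hk, if_neg hk, zero_smul]
    rw [Fin.sum_univ_four, h3 1 (by decide), h3 2 (by decide), h3 3 (by decide)]
    simp only [bas, e1, if_true, add_zero]
    exact neg_add_cancel _
  have h1 : ∀ n : Ix, n ≠ 0 → (GF.eta n : ℂ) • ic c n (Xm n G) = -((1 / 3 : ℂ) • c 0 G) := by
    intro n hn
    have e2 : GF.eta n = -1 := by
      unfold GF.eta o
      rw [if_neg hn]
    unfold ic
    rw [ho, hc.dX hG 0 n hn, if_pos rfl, one_smul, e2]
    have e3 : bas 0 (GF.eta 0) n = 0 := by simp [bas, hn]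
    rw [e3]
    push_cast
    module
  rw [Fin.sum_univ_four, h0, h1 1 (by decide), h1 2 (by decide), h1 3 (by decide), ho]
  module

/-- the Lorentz moments of the improvement term -/
lemma ic_lor (w : Ix → V) (hw : ∀ m n, GF.eta n * w m n = -(GF.eta m * w n m)) :
    ∑ n, ∑ m, ((GF.eta n * w m n : ℝ) : ℂ) • ic c n (Xm m G) = 0 := by
  have hS : ∀ m n, ic c n (Xm m G) = ic c m (Xm n G) := fun m n =>
    sub_eq_zero.1 (hc.impX hG n m)
  have h1 : ∑ n, ∑ m, ((GF.eta n * w m n : ℝ) : ℂ) • ic c n (Xm m G) =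
      -∑ n, ∑ m, ((GF.eta n * w m n : ℝ) : ℂ) • ic c n (Xm m G) := by
    conv_lhs => rw [Finset.sum_comm]
    rw [← Finset.sum_neg_distrib]
    refine Finset.sum_congr rfl fun m _ => ?_
    rw [← Finset.sum_neg_distrib]
    refine Finset.sum_congr rfl fun n _ => ?_
    rw [hw m n, hS m n, ofReal_neg, neg_smul]
  have h2 : (2 : ℂ) • ∑ n, ∑ m, ((GF.eta n * w m n : ℝ) : ℂ) • ic c n (Xm m G) = 0 := by
    rw [two_smul]
    nth_rewrite 1 [h1]
    exact neg_add_cancel _
  exact (smul_eq_zero.1 h2).resolve_left two_ne_zero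

/-- the moment of the improvement term of a similitude -/
lemma ic_sim (a : V) (r : ℝ) (w : Ix → V) (hw : ∀ m n, GF.eta n * w m n = -(GF.eta m * w n m)) :
    ∑ n, ic c n (((GF.eta n * a n : ℝ) : ℂ) • G + ((GF.eta n * r : ℝ) : ℂ) • Xm n G +
      ∑ m, ((GF.eta n * w m n : ℝ) : ℂ) • Xm m G) = -((r : ℂ) • c o G) := by
  have hz : ∀ n, ic c n G = 0 := fun n => hc.imp hG n
  have hs : ∀ (n : Ix) (g : Ix → 𝓢(Mink, ℂ)), ic c n (∑ m, g m) = ∑ m, ic c n (g m) := by
    intro n g
    simp only [Fin.sum_univ_four, ic_add hc]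
  simp only [ic_add hc, hs, ic_smul hc, hz, smul_zero, zero_add, Finset.sum_add_distrib]
  rw [ic_lor hc hG w hw, add_zero]
  have h1 : ∀ n, ((GF.eta n * r : ℝ) : ℂ) • ic c n (Xm n G) =
      (r : ℂ) • ((GF.eta n : ℂ) • ic c n (Xm n G)) := by
    intro n
    rw [smul_smul]
    push_cast
    rw [mul_comm]
  simp only [h1]
  rw [← Finset.smul_sum, ic_dil hc hG, smul_neg]

end

/-- the velocity field of a curve of similitudes -/
lemma vel_isSim {s : ℝ → ℝ} {L : ℝ → Ix → V} {a : ℝ → V} {X : V → V} {r : ℝ} (h0 : s 0 = 1)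
    (hL0 : L 0 = GF.one) (hp : ∀ e, 0 < s e ∧ GF.IsLor (L e))
    (hs : HasDerivAt s r 0)
    (hX : ∀ x n, HasDerivAt (fun e => sim (s e) (L e) (a e) x n) (X x n) 0) : H15.IsSim r X := by
  have e0 : ∀ e n, sim (s e) (L e) (a e) 0 n = a e n := by
    intro e n
    simp [sim]
  have e1 : ∀ e m n, sim (s e) (L e) (a e) (bas m 1) n = a e n + s e * L e m n := by
    intro e m n
    unfold sim
    rw [Finset.sum_eq_single m]
    · simp [bas]
    · intro k _ hk
      simp [bas, hk]
    · simp
  have ha : ∀ n, HasDerivAt (fun e => a e n) (X 0 n) 0 := by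
    intro n
    have := hX 0 n
    simp only [e0] at this
    exact this
  have hM : ∀ m n, HasDerivAt (fun e => s e * L e m n) (X (bas m 1) n - X 0 n) 0 := by
    intro m n
    have h1 := (hX (bas m 1) n).sub (ha n)
    have h2 : (fun e => sim (s e) (L e) (a e) (bas m 1) n) - (fun e => a e n) =
        fun e => s e * L e m n := by
      funext e
      simp only [Pi.sub_apply, e1]
      ring
    rw [h2] at h1
    exact h1
  have hs0 : s 0 ≠ 0 := by rw [h0]; exact one_ne_zero
  have hL : ∀ m n, HasDerivAt (fun e => L e m n)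
      (X (bas m 1) n - X 0 n - r * (if m = n then 1 else 0)) 0 := by
    intro m n
    have h1 := (hM m n).div hs hs0
    have h2 : ((fun e => s e * L e m n) / s) = fun e => L e m n := by
      funext e
      have := (hp e).1.ne'
      simp only [Pi.div_apply]
      field_simp
    rw [h2] at h1
    refine h1.congr_deriv ?_
    rw [h0, hL0]
    have : GF.one m n = if m = n then (1:ℝ) else 0 := by
      simp [GF.one, bas, eq_comm]
    rw [this]
    ring
  refine ⟨fun n => X 0 n, fun m n => X (bas m 1) n - X 0 n - r * (if m = n then 1 else 0), ?_, ?_⟩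
  · intro m n
    have h1 : HasDerivAt (fun e => GF.mdot (L e m) (L e n)) (∑ k, GF.eta k *
        ((X (bas m 1) k - X 0 k - r * (if m = k then 1 else 0)) * GF.one n k + GF.one m k *
          (X (bas n 1) k - X 0 k - r * (if n = k then 1 else 0)))) 0 := by
      have h2 : (fun e => GF.mdot (L e m) (L e n)) =
          fun e => ∑ k, GF.eta k * (L e m k * L e n k) := by
        funext e
        unfold GF.mdot
        exact Finset.sum_congr rfl fun k _ => by ring
      rw [h2]
      apply HasDerivAt.fun_sum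
      intro k _
      have h3 := ((hL m k).mul (hL n k)).const_mul (GF.eta k)
      simp only [hL0] at h3
      exact h3
    have h4 : (fun e => GF.mdot (L e m) (L e n)) = fun _ => bas m (GF.eta m) n := by
      funext e
      exact (hp e).2.1 m n
    rw [h4] at h1
    have h5 := h1.unique (hasDerivAt_const 0 _)
    have h6 : ∀ k l : Ix, GF.one k l = if l = k then (1:ℝ) else 0 := fun k l => rfl
    simp only [h6] at h5
    have h7 : ∑ k, GF.eta k * ((X (bas m 1) k - X 0 k - r * (if m = k then 1 else 0)) *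
        (if k = n then 1 else 0) + (if k = m then 1 else 0) *
          (X (bas n 1) k - X 0 k - r * (if n = k then 1 else 0))) =
        GF.eta n * (X (bas m 1) n - X 0 n - r * (if m = n then 1 else 0)) +
        GF.eta m * (X (bas n 1) m - X 0 m - r * (if n = m then 1 else 0)) := by
      simp only [mul_add, Finset.sum_add_distrib]
      congr 1
      · rw [Finset.sum_eq_single n]
        · simp
        · intro k _ hk
          simp [hk]
        · simp
      · rw [Finset.sum_eq_single m]
        · simp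
        · intro k _ hk
          simp [hk]
        · simp
    rw [h7] at h5
    linarith
  · intro z n
    have h1 : HasDerivAt (fun e => a e n + ∑ m, z m * (s e * L e m n))
        (X 0 n + ∑ m, z m * (X (bas m 1) n - X 0 n)) 0 := by
      refine (ha n).add ?_
      apply HasDerivAt.fun_sum
      intro m _
      exact (hM m n).const_mul (z m)
    have h2 : (fun e => a e n + ∑ m, z m * (s e * L e m n)) =
        fun e => sim (s e) (L e) (a e) z n := by
      funext e
      unfold sim
      rw [Finset.mul_sum]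
      congr 1
      exact Finset.sum_congr rfl fun m _ => by ring
    rw [h2] at h1
    rw [(hX z n).unique h1]
    have h3 : ∑ m, z m * (X (bas m 1) n - X 0 n) = r * z n +
        ∑ m, z m * (X (bas m 1) n - X 0 n - r * (if m = n then 1 else 0)) := by
      have h4 : r * z n = ∑ m, z m * (r * (if m = n then 1 else 0)) := by
        rw [Finset.sum_eq_single n]
        · simp
          ring
        · intro k _ hk
          simp [hk]
        · simp
      rw [h4, ← Finset.sum_add_distrib]
      exact Finset.sum_congr rfl fun m _ => by ring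
    rw [h3]
    ring

/-- the cutoffs multiplied by a similitude field -/
lemma sim_fl {X : V → V} {c : V} {r : ℝ} {w : Ix → V}
    (hX : ∀ z n, X z n = c n + r * z n + ∑ m, z m * w m n) (n : Ix) (G : 𝓢(Mink, ℂ)) :
    (fun x => ((GF.eta n * X x n : ℝ) : ℂ) * fl G x) =
      fl (((GF.eta n * c n : ℝ) : ℂ) • G + ((GF.eta n * r : ℝ) : ℂ) • Xm n G +
        ∑ m, ((GF.eta n * w m n : ℝ) : ℂ) • Xm m G) := by
  funext x
  rw [fl_apply, fl_apply, hX]
  simp only [SchwartzMap.add_apply, SchwartzMap.smul_apply, SchwartzMap.sum_apply, Xm_apply,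
    smul_eq_mul, Fin.sum_univ_four]
  push_cast
  ring

variable {Q : GF.Theory D} {T : Ix → Ix → GF.Fld D} {J : Ix → GF.Fld D}

/-- **The charges of the improved tensor.** -/
theorem ch_curl (hT : Q.IsStress T) (hJ : IsVirial Q T J) (hc0 : Curl J Q.vac) {F : ℝ → Fn}
    {B : GF.Fld D} {f : Fn} (hF : GF.IsCutoff F) (hB : Q.fld B) (hft : GF.IsTest f)
    (hfc : HasCompactSupport f) : ∀ᶠ R in atTop, ∀ r X v, H15.IsSim r X →
      chJ (improveJ T J) (fun _ _ _ => 0) X r (F R) (B f v) -
        B f (chJ (improveJ T J) (fun _ _ _ => 0) X r (F R) v) =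
      chJ T J X r (F R) (B f v) - B f (chJ T J X r (F R) v) := by
  have hc : ∀ v : D, Curl J v := fun v => hJ.vfld.curl hc0 v
  have hf : ∀ m n, Q.fld (T m n) := fun m n => Q.bose_fld _ (hT.bose m n)
  have hJf : ∀ m, Q.fld (J m) := fun m => Q.bose_fld _ (hJ.bose m)
  obtain ⟨f, rfl⟩ := exists_fl hft
  filter_upwards [sep_cut' hF (hasCompactSupport_of_fl hfc)] with R hR
  obtain ⟨G, hG, hs⟩ := hR
  rintro r X v ⟨c, w, hw, hX⟩
  have hC : Cur (fun k E => cm (J k) (fl E) B (fl f) v) f :=
    { add := fun k E E' => by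
        unfold cm
        rw [fld_addf (hJf k), fld_addf (hJf k), fld_add hB]
        abel
      smul := fun k z E => by
        unfold cm
        rw [fld_smulf (hJf k), fld_smulf (hJf k), fld_smul hB, smul_sub]
      sep := fun k E hE => by
        unfold cm
        rw [Q.loc (J k) B _ _ v (hJ.bose k) hB (isTest_fl _) (isTest_fl _) (sep_fl hE),
          sub_self]
      curl := fun m n E => by
        unfold cm
        rw [smul_sub, smul_sub, hc (B (fl f) v) m n E, ← fld_smul hB, ← fld_smul hB,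
          hc v m n E] }
  have hcm : ∀ (n : Ix) (E : 𝓢(Mink, ℂ)), cm (improveJ T J o n) (fl E) B (fl f) v =
      cm (T o n) (fl E) B (fl f) v + ic (fun k E => cm (J k) (fl E) B (fl f) v) n E := by
    intro n E
    unfold cm ic
    rw [improveJ_fl', improveJ_fl', fld_add hB]
    unfold iJ
    simp only [Fin.sum_univ_four, fld_add hB, fld_smul hB, smul_add, smul_sub]
    rw [← neg_one_smul ℂ (_ • J o _ v), fld_smul hB, fld_smul hB, neg_one_smul]
    abel
  have key := ic_sim hC hs c r w hw
  rw [← hG]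
  unfold chJ
  simp only [sim_fl hX, smul_zero, sub_zero]
  have hsub : ∀ v w : D, B (fl f) (v - w) = B (fl f) v - B (fl f) w := by
    intro v w
    rw [sub_eq_add_neg, ← neg_one_smul ℂ, fld_add hB, fld_smul hB, neg_one_smul, sub_eq_add_neg]
  have hsum : ∀ g : Ix → D, B (fl f) (∑ n, g n) = ∑ n, B (fl f) (g n) := by
    intro g
    simp only [Fin.sum_univ_four, fld_add hB]
  rw [hsum, hsub, hsum, fld_smul hB, ← Finset.sum_sub_distrib]
  have e1 : ∀ n (E : 𝓢(Mink, ℂ)), improveJ T J o n (fl E) (B (fl f) v) -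
      B (fl f) (improveJ T J o n (fl E) v) = T o n (fl E) (B (fl f) v) -
        B (fl f) (T o n (fl E) v) + ic (fun k E => cm (J k) (fl E) B (fl f) v) n E := hcm
  simp only [e1, Finset.sum_add_distrib, Finset.sum_sub_distrib]
  rw [key]
  unfold cm
  rw [smul_sub]
  abel

/-- **The improved tensor of a curl free virial current has the right charges.** -/
theorem simGen_curl (hT : Q.IsStress T) (hJ : IsVirial Q T J) (hc0 : Curl J Q.vac)
    (h : SimGen Q T J) : SimGen Q (improveJ T J) (fun _ _ _ => 0) := by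
  intro F s L a X r A f v w hF h0 hL0 ha0 hp hs hX hA hf hfc
  obtain ⟨d, hd, hl⟩ := h F s L a X r A f v w hF h0 hL0 ha0 hp hs hX hA hf hfc
  refine ⟨d, hd, hl.congr' ?_⟩
  have hS := vel_isSim h0 hL0 hp hs hX
  filter_upwards [ch_curl hT hJ hc0 hF hA hf hfc] with R hR
  rw [hR r X v hS]

end Vale.Agent.P352.H496

end
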