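import Vale.Agent.P352.H846.Al

set_option linter.all false

noncomputable section

open MeasureTheory Filter Topology Set
open scoped ContDiff ComplexConjugate

namespace Vale.Agent.P352.H496

open GF (Ix V Fn sim bas eta o bar)
open H246 H755 H846 H15

variable {D : Type*} [NormedAddCommGroup D] [InnerProductSpace ℂ D]
variable {Q : GF.Theory D} {T : Ix → Ix → GF.Fld D} {J : Ix → GF.Fld D}
variable {A : (V → V) → D → D} {K : V → D → D}

lemma fun_uniqueR {h h' : ℝ → ℂ} (hc : Continuous h) (hc' : Continuous h')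
    (he : ∀ g : ℝ → ℝ, Tst g → ∫ x, (g x : ℂ) * h x = ∫ x, (g x : ℂ) * h' x) : h = h' := by
  have h1 : ∀ᵐ x ∂(volume : Measure ℝ), h x = h' x := by
    refine ae_eq_of_integral_contDiff_smul_eq hc.locallyIntegrable hc'.locallyIntegrable
      fun g hg hgc => ?_
    have := he g ⟨hg, hgc⟩
    simpa only [Complex.real_smul] using this
  exact Continuous.ae_eq_iff_eq volume hc hc' |>.1 h1

/-- translates of test functions -/
lemma tst_shift {F : V → ℝ} (hF : Tst F) (y : V) : Tst fun x => F (x - y) := by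
  refine ⟨hF.1.comp (contDiff_id.sub contDiff_const), ?_⟩
  exact hF.2.comp_homeomorph (Homeomorph.subRight y)

/-- the translated smeared tensor -/
lemma sm_transl (hT : Q.IsStress T) {F : Ix → Ix → V → ℝ} (hF : ∀ m n, Tst (F m n)) (y : V)
    (v : D) : Q.U 1 GF.one y (sm T F (Q.U 1 GF.one (-y) v)) =
      sm T (fun m n x => F m n (x - y)) v := by
  have hadd : ∀ v w, Q.U 1 GF.one y (v + w) = Q.U 1 GF.one y v + Q.U 1 GF.one y w := fun v w =>
    U_add one_pos isLor_one y v w
  have hsum : ∀ g : Ix → D, Q.U 1 GF.one y (∑ m, g m) = ∑ m, Q.U 1 GF.one y (g m) := by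
    intro g
    simp only [Fin.sum_univ_four, hadd]
  unfold sm
  rw [hsum]
  refine Finset.sum_congr rfl fun m _ => ?_
  rw [hsum]
  refine Finset.sum_congr rfl fun n _ => ?_
  have h1 := Q.transl (T m n) y (fun x => (F m n (x - y) : ℂ)) (Q.U 1 GF.one (-y) v)
    (Q.bose_fld _ (hT.bose m n)) (tst_shift (hF m n) y).isTest
  have e1 : (fun x => ((F m n (sim 1 GF.one y x - y) : ℝ) : ℂ)) = fun x => (F m n x : ℂ) := by
    funext x
    have : sim 1 GF.one y x - y = x := by
      rw [sim_one]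
      funext n
      simp only [Pi.sub_apply]
      ring
    rw [this]
  rw [e1, UU, add_neg_cancel, U0] at h1
  exact h1.symm

/-- the field of the commutator with translations in the null hyperplane -/
def x1 (a y : V) : V → V := fun z => (2 * GF.mdot y z) • a - (2 * GF.mdot a z) • y -
  GF.mdot y y • a

lemma isSim_x1 (a y : V) : IsSim 0 (x1 a y) := by
  refine ⟨-(GF.mdot y y) • a, fun m n => 2 * (eta m * y m) * a n - 2 * (eta m * a m) * y n,
    ?_, ?_⟩
  · intro m n
    have h : ∀ k : Ix, eta k * eta k = 1 := fun k => by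
      unfold GF.eta
      split_ifs <;> norm_num
    ring
  · intro z n
    unfold x1 GF.mdot
    simp only [Pi.sub_apply, Pi.smul_apply, smul_eq_mul, Fin.sum_univ_four]
    ring

lemma sq_shift (a b x y : V) : H15.sq a b (x - y) = H15.sq a b x + 2 * GF.mdot y x -
    2 * GF.mdot b y * GF.mdot a x - 2 * GF.mdot a y * GF.mdot b (x - y) - GF.mdot y y := by
  unfold H15.sq
  simp only [mdx, Pi.sub_apply]
  ring

/-- cut off fields with centre `y` -/
lemma ctf_tst_at {a b : V} (haa : GF.mdot a a = 0) (hbb : GF.mdot b b = 0)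
    (hab : GF.mdot a b = 1) {κ : V → ℝ} (hκ : Tst κ) {ψ : ℝ → ℝ} (hψ : Tst ψ) {R : ℝ}
    (hR : 1 ≤ R) {y : V} (hy : GF.mdot a y = 0) {g : V → ℝ} (hg : ContDiff ℝ ∞ g) :
    Tst fun x => g x * ctf a b κ y ψ R x := by
  have h1 := ctf_tst haa hbb hab hκ hψ hR (hg.comp (contDiff_id.add (contDiff_const (c := y))))
  have h2 := tst_shift h1 y
  have e : (fun x => (g ∘ fun z => id z + y) (x - y) * ctf a b κ 0 ψ R (x - y)) =
      fun x => g x * ctf a b κ y ψ R x := by
    funext x
    have e1 : (g ∘ fun z => id z + y) (x - y) = g x := by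
      show g (x - y + y) = g x
      rw [sub_add_cancel]
    have e2 : ctf a b κ 0 ψ R (x - y) = ctf a b κ y ψ R x := by
      unfold ctf
      have : GF.mdot a (x - y) = GF.mdot a x := by
        have : GF.mdot a (x - y) = GF.mdot a x - GF.mdot a y := by
          simp only [mdx, Pi.sub_apply]
          ring
        rw [this, hy, sub_zero]
      rw [sub_zero, this]
    rw [e1, e2]
  rw [e] at h2
  exact h2

lemma sm_add3 (hT : Q.IsStress T) {F F1 F2 F3 : Ix → Ix → V → ℝ} (h1 : ∀ m n, Tst (F1 m n))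
    (h2 : ∀ m n, Tst (F2 m n)) (h3 : ∀ m n, Tst (F3 m n))
    (h : ∀ m n x, F m n x = F1 m n x + F2 m n x + F3 m n x) (v : D) :
    sm T F v = sm T F1 v + sm T F2 v + sm T F3 v := by
  unfold sm
  rw [← Finset.sum_add_distrib, ← Finset.sum_add_distrib]
  refine Finset.sum_congr rfl fun m _ => ?_
  rw [← Finset.sum_add_distrib, ← Finset.sum_add_distrib]
  refine Finset.sum_congr rfl fun n _ => ?_
  have hf := Q.bose_fld _ (hT.bose m n)
  have e1 := Q.lin (T m n) (fun x => (F1 m n x : ℂ)) (fun x => (F2 m n x : ℂ)) 1 v hf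
    (h1 m n).isTest (h2 m n).isTest
  have h12 : Tst fun x => F1 m n x + F2 m n x := tst_add (h1 m n) (h2 m n)
  have e2 := Q.lin (T m n) (fun x => ((F1 m n x + F2 m n x : ℝ) : ℂ)) (fun x => (F3 m n x : ℂ))
    1 v hf h12.isTest (h3 m n).isTest
  rw [one_smul] at e1 e2
  have a1 : (fun x => (F m n x : ℂ)) =
      fun x => ((F1 m n x + F2 m n x : ℝ) : ℂ) + 1 * (F3 m n x : ℂ) := by
    funext x
    rw [h m n x]
    push_cast
    ring
  have a2 : (fun x => ((F1 m n x + F2 m n x : ℝ) : ℂ)) =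
      fun x => (F1 m n x : ℂ) + 1 * (F2 m n x : ℂ) := by
    funext x
    push_cast
    ring
  rw [a1, e2, a2, e1]

lemma eta_sq (k : Ix) : eta k * eta k = 1 := by
  unfold GF.eta
  split_ifs <;> norm_num

/-- T1: the commutator of `K a` with the translations in the null hyperplane -/
theorem tra_a (h : NullCharges Q T J A K) (hT : Q.IsStress T) {a : V} (ha : IsNull a) {y : V}
    (hy : GF.mdot a y = 0) (v : D) :
    Q.U 1 GF.one y (K a (Q.U 1 GF.one (-y) v)) = K a v +
      A (fun z => -(2 * GF.mdot a y) • z + (2 * GF.mdot y z) • a - (2 * GF.mdot a z) • y +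
        cK a y) v := by
  obtain ⟨b, hb, hab⟩ := exists_dual ha
  obtain ⟨κ, hκ, hκ1⟩ := exists_cutf
  have hX : (fun z => -(2 * GF.mdot a y) • z + (2 * GF.mdot y z) • a - (2 * GF.mdot a z) • y +
      cK a y) = x1 a y := by
    funext z
    unfold x1 cK
    rw [hy]
    simp only [mul_zero, neg_zero, zero_smul, zero_add, zero_sub]
    rw [sub_eq_add_neg _ (GF.mdot y y • a)]
  rw [hX]
  refine ext_inner_left ℂ fun w => ?_
  set c : V := (2 : ℝ) • y - (2 * GF.mdot b y) • a with hc
  have hmove : ∀ (x : V) (u w' : D), inner ℂ (Q.U 1 GF.one (-x) u) w' =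
      inner ℂ u (Q.U 1 GF.one x w') := by
    intro x u w'
    have h1 := Q.U_inner 1 GF.one x (Q.U 1 GF.one (-x) u) w' one_pos isLor_one
    rw [UU, add_neg_cancel, U0] at h1
    exact h1.symm
  -- the two sides as functions of the hyperplane
  set k : ℝ → ℂ := fun u => inner ℂ w (Q.U 1 GF.one (u • b) (K a (Q.U 1 GF.one (-(u • b)) v)))
    with hk
  set k' : ℝ → ℂ := fun u => inner ℂ (Q.U 1 GF.one (-y) w) (Q.U 1 GF.one (u • b)
    (K a (Q.U 1 GF.one (-(u • b)) (Q.U 1 GF.one (-y) v)))) with hk'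
  have hkc : Continuous k := h.cont a b v w ha hb
  have hkc' : Continuous k' := h.cont a b _ _ ha hb
  have key : k' = fun u => k u + inner ℂ w (A (x1 a y) v) + u * inner ℂ w (A (fun _ => c) v) := by
    refine fun_uniqueR hkc' ((hkc.add continuous_const).add
      (Complex.continuous_ofReal.mul continuous_const)) fun ψ hψ => ?_
    set ψ1 : ℝ → ℝ := fun u => u * ψ u with hψ1
    have hψ1t : Tst ψ1 := ⟨contDiff_id.mul hψ.1, hψ.2.mul_left⟩
    have m0 := h.mom a b κ 0 ψ (Q.U 1 GF.one (-y) v) (Q.U 1 GF.one (-y) w)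
      ⟨ha, hb, hab, hκ, hκ1, hψ⟩
    have m1 := h.mom a b κ y ψ v w ⟨ha, hb, hab, hκ, hκ1, hψ⟩
    have g1 := h.gen a b κ y ψ 0 (x1 a y) v w ⟨ha, hb, hab, hκ, hκ1, hψ⟩ (isSim_x1 a y)
    have g2 := h.gen a b κ y ψ1 0 (fun _ => c) v w ⟨ha, hb, hab, hκ, hκ1, hψ1t⟩
      (isSim_const c)
    have hlim := (m1.add g1).add g2
    have heq : ∀ᶠ R : ℝ in atTop,
        inner ℂ (Q.U 1 GF.one (-y) w) (sm T (fun m n x => eta m * a m * (eta n * a n) *
          H15.sq a b x * ctf a b κ 0 ψ R x) (Q.U 1 GF.one (-y) v)) =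
        inner ℂ w (sm T (fun m n x => eta m * a m * (eta n * a n) *
          H15.sq a b x * ctf a b κ y ψ R x) v) +
        inner ℂ w (sm T (fun m n x => eta m * a m * (eta n * x1 a y x n) *
          ctf a b κ y ψ R x) v -
          ∑ m, ((0 : ℝ) : ℂ) • J m (fun x => (eta m * a m * ctf a b κ y ψ R x : ℝ)) v) +
        inner ℂ w (sm T (fun m n x => eta m * a m * (eta n * (fun _ => c) x n) *
          ctf a b κ y ψ1 R x) v -
          ∑ m, ((0 : ℝ) : ℂ) • J m (fun x => (eta m * a m * ctf a b κ y ψ1 R x : ℝ)) v) := by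
      filter_upwards [eventually_ge_atTop (1:ℝ)] with R hR
      have tF0 : ∀ m n, Tst fun x => eta m * a m * (eta n * a n) * H15.sq a b x *
          ctf a b κ 0 ψ R x := fun m n =>
        ctf_tst ha.1 hb.1 hab hκ hψ hR (contDiff_const.mul (contDiff_sq a b))
      have tF1 : ∀ m n, Tst fun x => eta m * a m * (eta n * a n) * H15.sq a b x *
          ctf a b κ y ψ R x := fun m n =>
        ctf_tst_at ha.1 hb.1 hab hκ hψ hR hy (contDiff_const.mul (contDiff_sq a b))
      have hx1 : ∀ n, ContDiff ℝ ∞ fun x => x1 a y x n := by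
        intro n
        unfold x1
        simp only [Pi.sub_apply, Pi.smul_apply, smul_eq_mul]
        exact (((contDiff_const.mul (contDiff_mdot y)).mul contDiff_const).sub
          ((contDiff_const.mul (contDiff_mdot a)).mul contDiff_const)).sub contDiff_const
      have tF2 : ∀ m n, Tst fun x => eta m * a m * (eta n * x1 a y x n) *
          ctf a b κ y ψ R x := fun m n =>
        ctf_tst_at ha.1 hb.1 hab hκ hψ hR hy (contDiff_const.mul (contDiff_const.mul (hx1 n)))
      have tF3 : ∀ m n, Tst fun x => eta m * a m * (eta n * (fun _ => c) x n) *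
          ctf a b κ y ψ1 R x := fun m n =>
        ctf_tst_at ha.1 hb.1 hab hκ hψ1t hR hy contDiff_const
      have z0 : ∀ φ : ℝ → ℝ, ∑ m, ((0 : ℝ) : ℂ) •
          J m (fun x => (eta m * a m * ctf a b κ y φ R x : ℝ)) v = 0 := by
        intro φ
        simp
      rw [z0, z0, sub_zero, sub_zero, ← inner_add_right, ← inner_add_right, hmove,
        sm_transl hT tF0]
      congr 1
      refine sm_add3 hT tF1 tF2 tF3 (fun m n x => ?_) v
      have e2 : ctf a b κ 0 ψ R (x - y) = ctf a b κ y ψ R x := by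
        unfold ctf
        have : GF.mdot a (x - y) = GF.mdot a x := by
          have : GF.mdot a (x - y) = GF.mdot a x - GF.mdot a y := by
            simp only [mdx, Pi.sub_apply]
            ring
          rw [this, hy, sub_zero]
        rw [sub_zero, this]
      have e3 : ctf a b κ y ψ1 R x = GF.mdot a x * ctf a b κ y ψ R x := by
        unfold ctf
        rw [hψ1]
        ring
      rw [e2, e3, sq_shift, hy, hc]
      unfold x1
      simp only [Pi.sub_apply, Pi.smul_apply, smul_eq_mul]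
      ring
    have hu := tendsto_nhds_unique (m0.congr' heq) hlim
    have i1 : Integrable fun u : ℝ => (ψ u : ℂ) * k u := by
      have hcc : Continuous fun u : ℝ => (ψ u : ℂ) * k u :=
        (Complex.continuous_ofReal.comp hψ.1.continuous).mul hkc
      exact hcc.integrable_of_hasCompactSupport
        (hψ.2.comp_left (g := fun r : ℝ => (r : ℂ)) (by simp)).mul_right
    have i2 : Integrable fun u : ℝ => (ψ u : ℂ) := by
      have hcc : Continuous fun u : ℝ => (ψ u : ℂ) :=
        Complex.continuous_ofReal.comp hψ.1.continuous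
      exact hcc.integrable_of_hasCompactSupport
        (hψ.2.comp_left (g := fun r : ℝ => (r : ℂ)) (by simp))
    have i3 : Integrable fun u : ℝ => (ψ1 u : ℂ) := by
      have hcc : Continuous fun u : ℝ => (ψ1 u : ℂ) :=
        Complex.continuous_ofReal.comp hψ1t.1.continuous
      exact hcc.integrable_of_hasCompactSupport
        (hψ1t.2.comp_left (g := fun r : ℝ => (r : ℂ)) (by simp))
    show ∫ u, (ψ u : ℂ) * k' u = _
    have e0 : ∫ u, (ψ u : ℂ) * k' u = ∫ u, (ψ u : ℂ) * inner ℂ (Q.U 1 GF.one (-y) w)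
        (Q.U 1 GF.one (u • b) (K a (Q.U 1 GF.one (-(u • b)) (Q.U 1 GF.one (-y) v)))) := rfl
    rw [e0, hu]
    have e4 : (fun u : ℝ => (ψ u : ℂ) * (k u + inner ℂ w (A (x1 a y) v) +
        u * inner ℂ w (A (fun _ => c) v))) = fun u : ℝ => ((ψ u : ℂ) * k u +
        (ψ u : ℂ) * inner ℂ w (A (x1 a y) v)) + (ψ1 u : ℂ) * inner ℂ w (A (fun _ => c) v) := by
      funext u
      rw [hψ1]
      push_cast
      ring
    have s1 : ∫ u : ℝ, (((ψ u : ℂ) * k u + (ψ u : ℂ) * inner ℂ w (A (x1 a y) v)) +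
        (ψ1 u : ℂ) * inner ℂ w (A (fun _ => c) v)) =
        (∫ u : ℝ, ((ψ u : ℂ) * k u + (ψ u : ℂ) * inner ℂ w (A (x1 a y) v))) +
        ∫ u : ℝ, (ψ1 u : ℂ) * inner ℂ w (A (fun _ => c) v) :=
      integral_add (i1.add (i2.mul_const _)) (i3.mul_const _)
    have s2 : ∫ u : ℝ, ((ψ u : ℂ) * k u + (ψ u : ℂ) * inner ℂ w (A (x1 a y) v)) =
        (∫ u : ℝ, (ψ u : ℂ) * k u) + ∫ u : ℝ, (ψ u : ℂ) * inner ℂ w (A (x1 a y) v) :=
      integral_add i1 (i2.mul_const _)
    rw [e4, s1, s2, integral_mul_const, integral_mul_const]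
  have h0 := congrFun key 0
  have ek : k 0 = inner ℂ w (K a v) := by
    show inner ℂ w (Q.U 1 GF.one ((0 : ℝ) • b) (K a (Q.U 1 GF.one (-((0 : ℝ) • b)) v))) = _
    rw [zero_smul, neg_zero, U0, U0]
  have ek' : k' 0 = inner ℂ w (Q.U 1 GF.one y (K a (Q.U 1 GF.one (-y) v))) := by
    show inner ℂ (Q.U 1 GF.one (-y) w) (Q.U 1 GF.one ((0 : ℝ) • b)
      (K a (Q.U 1 GF.one (-((0 : ℝ) • b)) (Q.U 1 GF.one (-y) v)))) = _
    rw [zero_smul, neg_zero, U0, U0, hmove]
  rw [ek, ek', Complex.ofReal_zero, zero_mul, add_zero] at h0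
  rw [h0, inner_add_right]

end Vale.Agent.P352.H496
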