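import Vale.Agent.P352.H746.Br7
import Vale.Agent.P352.H496.Main2

set_option linter.all false

noncomputable section

open MeasureTheory Filter Topology

namespace Vale.Agent.P352.H496

open GF (Ix V Fn Fld Theory eta o improve tr)
open H246 H15
open UniformSpace (Completion)

variable {D : Type*} [NormedAddCommGroup D] [InnerProductSpace ℂ D]
variable {Q : GF.Theory D} {T : Ix → Ix → GF.Fld D} {J : Ix → GF.Fld D}
variable {H : D → D} {alg : Set V → Set (D → D)} {S : V → ℝ → D → D} {G : V → D → D}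
  {A : (V → V) → D → D}

/-- **The bridge between the vacuum criterion and conformal invariance.** -/
theorem v4_core (hT : Q.IsStress T) (hJ : IsVirial Q T J) (N : CNet Q H alg S)
    (Gg : Gnr Q alg S G) {l : Fn → Completion D} (hl : IsPot Q T l)
    (h : NullCharges Q T J A G) :
    (H746.Inv S l → (∀ a b κ y ψ v w, Adm a b κ ψ → Tendsto (fun R => inner ℂ w
        (tr T (fun x => (ctf a b κ y ψ R x : ℂ)) v)) atTop (𝓝 0)) ∧
      ∃ C : V → D → D,
      (∀ a b κ y ψ v w, Adm a b κ ψ → Tendsto (fun R => inner ℂ w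
        (∑ m, J m (fun x => (eta m * a m * ctf a b κ y ψ R x : ℝ)) v)) atTop
        (𝓝 ((∫ u, (ψ u : ℂ)) * inner ℂ w (C a v)))) ∧
      (ConfGen Q A G ↔ ∀ a v, IsNull a → C a v = 0)) ∧
    (ConfGen Q A G → H746.Inv S l ∧ ∃ (Q' : Theory D) (L : Fld D), IsEnl Q Q' ∧
      Q'.IsScalar L 2 ∧ Q'.IsStress (improve T L) ∧
      ∀ f v, GF.IsTest f → tr (improve T L) f v = 0) := by
  have hbr := fun hi => H746.tr_of_inv hT hJ N Gg h hl hi
  refine ⟨fun hi => ⟨hbr hi, ?_⟩, fun hc => ⟨inv_of_conf hT hJ N Gg hc (Or.inl h.mom) hl, ?_⟩⟩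
  · obtain ⟨C, h1, -, h3⟩ := H121.charge hT hJ h (hbr hi)
    exact ⟨C, h1, h3⟩
  · obtain ⟨Q', L, h1, h2, h3, h4, -⟩ := main2 hT hJ hc (Or.inl h.mom)
    exact ⟨Q', L, h1, h2, h3, h4.traceless⟩

end Vale.Agent.P352.H496

end
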