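import Vale.Agent.P352.H496.InvC
import Vale.Agent.P352.H746.Nec3
import Vale.Agent.P352.H746.NoGen
import Vale.Agent.P352.H731.Key

set_option linter.all false

noncomputable section

open MeasureTheory Filter Topology

namespace Vale.Agent.P352.H496

open GF (Ix V Fn Fld Theory eta o improve tr)
open H246 H15 H755
open UniformSpace (Completion)

variable {D : Type*} [NormedAddCommGroup D] [InnerProductSpace ℂ D]
variable {Q : GF.Theory D} {T : Ix → Ix → GF.Fld D} {J : Ix → GF.Fld D}
variable {H : D → D} {alg : Set V → Set (D → D)} {S : V → ℝ → D → D} {G : V → D → D}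
  {A : (V → V) → D → D} {K : V → D → D}

/-- **The bridge**: given the charges on null hyperplanes, the vacuum criterion, the form valued
trace identity, the on-shell dilaton constraint and conformal invariance are equivalent. -/
theorem v5_core (hT : Q.IsStress T) (hJ : IsVirial Q T J)
    (N : CNet Q H alg S) (Gg : Gnr Q alg S G) {l : Fn → Completion D}
    (hl : IsPot Q T l) (h : NullCharges Q T J A K) {k : ℂ} (hk : k = 0 ↔ H746.Inv S l) :
    List.TFAE [k = 0, ∃ Λ, IsForm Q T l Λ, H121.TrNull T,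
      ∃ L : Fld D, ∀ Q₁ : Theory D, IsEnl Q Q₁ → ∃ Q₂ : Theory D, IsEnl Q₁ Q₂ ∧
        Q₂.IsScalar L 2 ∧ Q₂.IsStress (improve T L) ∧ IsImpr Q₂ T (improve T L) ∧
        ConfAct Q₂ (improve T L)] := by
  obtain ⟨-, hform, -⟩ := criterion2 hT N.toNet hl
  tfae_have 1 → 2 := fun h0 => hform (hk.1 h0)
  tfae_have 2 → 3 := fun ⟨Λ, hF⟩ => H746.tr_of_form hT hJ h hl hF
  tfae_have 3 → 4 := fun ht => H746.main_key hT hJ h ht
    fun a b ha hb hab => H731.key hT hJ h ht ha hb hab
  tfae_have 4 → 1 := fun ⟨L, hL⟩ => by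
    obtain ⟨Q', h1, h2, h3, h4, h5⟩ := hL Q ⟨rfl, rfl, fun _ h => h, fun _ h => h⟩
    exact hk.2 (inv_of_L hT N Gg h1 h2 h4.traceless hl)
  tfae_finish

end Vale.Agent.P352.H496

end
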