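import Vale.Agent.P352.H467.Geo
import Vale.Agent.P352.H148.TlOff
import Vale.Agent.P352.H496.LinTl
import Vale.Agent.P352.H993.TlFin

set_option linter.all false

noncomputable section

open MeasureTheory Filter Topology

namespace Vale.Agent.P352.H496

open GF (Ix V Fn Fld Theory)
open H246 H993
open UniformSpace (Completion)

variable {D : Type*} [NormedAddCommGroup D] [InnerProductSpace ℂ D]
variable {Q : GF.Theory D} {T : Ix → Ix → GF.Fld D}
variable {H : D → D} {alg : Set V → Set (D → D)} {S : V → ℝ → D → D} {G : V → D → D}

/-- **The additivity criterion**: if the generators of the null deformations are additive in the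
null vector, the potential is invariant. -/
theorem inv_of_lin (hT : Q.IsStress T) (N : CNet Q H alg S) (Gg : Gnr Q alg S G)
    {l : Fn → Completion D} (hl : IsPot Q T l) (h : Lin Q T G) : H746.Inv S l := by
  have ha : IsNull (nu 1) := isNull_nu (Or.inl rfl)
  exact (tl_iff hT N Gg hl).1 ⟨nu 1, ha, tl_of_lin
    (fun a y ha hy hay => H467.Geo.exists_quad ha hy hay)
    (fun a y ha hy hay => H467.Geo.exists_wdg ha hy hay)
    (fun a b m n f c ha hb hab hf hr hc => H148.tl_off hT N Gg hl ha hb hab hf hr hc)
    hT N Gg hl ha h⟩

end Vale.Agent.P352.H496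

end
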